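import Mathlib

/-!
# Piecewise linear interpolation of a sequence indexed by the integers
-/

open Set Topology Metric Filter

namespace Vale.Agent.P153.R2.R1

variable {E : Type*} [NormedAddCommGroup E] [NormedSpace ℝ E]

/-- The piecewise linear function with the value `P i` at the integer `i`. -/
noncomputable def pl (P : ℤ → E) (x : ℝ) : E :=
  (1 - Int.fract x) • P ⌊x⌋ + Int.fract x • P (⌊x⌋ + 1)

theorem pl_eq (P : ℤ → E) (i : ℤ) {x : ℝ} (h1 : (i : ℝ) ≤ x) (h2 : x ≤ i + 1) :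
    pl P x = (1 - (x - i)) • P i + (x - i) • P (i + 1) := by
  rcases h2.lt_or_eq with h | h
  · have hf : ⌊x⌋ = i := by
      rw [Int.floor_eq_iff]; exact ⟨h1, h⟩
    rw [pl, ← Int.self_sub_floor, hf]
  · have hx : x = ((i + 1 : ℤ) : ℝ) := by push_cast; exact h
    have hf : ⌊x⌋ = i + 1 := by rw [hx, Int.floor_intCast]
    have hfr : Int.fract x = 0 := by rw [hx, Int.fract_intCast]
    have hxi : x - i = 1 := by rw [h]; ring
    rw [pl, hf, hfr, hxi]
    simp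

theorem pl_int (P : ℤ → E) (i : ℤ) : pl P i = P i := by
  rw [pl_eq P i le_rfl (by linarith)]
  simp

theorem continuous_pl (P : ℤ → E) : Continuous (pl P) := by
  have hlf : LocallyFinite fun i : ℤ => Icc (i : ℝ) (i + 1) := by
    intro x
    refine ⟨Ioo (x - 1) (x + 1), Ioo_mem_nhds (by linarith) (by linarith), ?_⟩
    refine (Set.finite_Icc (⌊x⌋ - 3) (⌊x⌋ + 3)).subset ?_
    rintro i ⟨y, hy1, hy2⟩
    have h1 := Int.floor_le x
    have h2 := Int.lt_floor_add_one x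
    have h3 : (i : ℝ) < ⌊x⌋ + 3 := by linarith [hy1.1, hy2.2]
    have h4 : (⌊x⌋ : ℝ) - 3 < i := by linarith [hy1.2, hy2.1]
    have h5 : i < ⌊x⌋ + 3 := by exact_mod_cast h3
    have h6 : ⌊x⌋ - 3 < i := by exact_mod_cast h4
    exact ⟨h6.le, h5.le⟩
  refine hlf.continuous ?_ (fun i => isClosed_Icc) ?_
  · refine eq_univ_of_forall fun x => mem_iUnion.2 ⟨⌊x⌋, Int.floor_le x, ?_⟩
    exact (Int.lt_floor_add_one x).le
  · intro i
    refine ContinuousOn.congr (f := fun x : ℝ => (1 - (x - i)) • P i + (x - i) • P (i + 1)) ?_ ?_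
    · fun_prop
    · intro x hx
      exact pl_eq P i hx.1 hx.2

theorem pl_mem_segment (P : ℤ → E) (x : ℝ) : pl P x ∈ segment ℝ (P ⌊x⌋) (P (⌊x⌋ + 1)) :=
  ⟨1 - Int.fract x, Int.fract x, by linarith [Int.fract_lt_one x], Int.fract_nonneg x,
    by ring, rfl⟩

theorem exists_pl_of_segment (P : ℤ → E) (i : ℤ) {z : E} (hz : z ∈ segment ℝ (P i) (P (i + 1))) :
    ∃ x ∈ Icc (i : ℝ) (i + 1), pl P x = z := by
  obtain ⟨a, b, ha, hb, hab, rfl⟩ := hz
  refine ⟨i + b, ⟨by linarith, by linarith⟩, ?_⟩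
  rw [pl_eq P i (by linarith) (by linarith), add_sub_cancel_left]
  have : 1 - b = a := by linarith
  rw [this]

theorem pl_add (P : ℤ → E) (Q : ℤ → E) (N : ℤ) (v : E) (h : ∀ i, P (i + N) = P i + v) (x : ℝ) :
    pl P (x + N) = pl P x + v := by
  have h1 : ⌊x + (N : ℝ)⌋ = ⌊x⌋ + N := Int.floor_add_intCast x N
  have h2 : Int.fract (x + (N : ℝ)) = Int.fract x := Int.fract_add_intCast x N
  rw [pl, pl, h1, h2, h, show ⌊x⌋ + N + 1 = ⌊x⌋ + 1 + N by ring, h]
  module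

theorem monotone_pl {s : ℤ → ℝ} (hs : Monotone s) : Monotone (pl s) := by
  have hstep : ∀ (i : ℤ) (x y : ℝ), (i : ℝ) ≤ x → x ≤ y → y ≤ i + 1 → pl s x ≤ pl s y := by
    intro i x y h1 h2 h3
    rw [pl_eq s i h1 (h2.trans h3), pl_eq s i (h1.trans h2) h3]
    have h4 : s i ≤ s (i + 1) := hs (by omega)
    simp only [smul_eq_mul]
    nlinarith
  have hval : ∀ x : ℝ, s ⌊x⌋ ≤ pl s x ∧ pl s x ≤ s (⌊x⌋ + 1) := by
    intro x
    have h1 := hstep ⌊x⌋ ⌊x⌋ x le_rfl (Int.floor_le x) (Int.lt_floor_add_one x).le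
    have h2 := hstep ⌊x⌋ x (⌊x⌋ + 1) (Int.floor_le x) (Int.lt_floor_add_one x).le le_rfl
    rw [pl_int] at h1
    have h3 : pl s ((⌊x⌋ : ℝ) + 1) = s (⌊x⌋ + 1) := by
      have := pl_int s (⌊x⌋ + 1)
      push_cast at this
      exact this
    rw [h3] at h2
    exact ⟨h1, h2⟩
  intro x y hxy
  rcases (Int.floor_le_floor hxy).lt_or_eq with h | h
  · exact (hval x).2.trans ((hs (by omega)).trans (hval y).1)
  · exact hstep ⌊x⌋ x y (Int.floor_le x) hxy (by rw [h]; exact (Int.lt_floor_add_one y).le)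

theorem pl_mem_Icc {s : ℤ → ℝ} (hs : Monotone s) (x : ℝ) :
    pl s x ∈ Icc (s ⌊x⌋) (s (⌊x⌋ + 1)) := by
  have h1 := monotone_pl hs (Int.floor_le x)
  have h2 := monotone_pl hs (Int.lt_floor_add_one x).le
  rw [pl_int] at h1
  have h3 : pl s ((⌊x⌋ : ℝ) + 1) = s (⌊x⌋ + 1) := by
    have := pl_int s (⌊x⌋ + 1)
    push_cast at this
    exact this
  rw [h3] at h2
  exact ⟨h1, h2⟩

end Vale.Agent.P153.R2.R1
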