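import Vale.Agent.P153.R2.R1.HalfP
import Vale.Agent.P153.R2.Final.Defs

/-!
# The uniformizer of a marked Jordan domain
-/

open Set Topology Metric Filter Bornology
open scoped ComplexConjugate

namespace Vale.Agent.P153.R2.R1

open Final

/-- The plane as the complex plane. -/
noncomputable def toCH : (ℝ × ℝ) ≃ₜ ℂ := Complex.equivRealProdCLM.symm.toHomeomorph

theorem toCH_apply (z : ℝ × ℝ) : toCH z = toC z := rfl

theorem continuous_toC : Continuous toC := toCH.continuous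

theorem toC_injective : Function.Injective toC := toCH.injective

variable (Φ : (ℝ × ℝ) ≃ₜ (ℝ × ℝ))

/-- The homeomorphism of the complex plane. -/
noncomputable def homC : ℂ ≃ₜ ℂ := (toCH.symm.trans Φ).trans toCH

/-- The domain. -/
def DC : Set ℂ := toC '' dom Φ

/-- The boundary curve. -/
noncomputable def FC (t : ℝ) : ℂ := toC (Φ (circ t))

theorem toC_circ (t : ℝ) : toC (circ t) = Complex.exp (t * Complex.I) := by
  apply Complex.ext
  · rw [Complex.exp_ofReal_mul_I_re]; rfl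
  · rw [Complex.exp_ofReal_mul_I_im]; rfl

theorem FC_eq (t : ℝ) : FC Φ t = homC Φ (Complex.exp (t * Complex.I)) := by
  rw [← toC_circ]
  show toC (Φ (circ t)) = toCH (Φ (toCH.symm (toCH (circ t))))
  rw [toCH.symm_apply_apply]
  rfl

theorem DC_eq : DC Φ = homC Φ '' ball 0 1 := by
  apply Subset.antisymm
  · rintro _ ⟨_, ⟨z, hz, rfl⟩, rfl⟩
    refine ⟨toC z, ?_, ?_⟩
    · rw [mem_ball_zero_iff, ← sq_lt_one_iff₀ (norm_nonneg _), Complex.sq_norm,
        Complex.normSq_apply]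
      have : z.1 ^ 2 + z.2 ^ 2 < 1 := hz
      show z.1 * z.1 + z.2 * z.2 < 1
      nlinarith
    · show toCH (Φ (toCH.symm (toCH z))) = _
      rw [toCH.symm_apply_apply]
      rfl
  · rintro _ ⟨w, hw, rfl⟩
    refine ⟨Φ (toCH.symm w), ⟨toCH.symm w, ?_, rfl⟩, rfl⟩
    rw [mem_ball_zero_iff, ← sq_lt_one_iff₀ (norm_nonneg _), Complex.sq_norm,
      Complex.normSq_apply] at hw
    show w.re ^ 2 + w.im ^ 2 < 1
    nlinarith

theorem isOpen_DC : IsOpen (DC Φ) := by
  rw [DC_eq]; exact (homC Φ).isOpenMap _ isOpen_ball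

theorem closure_DC : closure (DC Φ) = homC Φ '' closedBall 0 1 := by
  rw [DC_eq, ← (homC Φ).image_closure, closure_ball 0 one_ne_zero]

theorem isBounded_DC : IsBounded (DC Φ) := by
  have h : IsCompact (homC Φ '' closedBall 0 1) :=
    (isCompact_closedBall 0 1).image (homC Φ).continuous
  rw [DC_eq]
  exact h.isBounded.subset (image_mono ball_subset_closedBall)

theorem frontier_DC : frontier (DC Φ) = range (FC Φ) := by
  rw [DC_eq, ← (homC Φ).image_frontier, frontier_ball 0 one_ne_zero]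
  apply Subset.antisymm
  · rintro _ ⟨w, hw, rfl⟩
    refine ⟨w.arg, ?_⟩
    rw [FC_eq]
    congr 1
    have := Complex.norm_mul_exp_arg_mul_I w
    rw [mem_sphere_zero_iff_norm.1 hw] at this
    simpa using this
  · rintro _ ⟨t, rfl⟩
    rw [FC_eq]
    refine mem_image_of_mem _ ?_
    rw [mem_sphere_zero_iff_norm, Complex.norm_exp_ofReal_mul_I]

theorem jcurve_FC : JCurve (FC Φ) (2 * Real.pi) where
  pos := by positivity
  cont := by
    have : FC Φ = fun t : ℝ => homC Φ (Complex.exp (t * Complex.I)) := funext (FC_eq Φ)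
    rw [this]
    exact (homC Φ).continuous.comp (by fun_prop)
  per x := by
    rw [FC_eq, FC_eq]
    congr 1
    push_cast
    rw [add_mul, Complex.exp_add, Complex.exp_two_pi_mul_I, mul_one]
  inj x y h := by
    rw [FC_eq, FC_eq] at h
    have h1 := (homC Φ).injective h
    obtain ⟨n, hn⟩ := Complex.exp_eq_exp_iff_exists_int.1 h1
    refine ⟨n, ?_⟩
    have h2 : ((x : ℂ) - (y + n * (2 * Real.pi))) * Complex.I = 0 := by linear_combination hn
    have h3 := (mul_eq_zero.1 h2).resolve_right Complex.I_ne_zero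
    have h4 : (x : ℂ) = ((y + n * (2 * Real.pi) : ℝ) : ℂ) := by
      push_cast
      exact sub_eq_zero.1 h3
    exact_mod_cast h4

theorem rdom_DC : P153.TOP.RMT.RDom (DC Φ) := by
  have hsc : IsSimplyConnected (DC Φ) := by
    rw [DC_eq, Homeomorph.isSimplyConnected_image]
    exact P153.TOP.RMT.isSimplyConnected_ball
  refine ⟨⟨hsc.nonempty, hsc.isPathConnected.isConnected.isPreconnected⟩, ?_⟩
  intro f hf h0
  obtain ⟨F, hF, hF'⟩ := Complex.exists_continuousOn_eqOn_exp_comp hsc (isOpen_DC Φ) hf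
    (by rintro ⟨z, hz, hz0⟩; exact h0 z hz hz0)
  exact ⟨F, hF, fun x hx => hF' hx⟩

theorem good_DC : Good (DC Φ) where
  isOpen := isOpen_DC Φ
  rdom := rdom_DC Φ
  bdd := isBounded_DC Φ
  lc := (jcurve_FC Φ).lc (frontier_DC Φ)
  nocut := (jcurve_FC Φ).noCut (frontier_DC Φ)

theorem FC_mem_frontier (t : ℝ) : FC Φ t ∈ frontier (DC Φ) := by
  rw [frontier_DC]; exact mem_range_self t

theorem FC_zero_ne_pi : FC Φ 0 ≠ FC Φ Real.pi := by
  intro h
  obtain ⟨k, hk⟩ := (jcurve_FC Φ).inj _ _ h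
  have h1 : (1 + 2 * (k : ℝ)) * Real.pi = 0 := by linarith
  rcases mul_eq_zero.1 h1 with h2 | h2
  · have h3 : (1 + 2 * k : ℤ) = 0 := by exact_mod_cast h2
    omega
  · exact Real.pi_ne_zero h2

theorem isUniformizer_iff (ψ : ℂ → ℂ) :
    IsUniformizer Φ ψ ↔ IsU ψ (DC Φ) (FC Φ 0) (FC Φ Real.pi) :=
  ⟨fun ⟨h1, h2, h3, h4, h5, h6⟩ => ⟨h1, h2, h3, h4, h5, h6⟩,
    fun ⟨h1, h2, h3, h4, h5, h6⟩ => ⟨h1, h2, h3, h4, h5, h6⟩⟩

/-- The half-plane map for a good domain. -/
theorem Good.exists_isU {D : Set ℂ} (h : Good D) (hne : D.Nonempty) {a b : ℂ}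
    (ha : a ∈ frontier D) (hb : b ∈ frontier D) (hab : a ≠ b) :
    ∃ ψ, IsU ψ D a b ∧ InjOn ψ {z | 0 ≤ z.im} := by
  obtain ⟨x, hx⟩ := hne
  obtain ⟨Φ, hΦ, -, -⟩ := h.exists_cconf hx
  rw [← hΦ.frontier_eq] at ha hb
  obtain ⟨α, hα, rfl⟩ := ha
  obtain ⟨β, hβ, rfl⟩ := hb
  rw [mem_sphere_zero_iff_norm] at hα hβ
  have hβ0 : β ≠ 0 := by rintro rfl; simp at hβ
  have hquo : ‖α / β‖ = 1 := by rw [norm_div, hα, hβ, div_one]
  have hquo1 : α / β ≠ 1 := by
    intro h
    rw [div_eq_one_iff_eq hβ0] at h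
    exact hab (by rw [h])
  have hne0 : α / β ≠ 0 := by
    intro h
    rw [h, norm_zero] at hquo
    exact zero_ne_one hquo
  have hc := csq_im_pos hquo hquo1
  refine ⟨fun z => Φ (mb β (csq (α / β)) z), ?_, ?_⟩
  · have h1 := hΦ.isU hβ hc
    rw [mb_zero (norm_csq hquo), csq_sq hne0, mul_div_cancel₀ _ hβ0] at h1
    exact h1
  · intro z hz z' hz' he
    exact mb_injOn hβ hc hz hz' (hΦ.injOn h.nocut (mb_mem_closedBall hβ hc hz)
      (mb_mem_closedBall hβ hc hz') he)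

/-- **Existence of the uniformizer.** -/
theorem exists_uniformizer : ∃ ψ, IsUniformizer Φ ψ := by
  obtain ⟨ψ, h, -⟩ := (good_DC Φ).exists_isU (rdom_DC Φ).nonempty (FC_mem_frontier Φ 0)
    (FC_mem_frontier Φ Real.pi) (FC_zero_ne_pi Φ)
  exact ⟨ψ, (isUniformizer_iff Φ ψ).2 h⟩

end Vale.Agent.P153.R2.R1
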