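import Vale.Agent.P153.R2.R1.PolyC
import Vale.Agent.P153.R2.R1.Jordan

/-!
# Convergence of the lattice polygons to the Jordan domain
-/

open Set Topology Metric Filter Bornology

namespace Vale.Agent.P153.R2.R1

open Final

/-- Extension of the parameters to all integers. -/
noncomputable def st (s : ℕ → ℝ) (N : ℕ) (i : ℤ) : ℝ :=
  s (i % N).toNat + (i / N : ℤ) * (2 * Real.pi)

theorem st_nat {s : ℕ → ℝ} {N : ℕ} {i : ℕ} (hi : i < N) : st s N i = s i := by
  have h1 : ((i : ℤ) % N) = i := Int.emod_eq_of_lt (by omega) (by omega)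
  have h2 : ((i : ℤ) / N) = 0 := Int.ediv_eq_zero_of_lt (by omega) (by omega)
  rw [st, h1, h2]
  simp

theorem st_add {s : ℕ → ℝ} {N : ℕ} (hN : 0 < N) (i : ℤ) :
    st s N (i + N) = st s N i + 2 * Real.pi := by
  have h0 : (N : ℤ) ≠ 0 := by omega
  have h1 : (i + N) % N = i % N := by simp
  have h2 : (i + N) / N = i / N + 1 := Int.add_ediv_of_dvd_right (dvd_refl _) |>.trans
    (by rw [Int.ediv_self h0])
  rw [st, st, h1, h2]
  push_cast
  ring

/-- Bounds for two consecutive parameters, after reduction modulo the period. -/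
theorem st_step {s : ℕ → ℝ} {N : ℕ} (hN : 0 < N) (h0 : s 0 = 0)
    (h2 : s N = 2 * Real.pi) (i : ℤ) :
    st s N i = s (i % N).toNat + (i / N : ℤ) * (2 * Real.pi) ∧
      st s N (i + 1) = s ((i % N).toNat + 1) + (i / N : ℤ) * (2 * Real.pi) := by
  refine ⟨rfl, ?_⟩
  have hN0 : (0 : ℤ) < N := by omega
  have hr0 : 0 ≤ i % N := Int.emod_nonneg i hN0.ne'
  have hr1 : i % N < N := Int.emod_lt_of_pos i hN0
  have hi : i = N * (i / N) + i % N := (Int.mul_ediv_add_emod i N).symm
  by_cases hlt : i % N + 1 < N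
  · have e1 : (i + 1) / N = i / N := by
      have e3 : i + 1 = (i % N + 1) + (i / N) * N := by linarith
      rw [e3, Int.add_mul_ediv_right _ _ hN0.ne', Int.ediv_eq_zero_of_lt (by omega) hlt, zero_add]
    have e2 : (i + 1) % N = i % N + 1 := by
      have e3 : i + 1 = (i % N + 1) + (i / N) * N := by linarith
      rw [e3, Int.add_mul_emod_self_right, Int.emod_eq_of_lt (by omega) hlt]
    rw [st, e1, e2]
    congr 2
    omega
  · have hr : i % N = N - 1 := by omega
    have e1 : (i + 1) / N = i / N + 1 := by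
      have e3 : i + 1 = 0 + (i / N + 1) * N := by linarith
      rw [e3, Int.add_mul_ediv_right _ _ hN0.ne']
      simp
    have e2 : (i + 1) % N = 0 := by
      have e3 : i + 1 = 0 + (i / N + 1) * N := by linarith
      rw [e3, Int.add_mul_emod_self_right]
      simp
    have e4 : (i % N).toNat + 1 = N := by omega
    rw [st, e1, e2, e4, h2]
    simp only [Int.toNat_zero, h0]
    push_cast
    ring

theorem monotone_st {s : ℕ → ℝ} {N : ℕ} (hN : 0 < N) (hs : Monotone s) (h0 : s 0 = 0)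
    (h2 : s N = 2 * Real.pi) : Monotone (st s N) := by
  refine monotone_int_of_le_succ fun i => ?_
  obtain ⟨e1, e2⟩ := st_step hN h0 h2 i
  rw [e1, e2]
  have := hs (Nat.le_succ (i % N).toNat)
  linarith

variable {Φ : (ℝ × ℝ) ≃ₜ (ℝ × ℝ)} {δ : ℕ → ℝ} {N k : ℕ → ℕ} {p : ∀ n, ZMod (N n) → ℤ × ℤ}
  {S : ℕ → Finset Tri}

/-- The boundary curves are uniformly close modulo reparametrisation. -/
theorem approx_close (h : Approx Φ δ N k p S) {ε : ℝ} (hε : 0 < ε) :
    ∀ᶠ n in atTop, ∃ σ : ℝ → ℝ, Continuous σ ∧ Monotone σ ∧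
      (∀ x, σ (x + N n) = σ x + 2 * Real.pi) ∧ σ 0 = 0 ∧ σ (k n) = Real.pi ∧
      ∀ x, dist (PF (p n) (δ n) x) (FC Φ (σ x)) ≤ ε := by
  obtain ⟨h1, h2, h3, -⟩ := h
  have hδ : ∀ᶠ n in atTop, δ n < ε / 2 := h2.eventually (gt_mem_nhds (half_pos hε))
  filter_upwards [hδ, h3 (ε / 4) (by positivity)] with n hδn ⟨s, hs, s0, sk, sN, hsd⟩
  obtain ⟨hδ0, hk0, hkN, hp, -⟩ := h1 n
  have hN : 0 < N n := by omega
  have hmono := monotone_st hN hs s0 sN
  refine ⟨pl (st s (N n)), continuous_pl _, monotone_pl hmono, ?_, ?_, ?_, ?_⟩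
  · intro x
    have := pl_add (st s (N n)) (st s (N n)) (N n) (2 * Real.pi) (st_add hN) x
    exact_mod_cast this
  · have := pl_int (st s (N n)) 0
    rw [Int.cast_zero] at this
    rw [this]
    have e := st_nat (s := s) (N := N n) (i := 0) hN
    rw [Nat.cast_zero] at e
    rw [e, s0]
  · have := pl_int (st s (N n)) (k n)
    rw [Int.cast_natCast] at this
    rw [this, st_nat hkN, sk]
  · intro x
    set i := ⌊x⌋ with hi
    have hσ := pl_mem_Icc hmono x
    rw [← hi] at hσ
    obtain ⟨e1, e2⟩ := st_step hN s0 sN i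
    rw [e1, e2] at hσ
    set r := (i % (N n : ℤ)).toNat with hr
    set q := i / (N n : ℤ) with hq
    have hN0 : (0 : ℤ) < N n := by omega
    have hr0 : 0 ≤ i % (N n : ℤ) := Int.emod_nonneg i hN0.ne'
    have hr1 : i % (N n : ℤ) < N n := Int.emod_lt_of_pos i hN0
    have hrN : r < N n := by omega
    have hpi : p n (i : ZMod (N n)) = p n (r : ZMod (N n)) := by
      congr 1
      have e3 : (i : ZMod (N n)) = ((r : ℤ) : ZMod (N n)) := by
        rw [ZMod.intCast_eq_intCast_iff_dvd_sub]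
        refine ⟨-q, ?_⟩
        have e4 := Int.mul_ediv_add_emod i (N n)
        rw [← hq] at e4
        have e5 : (r : ℤ) = i % (N n) := by omega
        rw [e5]
        linarith
      rw [e3]
      push_cast
      rfl
    have hd := hsd r hrN (pl (st s (N n)) x - q * (2 * Real.pi))
      ⟨by linarith [hσ.1], by linarith [hσ.2]⟩
    have hF : FC Φ (pl (st s (N n)) x - q * (2 * Real.pi)) = FC Φ (pl (st s (N n)) x) := by
      have := per_int (jcurve_FC Φ).per (-q) (pl (st s (N n)) x)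
      push_cast at this
      rw [← this]
      congr 1
      ring
    have h5 := dist_toC_le (δ n • pt (p n r)) (Φ (circ (pl (st s (N n)) x - q * (2 * Real.pi))))
    have h6 : dist (PV (p n) (δ n) i) (FC Φ (pl (st s (N n)) x)) ≤ ε / 2 := by
      rw [← hF, PV, hpi]
      show dist (toC (δ n • pt (p n r))) (toC (Φ (circ _))) ≤ _
      linarith
    have h7 := dist_PF (p := p n) hδ0 hp x
    rw [← hi] at h7
    have h8 := dist_triangle (PF (p n) (δ n) x) (PV (p n) (δ n) i) (FC Φ (pl (st s (N n)) x))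
    linarith

/-- The interior of the lattice polygon. -/
def DP (S : Finset Tri) (δ : ℝ) : Set ℂ := toC '' interior (region δ S)

theorem isOpen_DP (S : Finset Tri) (δ : ℝ) : IsOpen (DP S δ) :=
  toCH.isOpenMap _ isOpen_interior

/-- The facts about polygons which are used. -/
structure PolyFacts {n : ℕ} (p : ZMod n → ℤ × ℤ) (S : Finset Tri) (δ : ℝ) : Prop where
  rdom : P153.TOP.RMT.RDom (DP S δ)
  bdd : IsBounded (DP S δ)
  front : frontier (DP S δ) = range (PF p δ)

theorem PolyFacts.good {n : ℕ} {p : ZMod n → ℤ × ℤ} {S : Finset Tri} {δ : ℝ}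
    (h : PolyFacts p S δ) (hδ : 0 < δ) (hp : IsPolygon p) : Good (DP S δ) where
  isOpen := isOpen_DP S δ
  rdom := h.rdom
  bdd := h.bdd
  lc := (jcurve_PF hδ hp).lc h.front
  nocut := (jcurve_PF hδ hp).noCut h.front

/-- A bounded open set whose frontier lies in a closed ball lies in the ball. -/
theorem subset_closedBall_of_frontier {D : Set ℂ} (hD : IsOpen D) (hb : IsBounded D) {R : ℝ}
    (h : frontier D ⊆ closedBall 0 R) : D ⊆ closedBall 0 R := by
  intro z hz
  by_contra hzR
  have h1 : (closedBall (0 : ℂ) R)ᶜ ⊆ D := by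
    refine subset_of_frontier hD (preconnected_compl_closedBall 0 R) ⟨z, hzR, hz⟩ ?_
    rw [Set.disjoint_left]
    intro x hx hx'
    exact hx (h hx')
  have h2 : IsBounded (closedBall (0 : ℂ) R)ᶜ := hb.subset h1
  have h3 : IsBounded (univ : Set ℂ) := by
    rw [← union_compl_self (closedBall (0 : ℂ) R)]
    exact isBounded_closedBall.union h2
  exact NormedSpace.unbounded_univ ℂ ℂ h3

theorem kconv (h : Approx Φ δ N k p S) (hf : ∀ n, PolyFacts (p n) (S n) (δ n)) :
    KConv atTop (fun n => DP (S n) (δ n)) (DC Φ) where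
  bdd := by
    obtain ⟨R, hR⟩ := (isBounded_DC Φ).closure.subset_closedBall 0
    refine ⟨|R| + 1, by positivity, ?_⟩
    filter_upwards [approx_close h one_pos] with n hn
    obtain ⟨σ, -, -, -, -, -, hd⟩ := hn
    refine subset_closedBall_of_frontier (isOpen_DP _ _) (hf n).bdd ?_
    rw [(hf n).front]
    rintro _ ⟨x, rfl⟩
    have h1 : FC Φ (σ x) ∈ closedBall (0 : ℂ) R :=
      hR (frontier_subset_closure (FC_mem_frontier Φ (σ x)))
    rw [mem_closedBall] at h1 ⊢
    have h2 := dist_triangle (PF (p n) (δ n) x) (FC Φ (σ x)) 0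
    linarith [hd x, le_abs_self R]
  ctrl := by
    intro ε hε
    obtain ⟨η, hη, ε₁, hε₁, hctrl⟩ := (jcurve_FC Φ).ctrl hε
    refine ⟨η, hη, ?_⟩
    filter_upwards [approx_close h hε₁] with n hn
    obtain ⟨σ, hσc, hσm, hσp, -, -, hd⟩ := hn
    obtain ⟨hδ0, -, -, hp, -⟩ := h.1 n
    exact hctrl _ σ (N n) _ (jcurve_PF hδ0 hp).pos continuous_PF PF_per hσc hσm hσp hd
      (hf n).front
  inner := by
    intro K hK hKc
    obtain ⟨r, hr, hrK⟩ := hKc.exists_cthickening_subset_open (isOpen_DC Φ) hK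
    have hK' : IsCompact (toCH.symm '' cthickening r K) := (hKc.cthickening).image toCH.symm.continuous
    have hsub : toCH.symm '' cthickening r K ⊆ dom Φ := by
      rintro _ ⟨z, hz, rfl⟩
      obtain ⟨w, hw, hwz⟩ := hrK hz
      have : toCH.symm z = w := by
        rw [← hwz]
        exact toCH.symm_apply_apply w
      rw [this]
      exact hw
    filter_upwards [h.2.2.2 _ hsub hK'] with n hn z hz
    refine ⟨toCH.symm z, ?_, toCH.apply_symm_apply z⟩
    have h1 : toCH.symm '' thickening r K ⊆ interior (region (δ n) (S n)) :=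
      interior_maximal ((image_mono (thickening_subset_cthickening r K)).trans hn)
        (toCH.symm.isOpenMap _ isOpen_thickening)
    exact h1 (mem_image_of_mem _ (self_subset_thickening hr K hz))
  outer := by
    intro q hq r hr
    rw [frontier_DC] at hq
    obtain ⟨t, rfl⟩ := hq
    filter_upwards [approx_close h (half_pos hr)] with n hn hsub
    obtain ⟨σ, hσc, hσm, hσp, hσ0, -, hd⟩ := hn
    obtain ⟨hδ0, -, -, hp, -⟩ := h.1 n
    -- a parameter of the same point in `[0, 2π]`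
    obtain ⟨j, hj, -⟩ := existsUnique_add_zsmul_mem_Ico (jcurve_FC Φ).pos t 0
    rw [zsmul_eq_mul, zero_add] at hj
    have hN0 : (0 : ℝ) ≤ N n := by positivity
    have hσN : σ (N n) = 2 * Real.pi := by
      have := hσp 0
      rw [zero_add, hσ0, zero_add] at this
      exact this
    obtain ⟨x, -, hx⟩ := intermediate_value_Icc hN0 hσc.continuousOn
      (show t + j * (2 * Real.pi) ∈ Icc (σ 0) (σ (N n)) by
        rw [hσ0, hσN]; exact ⟨hj.1, hj.2.le⟩)
    have h1 := hd x
    rw [hx, per_int (jcurve_FC Φ).per j t] at h1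
    have h2 : PF (p n) (δ n) x ∈ frontier (DP (S n) (δ n)) := by
      rw [(hf n).front]; exact mem_range_self x
    refine notMem_of_frontier (isOpen_DP _ _) h2 (hsub ?_)
    rw [mem_ball]
    linarith

/-- The midpoints of the edges are points of the curve. -/
theorem mid_eq {n : ℕ} {p : ZMod n → ℤ × ℤ} {δ : ℝ} (i : ℤ) :
    mid δ (p i) (p ((i : ZMod n) + 1)) = PF p δ (i + 1 / 2) := by
  have e : PF p δ (i + 1 / 2) = (1 / 2 : ℝ) • PV p δ i + (1 / 2 : ℝ) • PV p δ (i + 1) := by
    rw [PF, pl_eq (PV p δ) i (by linarith) (by linarith)]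
    congr 2 <;> ring
  rw [e, PV, PV, mid]
  push_cast
  apply Complex.ext
  · simp only [toC, Prod.smul_mk, smul_eq_mul, Complex.add_re, Complex.real_smul,
      Complex.re_ofReal_mul, Prod.fst_add, Prod.smul_fst]
    ring
  · simp only [toC, Prod.smul_mk, smul_eq_mul, Complex.add_im, Complex.real_smul,
      Complex.im_ofReal_mul, Prod.snd_add, Prod.smul_snd]
    ring

theorem midA {n : ℕ} (p : ZMod n → ℤ × ℤ) (δ : ℝ) : mid δ (p (-1)) (p 0) = PF p δ (-1 / 2) := by
  have := mid_eq (p := p) (δ := δ) (-1)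
  push_cast at this
  rw [neg_add_cancel] at this
  rw [this]
  norm_num

theorem midB {n : ℕ} (p : ZMod n → ℤ × ℤ) (k : ℕ) (δ : ℝ) :
    mid δ (p ((k : ZMod n) - 1)) (p k) = PF p δ (k - 1 / 2) := by
  have := mid_eq (p := p) (δ := δ) ((k : ℤ) - 1)
  push_cast at this
  rw [sub_add_cancel] at this
  rw [this]
  congr 1
  ring

theorem dist_half {n : ℕ} {p : ZMod n → ℤ × ℤ} {δ : ℝ} (hδ : 0 < δ) (hp : IsPolygon p) (i : ℤ) :
    dist (PF p δ (i - 1 / 2)) (PF p δ i) ≤ δ := by
  have h1 := dist_PF hδ hp (i - 1 / 2)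
  have hf : ⌊(i : ℝ) - 1 / 2⌋ = i - 1 := by
    rw [Int.floor_eq_iff]
    push_cast
    constructor <;> linarith
  have e1 : PF p δ (i - 1 / 2) = (1 / 2 : ℝ) • PV p δ (i - 1) + (1 / 2 : ℝ) • PV p δ (i - 1 + 1) := by
    rw [PF, pl_eq (PV p δ) (i - 1) (by push_cast; linarith) (by push_cast; linarith)]
    push_cast
    congr 2 <;> ring
  have e2 : PF p δ i = PV p δ (i - 1 + 1) := by
    rw [PF, pl_int]; congr 1; ring
  have h3 := dist_PV (p := p) hδ hp (i - 1)
  rw [e1, e2, dist_eq_norm]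
  have e3 : (1 / 2 : ℝ) • PV p δ (i - 1) + (1 / 2 : ℝ) • PV p δ (i - 1 + 1) - PV p δ (i - 1 + 1) =
      (1 / 2 : ℝ) • (PV p δ (i - 1) - PV p δ (i - 1 + 1)) := by module
  rw [e3, norm_smul, ← dist_eq_norm, h3, Real.norm_of_nonneg (by norm_num)]
  linarith

end Vale.Agent.P153.R2.R1
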