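import Vale.Agent.P153.R2.R1.Wolff

/-!
# Wolff's lemma for half circles
-/

open Set Topology Metric MeasureTheory Filter
open scoped ENNReal Real

namespace Vale.Agent.P153.R2.R1

/-- **Wolff's lemma in the half plane**: if `ψ` is injective and holomorphic on the half disc of
radius `b` around the real point `x`, with image of area at most `A`, then for some `ρ ∈ (a, b)`
the image of the half circle of radius `ρ` has diameter at most `√K`. -/
theorem exists_half_crosscut {ψ : ℂ → ℂ} {x a b A K : ℝ} (ha : 0 < a) (hab : a < b)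
    (hψ : DifferentiableOn ℂ ψ {z | 0 < z.im ∧ dist z (x : ℂ) < b})
    (hi : InjOn ψ {z | 0 < z.im ∧ dist z (x : ℂ) < b}) (hA : 0 ≤ A)
    (hvol : volume (ψ '' {z | 0 < z.im ∧ dist z (x : ℂ) < b}) ≤ ENNReal.ofReal A)
    (hK : 2 * π * A < K * Real.log (b / a)) :
    ∃ ρ ∈ Ioo a b, ∀ z z' : ℂ, 0 < z.im → dist z (x : ℂ) = ρ → 0 < z'.im →
      dist z' (x : ℂ) = ρ → ‖ψ z - ψ z'‖ ^ 2 ≤ K := by
  set U : Set ℂ := {z | 0 < z.im ∧ dist z (x : ℂ) < b} with hU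
  have hUo : IsOpen U :=
    (isOpen_lt continuous_const Complex.continuous_im).inter
      (isOpen_lt (continuous_id.dist continuous_const) continuous_const)
  have hlog : 0 < Real.log (b / a) := Real.log_pos (by rwa [lt_div_iff₀ ha, one_mul])
  have hK0 : 0 ≤ K := by
    by_contra hneg
    have : K * Real.log (b / a) ≤ 0 := mul_nonpos_of_nonpos_of_nonneg (not_le.1 hneg).le hlog.le
    have : 0 ≤ 2 * π * A := by positivity
    linarith
  obtain ⟨ρ, hρ, hlen⟩ := exists_short hUo hψ hi hA hvol (x : ℂ) ha hab hK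
  have hρ0 : 0 < ρ := ha.trans hρ.1
  have hpt : ∀ z : ℂ, 0 < z.im → dist z (x : ℂ) = ρ →
      ∃ θ ∈ Ioo 0 π, (x : ℂ) + ρ * Complex.exp (θ * Complex.I) = z := by
    intro z hz hzx
    have h1 : ‖z - x‖ = ρ := by rw [← dist_eq_norm]; exact hzx
    have h2 : 0 < (z - x).im := by
      rw [Complex.sub_im, Complex.ofReal_im, sub_zero]; exact hz
    refine ⟨(z - x).arg, ⟨?_, ?_⟩, ?_⟩
    · rcases (Complex.arg_nonneg_iff.2 h2.le).lt_or_eq with h | h
      · exact h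
      · exfalso
        have := Complex.arg_eq_zero_iff.1 h.symm
        rw [this.2] at h2
        exact lt_irrefl _ h2
    · exact Complex.arg_lt_pi_iff.2 (Or.inr h2.ne')
    · rw [← h1, Complex.norm_mul_exp_arg_mul_I]
      ring
  have hmemU : ∀ θ ∈ Ioo 0 π, (x : ℂ) + ρ * Complex.exp (θ * Complex.I) ∈ U := by
    intro θ hθ
    refine ⟨?_, ?_⟩
    · rw [Complex.add_im, Complex.ofReal_im, zero_add, Complex.im_ofReal_mul,
        Complex.exp_ofReal_mul_I_im]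
      exact mul_pos hρ0 (Real.sin_pos_of_mem_Ioo hθ)
    · rw [dist_eq_norm, add_sub_cancel_left, norm_mul, Complex.norm_exp_ofReal_mul_I,
        Complex.norm_real, Real.norm_of_nonneg hρ0.le, mul_one]
      exact hρ.2
  have key : ∀ θ₁ ∈ Ioo 0 π, ∀ θ₂ ∈ Ioo 0 π, θ₁ ≤ θ₂ →
      ‖ψ ((x : ℂ) + ρ * Complex.exp (θ₁ * Complex.I)) -
        ψ ((x : ℂ) + ρ * Complex.exp (θ₂ * Complex.I))‖ ^ 2 ≤ K := by
    intro θ₁ h1 θ₂ h2 h12
    have h4 := dist_le_len hUo hψ (x : ℂ) hρ0 h12 (by linarith [h1.1, Real.pi_pos])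
      h2.2 (fun θ hθ => hmemU θ ⟨h1.1.trans_le hθ.1, hθ.2.trans_lt h2.2⟩)
    have h5 := (pow_le_pow_left₀ bot_le h4 2).trans hlen.le
    rw [← ofReal_norm, ← ENNReal.ofReal_pow (norm_nonneg _), ENNReal.ofReal_le_ofReal_iff hK0] at h5
    rw [norm_sub_rev]
    exact h5
  refine ⟨ρ, hρ, fun z z' hz hzx hz' hzx' => ?_⟩
  obtain ⟨θ₁, h1, rfl⟩ := hpt z hz hzx
  obtain ⟨θ₂, h2, rfl⟩ := hpt z' hz' hzx'
  rcases le_total θ₁ θ₂ with h12 | h12
  · exact key _ h1 _ h2 h12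
  · rw [norm_sub_rev]; exact key _ h2 _ h1 h12

/-- Version with radii between `r` and `√r`. -/
theorem exists_half_crosscut_sqrt {ψ : ℂ → ℂ} {x r A K : ℝ} (hr : 0 < r) (hr1 : r < 1)
    (hψ : DifferentiableOn ℂ ψ {z | 0 < z.im ∧ dist z (x : ℂ) < 1})
    (hi : InjOn ψ {z | 0 < z.im ∧ dist z (x : ℂ) < 1}) (hA : 0 ≤ A)
    (hvol : volume (ψ '' {z | 0 < z.im ∧ dist z (x : ℂ) < 1}) ≤ ENNReal.ofReal A)
    (hK : 4 * π * A < K * Real.log (1 / r)) :
    ∃ ρ ∈ Ioo r (√r), ∀ z z' : ℂ, 0 < z.im → dist z (x : ℂ) = ρ → 0 < z'.im →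
      dist z' (x : ℂ) = ρ → ‖ψ z - ψ z'‖ ^ 2 ≤ K := by
  have hs0 : 0 < √r := Real.sqrt_pos.2 hr
  have hs1 : √r < 1 := by rw [Real.sqrt_lt' one_pos]; linarith
  have hss : √r * √r = r := Real.mul_self_sqrt hr.le
  have hrs : r < √r := by nlinarith
  have hsub : {z : ℂ | 0 < z.im ∧ dist z (x : ℂ) < √r} ⊆ {z | 0 < z.im ∧ dist z (x : ℂ) < 1} :=
    fun z hz => ⟨hz.1, hz.2.trans hs1⟩
  refine exists_half_crosscut hr hrs (hψ.mono hsub) (hi.mono hsub) hA
    ((measure_mono (image_mono hsub)).trans hvol) ?_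
  have e : Real.log (√r / r) = Real.log (1 / r) / 2 := by
    rw [Real.log_div hs0.ne' hr.ne', Real.log_sqrt hr.le, one_div, Real.log_inv]
    ring
  rw [e]
  linarith

end Vale.Agent.P153.R2.R1
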