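import Vale.Agent.P153.R2.R1.Jordan
import Vale.Agent.P153.R2.UNIQ.Inputs

/-!
# R1: the inputs `I_unif` and `I_uinj` of the final assembly
-/

open Set Topology Metric Filter Bornology

namespace Vale.Agent.P153.R2.R1

open Final UNIQ

theorem i_unif : I_unif := exists_uniformizer

/-- A half-plane map onto a domain without cut points on its frontier is injective up to the
boundary and does not take the value at infinity. -/
theorem IsU.injOn {ψ : ℂ → ℂ} {D : Set ℂ} {a b : ℂ} (h : IsU ψ D a b) (hn : NoCut D) :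
    InjOn ψ {z : ℂ | 0 ≤ z.im} ∧ ∀ z : ℂ, 0 ≤ z.im → ψ z ≠ b := by
  have hI : 0 < Complex.I.im := by simp
  have hinj := h.toDisc.injOn hn
  have hm : ∀ z : ℂ, 0 ≤ z.im → mb 1 Complex.I z ∈ closedBall (0 : ℂ) 1 := fun z hz =>
    mb_mem_closedBall norm_one hI hz
  refine ⟨?_, ?_⟩
  · intro z hz z' hz' he
    rw [← toDisc_mb (ψ := ψ) (b := b) hz, ← toDisc_mb (ψ := ψ) (b := b) hz'] at he
    exact mb_injOn norm_one hI hz hz' (hinj (hm z hz) (hm z' hz') he)
  · intro z hz he
    have h1 : R1.toDisc ψ b (mb 1 Complex.I z) = R1.toDisc ψ b 1 := by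
      rw [toDisc_mb hz, he, toDisc_one]
    have h2 := hinj (hm z hz) (by rw [mem_closedBall_zero_iff, norm_one]) h1
    exact mb_ne norm_one hI hz h2

theorem i_uinj : I_uinj := fun Φ _ h =>
  ((isUniformizer_iff Φ _).1 h).injOn (good_DC Φ).nocut

end Vale.Agent.P153.R2.R1
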