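import Vale.Agent.P153.R2.R1.Appr
import Vale.Agent.P153.R2.R1.Out1

/-!
# R1: the input `I_rado` of the final assembly
-/

open Set Topology Metric Filter Bornology

namespace Vale.Agent.P153.R2.R1

open Final UNIQ

variable {Φ : (ℝ × ℝ) ≃ₜ (ℝ × ℝ)} {δ : ℕ → ℝ} {N k : ℕ → ℕ} {p : ∀ n, ZMod (N n) → ℤ × ℤ}
  {S : ℕ → Finset Tri}

theorem tendsto_half (h : Approx Φ δ N k p S) (i : ℕ → ℤ) (t : ℝ)
    (hi : ∀ n (σ : ℝ → ℝ), σ 0 = 0 → σ (k n) = Real.pi → σ (i n) = t) :
    Tendsto (fun n => PF (p n) (δ n) (i n - 1 / 2)) atTop (𝓝 (FC Φ t)) := by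
  rw [Metric.tendsto_nhds]
  intro ε hε
  have hδ : ∀ᶠ n in atTop, δ n < ε / 2 := h.2.1.eventually (gt_mem_nhds (half_pos hε))
  filter_upwards [hδ, approx_close h (show 0 < ε / 4 by positivity)] with n h1 h2
  obtain ⟨σ, -, -, -, h0, hk, hd⟩ := h2
  obtain ⟨hδ0, -, -, hp, -⟩ := h.1 n
  have h3 := hd (i n)
  rw [hi n σ h0 hk] at h3
  have h4 := dist_half (p := p n) hδ0 hp (i n)
  have h5 := dist_triangle (PF (p n) (δ n) (i n - 1 / 2)) (PF (p n) (δ n) (i n)) (FC Φ t)
  linarith

/-- **The convergence of the discrete uniformizers**, from the facts about lattice polygons. -/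
theorem rado_of_facts
    (hf : ∀ (n : ℕ) (p : ZMod n → ℤ × ℤ) (S : Finset Tri) (δ : ℝ), 0 < δ → IsPolygon p →
      Encloses p S → PolyFacts p S δ) : I_rado := by
  intro Φ ψ hψ δ N k p S h
  have hF : ∀ n, PolyFacts (p n) (S n) (δ n) := fun n => by
    obtain ⟨h1, -, -, h2, h3⟩ := h.1 n
    exact hf _ _ _ _ h1 h2 h3
  have hG : ∀ n, Good (DP (S n) (δ n)) := fun n => by
    obtain ⟨h1, -, -, h2, h3⟩ := h.1 n
    exact (hF n).good h1 h2
  have hfr : ∀ n x, PF (p n) (δ n) x ∈ frontier (DP (S n) (δ n)) := fun n x => by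
    rw [(hF n).front]; exact mem_range_self x
  obtain ⟨ψn, h1, h2⟩ := half_rado (kconv h hF) hG (fun n => (hF n).rdom.nonempty)
    (good_DC Φ).nocut ((isUniformizer_iff Φ ψ).1 hψ)
    (an := fun n => mid (δ n) (p n (-1)) (p n 0)) (bn := fun n => bptD (p n) (k n) (δ n))
    (fun n => by rw [midA]; exact hfr n _) (fun n => by rw [bptD, midB]; exact hfr n _)
    (fun n => by
      obtain ⟨hδ, hk0, hkN, hp, -⟩ := h.1 n
      rw [bptD, midA, midB]
      intro he
      obtain ⟨m, hm⟩ := (jcurve_PF hδ hp).inj _ _ he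
      have h3 : ((k n : ℤ) + m * N n : ℤ) = 0 := by
        have : ((k n : ℝ) + m * N n) = 0 := by linarith
        exact_mod_cast this
      have h4 : (0 : ℤ) < k n := by exact_mod_cast hk0
      have h5 : (k n : ℤ) < N n := by exact_mod_cast hkN
      have h6 : m < 0 := by
        by_contra hm0
        have := mul_nonneg (not_lt.1 hm0) (show (0 : ℤ) ≤ N n by omega)
        omega
      have h7 : m * N n ≤ -1 * N n := mul_le_mul_of_nonneg_right (by omega) (by omega)
      omega)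
    (by
      have := tendsto_half h (fun _ => 0) 0 (fun n σ h0 _ => by simpa using h0)
      refine this.congr fun n => ?_
      rw [midA]
      congr 1
      push_cast
      ring)
    (by
      have := tendsto_half h (fun n => k n) Real.pi (fun n σ _ hk => by simpa using hk)
      refine this.congr fun n => ?_
      rw [bptD, midB]
      congr 1)
  refine ⟨ψn, fun n => ?_, fun ε hε => ?_⟩
  · obtain ⟨h3, h4⟩ := h1 n
    exact ⟨h3.diff, h4, h3.img, h3.cont, h3.zero, h3.infty, (h3.injOn (hG n).nocut).2⟩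
  · filter_upwards [Metric.tendstoUniformlyOn_iff.1 h2 ε hε] with n hn z hz
    rw [dist_comm]
    exact hn z hz

end Vale.Agent.P153.R2.R1
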