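import Mathlib.Analysis.Complex.BranchLogRoot
import Mathlib.Analysis.Complex.Tietze
import Mathlib.Analysis.SpecialFunctions.Complex.Log
import Mathlib.Analysis.Normed.Module.Connected
import Mathlib.LinearAlgebra.Complex.FiniteDimensional

/-!
# Janiszewski's theorem in the plane

`LogOn K p q`: the function `(z - p) / (z - q)` has a continuous logarithm on `K`. For a compact
set `K` and points `p, q` off `K` this holds if and only if `p` and `q` lie in the same component
of the complement of `K` (Eilenberg). Consequence (Janiszewski): if neither of the compact sets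
`A`, `B` separates `p` from `q` and `A ∩ B` is connected, then `A ∪ B` does not separate them.
-/

open Set Topology Metric

namespace Vale.Agent.P153.R2.R1

/-- The function `(z - p) / (z - q)` has a continuous logarithm on `K`. -/
def LogOn (K : Set ℂ) (p q : ℂ) : Prop :=
  ∃ F : ℂ → ℂ, ContinuousOn F K ∧ ∀ z ∈ K, Complex.exp (F z) = (z - p) / (z - q)

theorem LogOn.mono {K L : Set ℂ} {p q : ℂ} (h : LogOn L p q) (hKL : K ⊆ L) : LogOn K p q := by
  obtain ⟨F, hF, h⟩ := h
  exact ⟨F, hF.mono hKL, fun z hz => h z (hKL hz)⟩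

theorem LogOn.symm {K : Set ℂ} {p q : ℂ} (h : LogOn K p q) : LogOn K q p := by
  obtain ⟨F, hF, h⟩ := h
  refine ⟨fun z => -F z, hF.neg, fun z hz => ?_⟩
  rw [Complex.exp_neg, h z hz, inv_div]

theorem LogOn.trans {K : Set ℂ} {p q r : ℂ} (hq : q ∉ K) (h : LogOn K p q) (h' : LogOn K q r) :
    LogOn K p r := by
  obtain ⟨F, hF, h⟩ := h
  obtain ⟨G, hG, h'⟩ := h'
  refine ⟨fun z => F z + G z, hF.add hG, fun z hz => ?_⟩
  have hzq : z - q ≠ 0 := sub_ne_zero.2 (fun e => hq (e ▸ hz))
  rw [Complex.exp_add, h z hz, h' z hz, div_mul_div_cancel₀ hzq]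

theorem logOn_of_near {K : Set ℂ} {p q : ℂ} (h : ∀ z ∈ K, ‖p - q‖ < ‖z - q‖) : LogOn K p q := by
  have h1 : ∀ z ∈ K, (z - p) / (z - q) ∈ Complex.slitPlane := by
    intro z hz
    have hlt := h z hz
    have h0 : 0 < ‖z - q‖ := lt_of_le_of_lt (norm_nonneg _) hlt
    have hne : z - q ≠ 0 := norm_pos_iff.1 h0
    have e : (z - p) / (z - q) = 1 + (-((p - q) / (z - q))) := by
      field_simp
      ring
    rw [e]
    apply Complex.mem_slitPlane_of_norm_lt_one
    rw [norm_neg, norm_div, div_lt_one h0]
    exact hlt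
  have h2 : ∀ z ∈ K, z - q ≠ 0 := fun z hz =>
    norm_pos_iff.1 (lt_of_le_of_lt (norm_nonneg _) (h z hz))
  refine ⟨fun z => Complex.log ((z - p) / (z - q)), ?_, fun z hz => ?_⟩
  · refine ContinuousOn.clog ?_ h1
    exact (continuousOn_id.sub continuousOn_const).div (continuousOn_id.sub continuousOn_const) h2
  · exact Complex.exp_log (Complex.slitPlane_ne_zero (h1 z hz))

/-- Points joined off `K` by a connected set have a logarithm. -/
theorem logOn_of_preconnected {K T : Set ℂ} (hK : IsClosed K) (hT : IsPreconnected T)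
    (hKT : Disjoint T K) {p q : ℂ} (hp : p ∈ T) (hq : q ∈ T) : LogOn K p q := by
  refine hT.induction₂ (fun x y => LogOn K x y) ?_ ?_ ?_ hp hq
  · intro x hx
    have hxK : x ∉ K := fun h => hKT.le_bot ⟨hx, h⟩
    obtain ⟨ε, hε, hball⟩ := Metric.isOpen_iff.1 hK.isOpen_compl x hxK
    have : ∀ᶠ y in 𝓝[T] x, y ∈ ball x ε := nhdsWithin_le_nhds (ball_mem_nhds x hε)
    filter_upwards [this] with y hy
    refine (logOn_of_near (p := y) (q := x) ?_).symm
    intro z hz
    have hz' : z ∉ ball x ε := fun h => hball h hz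
    rw [mem_ball, not_lt] at hz'
    rw [mem_ball] at hy
    rw [← dist_eq_norm, ← dist_eq_norm]
    exact lt_of_lt_of_le hy hz'
  · intro x y z hx hy hz hxy hyz
    exact hxy.trans (fun h => hKT.le_bot ⟨hy, h⟩) hyz
  · intro x y hx hy h
    exact h.symm

/-- A continuous integer valued function on a preconnected set is constant. -/
theorem int_const {X : Type*} [TopologicalSpace X] {A : Set X} (hA : IsPreconnected A)
    {φ : X → ℝ} (hφ : ContinuousOn φ A) (hint : ∀ x ∈ A, ∃ n : ℤ, φ x = n) {x y : X}
    (hx : x ∈ A) (hy : y ∈ A) : φ x = φ y := by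
  have key : ∀ x ∈ A, ∀ y ∈ A, ¬ φ x < φ y := by
    intro x hx y hy hlt
    obtain ⟨n, hn⟩ := hint x hx
    obtain ⟨m, hm⟩ := hint y hy
    have himg := hA.image _ hφ
    have hnm : n < m := by
      rw [hn, hm] at hlt
      exact_mod_cast hlt
    have hnm' : (n : ℝ) + 1 ≤ m := by exact_mod_cast hnm
    have hmem : (n : ℝ) + 1 / 2 ∈ φ '' A := by
      refine himg.Icc_subset (mem_image_of_mem _ hx) (mem_image_of_mem _ hy) ?_
      rw [hn, hm]
      constructor <;> linarith
    obtain ⟨z, hz, hz'⟩ := hmem
    obtain ⟨k, hk⟩ := hint z hz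
    rw [hk] at hz'
    have h2 : (2 * k : ℝ) = 2 * n + 1 := by linarith
    have h3 : (2 * k : ℤ) = 2 * n + 1 := by exact_mod_cast h2
    omega
  exact le_antisymm (not_lt.1 (key y hy x hx)) (not_lt.1 (key x hx y hy))

/-- Two continuous logarithms of the same function on a preconnected set differ by a constant. -/
theorem log_diff_const {X : Type*} [TopologicalSpace X] {A : Set X} (hA : IsPreconnected A)
    {F G : X → ℂ} (hF : ContinuousOn F A) (hG : ContinuousOn G A)
    (h : ∀ x ∈ A, Complex.exp (F x) = Complex.exp (G x)) {x y : X} (hx : x ∈ A) (hy : y ∈ A) :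
    F x - G x = F y - G y := by
  have hpi : (2 * Real.pi * Complex.I : ℂ) ≠ 0 := Complex.two_pi_I_ne_zero
  have hc : ContinuousOn (fun x => ((F x - G x) / (2 * Real.pi * Complex.I)).re) A :=
    Complex.continuous_re.comp_continuousOn ((hF.sub hG).div_const _)
  have hint : ∀ x ∈ A, ∃ n : ℤ, F x - G x = n * (2 * Real.pi * Complex.I) := by
    intro x hx
    obtain ⟨n, hn⟩ := Complex.exp_eq_exp_iff_exists_int.1 (h x hx)
    exact ⟨n, by rw [hn]; ring⟩
  have hval : ∀ x ∈ A, ∀ n : ℤ, F x - G x = n * (2 * Real.pi * Complex.I) →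
      ((F x - G x) / (2 * Real.pi * Complex.I)).re = n := by
    intro x _ n hn
    rw [hn, mul_div_assoc, div_self hpi, mul_one]
    simp
  obtain ⟨n, hn⟩ := hint x hx
  obtain ⟨m, hm⟩ := hint y hy
  have h1 := int_const hA hc (fun x hx => (hint x hx).imp fun n hn => hval x hx n hn) hx hy
  rw [hval x hx n hn, hval y hy m hm] at h1
  have h2 : n = m := by exact_mod_cast h1
  rw [hn, hm, h2]

/-- `z - p` has no continuous logarithm on a circle around `p`. -/
theorem no_log_circle {p : ℂ} {R : ℝ} (hR : 0 < R) {H : ℂ → ℂ}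
    (hH : ContinuousOn H (sphere p R)) (he : ∀ z ∈ sphere p R, Complex.exp (H z) = z - p) :
    False := by
  set c : ℝ → ℂ := fun θ => p + R * Complex.exp (θ * Complex.I) with hc
  have hcc : Continuous c := by
    rw [hc]; fun_prop
  have hcs : ∀ θ, c θ ∈ sphere p R := by
    intro θ
    rw [mem_sphere, dist_eq_norm]
    simp [hc, abs_of_pos hR, Complex.norm_exp_ofReal_mul_I]
  have hF : ContinuousOn (fun θ : ℝ => H (c θ)) univ :=
    (hH.comp hcc.continuousOn (fun θ _ => hcs θ))
  have hG : ContinuousOn (fun θ : ℝ => (Real.log R : ℂ) + θ * Complex.I) univ := by fun_prop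
  have hexp : ∀ θ : ℝ, Complex.exp (H (c θ)) = Complex.exp ((Real.log R : ℂ) + θ * Complex.I) := by
    intro θ
    rw [he _ (hcs θ), Complex.exp_add, ← Complex.ofReal_exp, Real.exp_log hR]
    simp [hc]
  have h := log_diff_const (A := univ) isPreconnected_univ hF hG (fun θ _ => hexp θ)
    (mem_univ (0 : ℝ)) (mem_univ (2 * Real.pi))
  have e0 : c 0 = c (2 * Real.pi) := by
    simp [hc, Complex.exp_two_pi_mul_I]
  simp only [e0] at h
  have : (2 * Real.pi * Complex.I : ℂ) = 0 := by
    have h' := h
    push_cast at h'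
    linear_combination h'
  exact Complex.two_pi_I_ne_zero this

/-- The frontier of a component of the complement of a closed set `K` lies in `K`. -/
theorem closure_component {K : Set ℂ} (hK : IsClosed K) {p x : ℂ}
    (hx : x ∈ closure (connectedComponentIn Kᶜ p)) (hxK : x ∉ K) :
    x ∈ connectedComponentIn Kᶜ p := by
  have hW : IsOpen (connectedComponentIn Kᶜ x) := hK.isOpen_compl.connectedComponentIn
  have hxW : x ∈ connectedComponentIn Kᶜ x := mem_connectedComponentIn hxK
  obtain ⟨y, hyW, hyU⟩ := mem_closure_iff.1 hx _ hW hxW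
  rw [connectedComponentIn_eq hyU, ← connectedComponentIn_eq hyW]
  exact hxW

/-- The complement of a closed ball of the plane is connected. -/
theorem preconnected_compl_closedBall (c : ℂ) (r : ℝ) : IsPreconnected (closedBall c r)ᶜ := by
  by_cases hr : 0 ≤ r
  · have hrank : 1 < Module.rank ℝ ℂ := by
      rw [Complex.rank_real_complex]; norm_num
    have h1 : IsPreconnected (Ioi r ×ˢ sphere (0 : ℂ) 1) :=
      isPreconnected_Ioi.prod (isPreconnected_sphere hrank 0 1)
    have h2 := h1.image (fun x : ℝ × ℂ => c + x.1 * x.2)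
      (by fun_prop)
    convert h2 using 1
    ext z
    simp only [mem_compl_iff, mem_closedBall, not_le, mem_image, mem_prod, mem_Ioi, mem_sphere,
      Prod.exists, dist_zero_right]
    constructor
    · intro hz
      have h0 : 0 < dist z c := lt_of_le_of_lt hr hz
      rw [dist_eq_norm] at h0 hz
      refine ⟨‖z - c‖, (z - c) / ‖z - c‖, ⟨hz, ?_⟩, ?_⟩
      · rw [norm_div, Complex.norm_real, norm_norm, div_self h0.ne']
      · have : (‖z - c‖ : ℂ) ≠ 0 := by exact_mod_cast h0.ne'
        field_simp
        ring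
    · rintro ⟨a, b, ⟨ha, hb⟩, rfl⟩
      rw [dist_eq_norm, add_sub_cancel_left, norm_mul, hb, mul_one, Complex.norm_real,
        Real.norm_eq_abs]
      exact lt_of_lt_of_le ha (le_abs_self a)
  · rw [closedBall_eq_empty.2 (not_le.1 hr), compl_empty]
    exact isPreconnected_univ

/-- One of two different components of the complement of a bounded set is bounded. -/
theorem bounded_component {K : Set ℂ} (hb : Bornology.IsBounded K) {p q : ℂ}
    (hne : q ∉ connectedComponentIn Kᶜ p) :
    Bornology.IsBounded (connectedComponentIn Kᶜ p) ∨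
      Bornology.IsBounded (connectedComponentIn Kᶜ q) := by
  by_contra hcon
  rw [not_or] at hcon
  obtain ⟨r, hr⟩ := hb.subset_closedBall 0
  have key : ∀ x : ℂ, ¬ Bornology.IsBounded (connectedComponentIn Kᶜ x) →
      (closedBall (0 : ℂ) r)ᶜ ⊆ connectedComponentIn Kᶜ x := by
    intro x hx
    have : ∃ y ∈ connectedComponentIn Kᶜ x, y ∉ closedBall (0 : ℂ) r := by
      by_contra hno
      push Not at hno
      exact hx ((isBounded_closedBall (x := (0 : ℂ)) (r := r)).subset hno)
    obtain ⟨y, hy, hyr⟩ := this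
    rw [connectedComponentIn_eq hy]
    exact (preconnected_compl_closedBall 0 r).subset_connectedComponentIn hyr
      (compl_subset_compl.2 hr)
  obtain ⟨y, hy⟩ : ((closedBall (0 : ℂ) r)ᶜ).Nonempty := by
    refine ⟨((|r| + 1 : ℝ) : ℂ), ?_⟩
    rw [mem_compl_iff, mem_closedBall, dist_zero_right, Complex.norm_real, Real.norm_eq_abs,
      abs_of_pos (by positivity), not_le]
    linarith [le_abs_self r]
  have h1 := key p hcon.1 hy
  have h2 := key q hcon.2 hy
  apply hne
  rw [connectedComponentIn_eq h1, ← connectedComponentIn_eq h2]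
  have hqK : q ∈ Kᶜ := by
    by_contra hq
    have : connectedComponentIn Kᶜ q = ∅ := connectedComponentIn_eq_empty hq
    rw [this] at h2
    exact h2.elim
  exact mem_connectedComponentIn hqK

theorem not_bounded_of_log {K : Set ℂ} (hK : IsCompact K) {p q : ℂ} (hp : p ∉ K) (hq : q ∉ K)
    (h : LogOn K p q) (hne : q ∉ connectedComponentIn Kᶜ p)
    (hb : Bornology.IsBounded (connectedComponentIn Kᶜ p)) : False := by
  classical
  obtain ⟨F, hF, hFe⟩ := h
  obtain ⟨G, hG⟩ := ContinuousMap.exists_restrict_eq hK.isClosed ⟨K.domRestrict F, hF.domRestrict⟩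
  have hGF : ∀ z ∈ K, G z = F z := by
    intro z hz
    exact congrArg (fun f : C(K, ℂ) => f ⟨z, hz⟩) hG
  set U := connectedComponentIn Kᶜ p with hU
  have hUo : IsOpen U := hK.isClosed.isOpen_compl.connectedComponentIn
  have hfr : frontier (closure U) ⊆ K := by
    intro x hx
    by_contra hxK
    have hxU : x ∈ U := closure_component hK.isClosed
      (by simpa using frontier_subset_closure hx) hxK
    have : x ∈ interior (closure U) := interior_maximal subset_closure hUo hxU
    exact hx.2 this
  set g : ℂ → ℂ := fun z => if z ∈ closure U then (z - q) * Complex.exp (G z) else z - p with hg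
  have hgc : Continuous g := by
    refine Continuous.if ?_ ?_ ?_
    · intro a ha
      have haK : a ∈ K := hfr ha
      rw [hGF a haK, hFe a haK]
      have : a - q ≠ 0 := sub_ne_zero.2 (fun e => hq (e ▸ haK))
      field_simp
    · fun_prop
    · fun_prop
  have hg0 : ∀ z, g z ≠ 0 := by
    intro z
    simp only [hg]
    split_ifs with hz
    · refine mul_ne_zero (sub_ne_zero.2 ?_) (Complex.exp_ne_zero _)
      rintro rfl
      exact hne (closure_component hK.isClosed hz hq)
    · refine sub_ne_zero.2 ?_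
      rintro rfl
      exact hz (subset_closure (mem_connectedComponentIn hp))
  have hsc : IsSimplyConnected (univ : Set ℂ) := by
    have := (convex_univ : Convex ℝ (univ : Set ℂ)).contractibleSpace ⟨0, mem_univ 0⟩
    exact (inferInstance : SimplyConnectedSpace (univ : Set ℂ))
  obtain ⟨H, hHc, hHe⟩ := Complex.exists_continuousOn_eqOn_exp_comp hsc isOpen_univ
    hgc.continuousOn (by rintro ⟨z, -, hz⟩; exact hg0 z hz)
  obtain ⟨r, hr⟩ := hb.subset_closedBall p
  have hr' : closure U ⊆ closedBall p r := closure_minimal hr isClosed_closedBall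
  refine no_log_circle (p := p) (R := |r| + 1) (by positivity) (H := H)
    (hHc.mono (subset_univ _)) ?_
  intro z hz
  have hz' : z ∉ closure U := by
    intro hzU
    have h1 := hr' hzU
    rw [mem_closedBall] at h1
    rw [mem_sphere] at hz
    linarith [le_abs_self r]
  have := hHe (mem_univ z)
  simpa [hg, hz'] using this

/-- **Eilenberg's criterion**: if `(z - p) / (z - q)` has a continuous logarithm on the compact
set `K`, then `K` does not separate `p` from `q`. -/
theorem mem_component_of_log {K : Set ℂ} (hK : IsCompact K) {p q : ℂ} (hp : p ∉ K) (hq : q ∉ K)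
    (h : LogOn K p q) : q ∈ connectedComponentIn Kᶜ p := by
  by_contra hne
  rcases bounded_component hK.isBounded hne with hb | hb
  · exact not_bounded_of_log hK hp hq h hne hb
  · refine not_bounded_of_log hK hq hp h.symm ?_ hb
    intro hpq
    apply hne
    rw [← connectedComponentIn_eq hpq]
    exact mem_connectedComponentIn hq

theorem LogOn.union {A B : Set ℂ} (hA : IsClosed A) (hB : IsClosed B)
    (hAB : IsPreconnected (A ∩ B)) {p q : ℂ} (h : LogOn A p q) (h' : LogOn B p q) :
    LogOn (A ∪ B) p q := by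
  classical
  obtain ⟨F, hF, hFe⟩ := h
  obtain ⟨G, hG, hGe⟩ := h'
  have : ∃ c : ℂ, Complex.exp c = 1 ∧ ∀ z ∈ A ∩ B, F z = G z + c := by
    rcases (A ∩ B).eq_empty_or_nonempty with he | ⟨x, hx⟩
    · exact ⟨0, Complex.exp_zero, fun z hz => by rw [he] at hz; exact hz.elim⟩
    · have hd : ∀ z ∈ A ∩ B, Complex.exp (F z) = Complex.exp (G z) := fun z hz => by
        rw [hFe z hz.1, hGe z hz.2]
      refine ⟨F x - G x, ?_, fun z hz => ?_⟩
      · rw [Complex.exp_sub, hd x hx, div_self (Complex.exp_ne_zero _)]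
      · have := log_diff_const hAB (hF.mono inter_subset_left) (hG.mono inter_subset_right) hd hx hz
        rw [this]; ring
  obtain ⟨c, hc1, hc⟩ := this
  refine ⟨fun z => if z ∈ A then F z else G z + c, ?_, ?_⟩
  · refine ContinuousOn.union_of_isClosed ?_ ?_ hA hB
    · refine hF.congr fun z hz => ?_
      simp [hz]
    · refine (hG.add (continuousOn_const (c := c))).congr fun z hz => ?_
      by_cases hzA : z ∈ A
      · simp [hzA, hc z ⟨hzA, hz⟩]
      · simp [hzA]
  · intro z hz
    by_cases hzA : z ∈ A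
    · simp [hzA, hFe z hzA]
    · have hzB : z ∈ B := hz.resolve_left hzA
      simp [hzA, Complex.exp_add, hc1, hGe z hzB]

/-- **Janiszewski's theorem**: if the connected sets `S`, `T` join `p` and `q` off the compact sets
`A`, `B` and `A ∩ B` is connected, then `p` and `q` lie in one component of the complement of
`A ∪ B`. -/
theorem janiszewski {A B S T : Set ℂ} (hA : IsCompact A) (hB : IsCompact B)
    (hAB : IsPreconnected (A ∩ B)) {p q : ℂ} (hS : IsPreconnected S) (hSA : Disjoint S A)
    (hpS : p ∈ S) (hqS : q ∈ S) (hT : IsPreconnected T) (hTB : Disjoint T B)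
    (hpT : p ∈ T) (hqT : q ∈ T) : q ∈ connectedComponentIn (A ∪ B)ᶜ p := by
  refine mem_component_of_log (hA.union hB) ?_ ?_ ?_
  · rintro (h | h)
    · exact hSA.le_bot ⟨hpS, h⟩
    · exact hTB.le_bot ⟨hpT, h⟩
  · rintro (h | h)
    · exact hSA.le_bot ⟨hqS, h⟩
    · exact hTB.le_bot ⟨hqT, h⟩
  · exact (logOn_of_preconnected hA.isClosed hS hSA hpS hqS).union hA.isClosed hB.isClosed hAB
      (logOn_of_preconnected hB.isClosed hT hTB hpT hqT)

end Vale.Agent.P153.R2.R1
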