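import Vale.Agent.P153.R2.R1.Ext
import Mathlib.Topology.Order.IntermediateValue
import Mathlib.Topology.UniformSpace.HeineCantor

/-!
# Boundary curves

A domain bounded by a curve which is uniformly close, up to a monotone change of the parameter, to
a fixed Jordan curve satisfies the uniform condition `Ctrl`; Jordan curves satisfy `NoCut`.
-/

open Set Topology Metric Filter
open scoped Real

namespace Vale.Agent.P153.R2.R1

/-- A closed curve of period `N` without double points. -/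
structure JCurve (f : ℝ → ℂ) (N : ℝ) : Prop where
  pos : 0 < N
  cont : Continuous f
  per : ∀ x, f (x + N) = f x
  inj : ∀ x y, f x = f y → ∃ k : ℤ, x = y + k * N

variable {F f : ℝ → ℂ} {N : ℝ} {D : Set ℂ}

theorem per_int (hf : ∀ x, f (x + N) = f x) (k : ℤ) (x : ℝ) : f (x + k * N) = f x := by
  have hp : Function.Periodic f N := hf
  have := hp.int_mul k x
  exact this

theorem JCurve.noCut (h : JCurve f N) (hD : frontier D = range f) : NoCut D := by
  intro p hp
  rw [hD] at hp ⊢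
  obtain ⟨t, rfl⟩ := hp
  have e : range f \ {f t} = f '' Ioo t (t + N) := by
    apply Subset.antisymm
    · rintro _ ⟨⟨x, rfl⟩, hx⟩
      -- move `x` to `[t, t + N)`
      obtain ⟨k, hk, -⟩ := existsUnique_add_zsmul_mem_Ico h.pos x t
      rw [zsmul_eq_mul] at hk
      refine ⟨x + k * N, ⟨lt_of_le_of_ne hk.1 ?_, hk.2⟩, per_int h.per k x⟩
      intro he
      apply hx
      rw [mem_singleton_iff, he, per_int h.per k x]
    · rintro _ ⟨x, hx, rfl⟩
      refine ⟨mem_range_self x, ?_⟩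
      intro he
      obtain ⟨k, hk⟩ := h.inj x t he
      rw [hk] at hx
      have h1 : 0 < (k : ℝ) * N := by linarith [hx.1]
      have h2 : (k : ℝ) * N < 1 * N := by linarith [hx.2]
      have h3 : (k : ℝ) < 1 := lt_of_mul_lt_mul_right h2 h.pos.le
      have h4 : 0 < (k : ℝ) := pos_of_mul_pos_left h1 h.pos.le
      have h5 : k < 1 := by exact_mod_cast h3
      have h6 : 0 < k := by exact_mod_cast h4
      omega
  rw [e]
  exact isPreconnected_Ioo.image _ h.cont.continuousOn

theorem JCurve.uniform (hF : JCurve F N) {ε : ℝ} (hε : 0 < ε) :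
    ∃ τ > 0, ∀ x y : ℝ, |x - y| ≤ τ → dist (F x) (F y) ≤ ε := by
  -- uniform continuity on a compact interval and periodicity
  have hc : IsCompact (Icc (-N) (2 * N)) := isCompact_Icc
  have hu := hc.uniformContinuousOn_of_continuous hF.cont.continuousOn
  obtain ⟨δ, hδ, h⟩ := Metric.uniformContinuousOn_iff.1 hu ε hε
  refine ⟨min (δ / 2) N, lt_min (by positivity) hF.pos, fun x y hxy => ?_⟩
  obtain ⟨k, hk, -⟩ := existsUnique_add_zsmul_mem_Ico hF.pos x 0
  rw [zsmul_eq_mul] at hk
  rw [← per_int hF.per k x, ← per_int hF.per k y]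
  have h1 : |x - y| ≤ δ / 2 := hxy.trans (min_le_left _ _)
  have h2 : |x - y| ≤ N := hxy.trans (min_le_right _ _)
  rw [abs_le] at h2
  have hpos := hF.pos
  refine (h _ ⟨by linarith [hk.1], by linarith [hk.2]⟩ _ ⟨by linarith [hk.1], by linarith [hk.2]⟩
    ?_).le
  rw [Real.dist_eq]
  have : x + k * N - (y + k * N) = x - y := by ring
  rw [this]
  linarith

/-- Parameters with close values are close modulo the period. -/
theorem JCurve.uniform_inj (hF : JCurve F N) {τ : ℝ} (hτ : 0 < τ) :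
    ∃ m > 0, ∀ x y : ℝ, dist (F x) (F y) < m → ∃ k : ℤ, |x - y - k * N| < τ := by
  by_contra hcon
  push Not at hcon
  have hN := hF.pos
  -- bad pairs
  have hseq : ∀ n : ℕ, ∃ q : ℝ × ℝ, q ∈ Icc (0 : ℝ) N ×ˢ Icc (0 : ℝ) N ∧
      dist (F q.1) (F q.2) < 1 / (n + 1) ∧ ∀ k : ℤ, τ ≤ |q.1 - q.2 - k * N| := by
    intro n
    obtain ⟨x, y, h1, h2⟩ := hcon (1 / (n + 1)) (by positivity)
    obtain ⟨k, hk, -⟩ := existsUnique_add_zsmul_mem_Ico hN x 0
    obtain ⟨j, hj, -⟩ := existsUnique_add_zsmul_mem_Ico hN y 0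
    rw [zsmul_eq_mul] at hk hj
    refine ⟨(x + k * N, y + j * N), ⟨⟨hk.1, by linarith [hk.2]⟩, ⟨hj.1, by linarith [hj.2]⟩⟩, ?_, ?_⟩
    · simp only [per_int hF.per]
      exact h1
    · intro i
      have := h2 (i - k + j)
      push_cast at this
      have e : x + k * N - (y + j * N) - i * N = x - y - (i - k + j) * N := by ring
      simp only
      rw [e]
      exact this
  choose q hq1 hq2 hq3 using hseq
  obtain ⟨a, ha, φ, hφ, hlim⟩ := (isCompact_Icc.prod isCompact_Icc).tendsto_subseq hq1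
  have h1 : Tendsto (fun n => (q (φ n)).1) atTop (𝓝 a.1) := (continuous_fst.tendsto a).comp hlim
  have h2 : Tendsto (fun n => (q (φ n)).2) atTop (𝓝 a.2) := (continuous_snd.tendsto a).comp hlim
  have h3 : Tendsto (fun n => dist (F (q (φ n)).1) (F (q (φ n)).2)) atTop
      (𝓝 (dist (F a.1) (F a.2))) :=
    ((hF.cont.tendsto _).comp h1).dist ((hF.cont.tendsto _).comp h2)
  have h4 : Tendsto (fun n => dist (F (q (φ n)).1) (F (q (φ n)).2)) atTop (𝓝 0) := by
    refine squeeze_zero (fun _ => dist_nonneg) (fun n => (hq2 (φ n)).le) ?_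
    exact (tendsto_one_div_add_atTop_nhds_zero_nat (𝕜 := ℝ)).comp hφ.tendsto_atTop
  have h5 := tendsto_nhds_unique h3 h4
  obtain ⟨k, hk⟩ := hF.inj _ _ (dist_eq_zero.1 h5)
  have h6 : Tendsto (fun n => |(q (φ n)).1 - (q (φ n)).2 - k * N|) atTop
      (𝓝 |a.1 - a.2 - k * N|) := ((h1.sub h2).sub_const _).abs
  have h7 : τ ≤ |a.1 - a.2 - k * N| := ge_of_tendsto' h6 fun n => hq3 (φ n) k
  have h8 : a.1 - a.2 - k * N = 0 := by rw [hk]; ring
  rw [h8, abs_zero] at h7
  linarith

/-- **Uniform control** of the boundaries of domains whose boundary curves are close to `F`. -/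
theorem JCurve.ctrl (hF : JCurve F N) {ε : ℝ} (hε : 0 < ε) :
    ∃ η > 0, ∃ ε₁ > 0, ∀ (f : ℝ → ℂ) (σ : ℝ → ℝ) (M : ℝ) (D : Set ℂ), 0 < M → Continuous f →
      (∀ x, f (x + M) = f x) → Continuous σ → Monotone σ → (∀ x, σ (x + M) = σ x + N) →
      (∀ x, dist (f x) (F (σ x)) ≤ ε₁) → frontier D = range f → Ctrl D η ε := by
  obtain ⟨τ, hτ, hτF⟩ := hF.uniform (half_pos hε)
  obtain ⟨m, hm, hmF⟩ := hF.uniform_inj hτ
  refine ⟨m / 2, half_pos hm, min (ε / 4) (m / 8), lt_min (by positivity) (by positivity), ?_⟩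
  intro f σ M D hM hfc hfp hσc hσm hσp hd hD p hp
  have hd1 : ∀ x, dist (f x) (F (σ x)) ≤ ε / 4 := fun x => (hd x).trans (min_le_left _ _)
  have hd2 : ∀ x, dist (f x) (F (σ x)) ≤ m / 8 := fun x => (hd x).trans (min_le_right _ _)
  rw [hD] at hp ⊢
  obtain ⟨x₀, rfl⟩ := hp
  have hσk : ∀ (k : ℤ) (x : ℝ), σ (x + k * M) = σ x + k * N := by
    have hnat : ∀ (k : ℕ) (x : ℝ), σ (x + k * M) = σ x + k * N := by
      intro k
      induction k with
      | zero => intro x; simp
      | succ k ih =>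
        intro x
        push_cast
        rw [add_mul, one_mul, ← add_assoc, hσp, ih]
        ring
    intro k x
    obtain ⟨n, rfl | rfl⟩ := k.eq_nat_or_neg
    · exact_mod_cast hnat n x
    · have := hnat n (x + (-(n : ℤ) : ℤ) * M)
      push_cast at this ⊢
      have e : x + -(n : ℝ) * M + n * M = x := by ring
      rw [e] at this
      linarith
  set I : Set ℝ := σ ⁻¹' Icc (σ x₀ - τ) (σ x₀ + τ) with hI
  have hIo : I.OrdConnected := ordConnected_Icc.preimage_mono hσm
  have hIcl : IsClosed I := isClosed_Icc.preimage hσc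
  have hN := hF.pos
  -- `I` is bounded
  obtain ⟨k, hk⟩ := exists_nat_gt (τ / N)
  have hkN : τ < k * N := by rwa [div_lt_iff₀ hN] at hk
  have hIb : I ⊆ Icc (x₀ - k * M) (x₀ + k * M) := by
    intro x hx
    have h1 := hσk k x₀
    have h2 := hσk (-k) x₀
    push_cast at h1 h2
    constructor
    · by_contra hlt
      have h3 : σ x ≤ σ (x₀ + -(k : ℝ) * M) := hσm (by linarith)
      have h4 := hx.1
      rw [h2] at h3
      nlinarith
    · by_contra hlt
      have h3 : σ (x₀ + (k : ℝ) * M) ≤ σ x := hσm (by linarith)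
      have h4 := hx.2
      rw [h1] at h3
      linarith
  have hIc : IsCompact I := isCompact_Icc.of_isClosed_subset hIcl hIb
  refine ⟨f '' I, hIc.image hfc, hIo.isPreconnected.image _ hfc.continuousOn,
    image_subset_range _ _, ?_, ?_⟩
  · rintro _ ⟨⟨x, rfl⟩, hx⟩
    rw [mem_closedBall] at hx
    have h1 : dist (F (σ x)) (F (σ x₀)) < m := by
      have h2 := dist_triangle4 (F (σ x)) (f x) (f x₀) (F (σ x₀))
      have h3 := hd2 x
      have h4 := hd2 x₀
      rw [dist_comm] at h3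
      linarith
    obtain ⟨j, hj⟩ := hmF _ _ h1
    refine ⟨x + (-j : ℤ) * M, ?_, per_int hfp (-j) x⟩
    rw [hI, mem_preimage, hσk (-j) x]
    rw [abs_lt] at hj
    push_cast
    constructor <;> linarith [hj.1, hj.2]
  · rintro _ ⟨x, hx, rfl⟩
    rw [mem_closedBall]
    have h1 : dist (F (σ x)) (F (σ x₀)) ≤ ε / 2 := by
      apply hτF
      rw [abs_le]
      constructor <;> linarith [hx.1, hx.2]
    have h2 := dist_triangle4 (f x) (F (σ x)) (F (σ x₀)) (f x₀)
    have h3 := hd1 x
    have h4 := hd1 x₀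
    rw [dist_comm (f x₀)] at h4
    linarith

theorem JCurve.lc (hF : JCurve F N) (hD : frontier D = range F) : LC D := by
  intro ε hε
  obtain ⟨η, hη, ε₁, hε₁, h⟩ := hF.ctrl hε
  refine ⟨η, hη, h F id N D hF.pos hF.cont hF.per continuous_id monotone_id (fun _ => rfl) ?_ hD⟩
  intro x
  simp [hε₁.le]

end Vale.Agent.P153.R2.R1
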