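import Vale.Agent.P153.R2.R1.PL
import Vale.Agent.P153.R2.R1.Curve
import Vale.Agent.P153.R2.Final.Defs

/-!
# The boundary curve of a lattice polygon
-/

open Set Topology Metric Filter Bornology

namespace Vale.Agent.P153.R2.R1

open Final

/-- The six directions. -/
def dirs : Finset (ℤ × ℤ) := {(1, 0), (-1, 0), (0, 1), (0, -1), (1, -1), (-1, 1)}

theorem adj_dirs {v w : ℤ × ℤ} (h : Adj v w) : w - v ∈ dirs := by
  generalize hab : w - v = e
  obtain ⟨a, b⟩ := e
  have h1 : Final.len (w - v) = 1 := h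
  rw [hab, Final.len] at h1
  have h2 : ((a : ℝ)) ^ 2 + a * b + (b : ℝ) ^ 2 = 1 := by
    have := (Real.sqrt_eq_one.1 h1)
    exact this
  have h3 : a ^ 2 + a * b + b ^ 2 = 1 := by exact_mod_cast h2
  have hb : b ^ 2 ≤ 1 := by nlinarith [sq_nonneg (2 * a + b)]
  have ha : a ^ 2 ≤ 1 := by nlinarith [sq_nonneg (2 * b + a)]
  have hb1 : -1 ≤ b := by nlinarith
  have hb2 : b ≤ 1 := by nlinarith
  have ha1 : -1 ≤ a := by nlinarith
  have ha2 : a ≤ 1 := by nlinarith
  interval_cases a <;> interval_cases b <;> first | (exfalso; omega) | decide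

theorem edge_meet {e e' : ℤ × ℤ} (he : e ∈ dirs) (he' : e' ∈ dirs) {t u : ℝ} {a b : ℤ}
    (ht : 0 ≤ t) (ht1 : t < 1) (hu : 0 ≤ u) (hu1 : u < 1) (h1 : t * e.1 - u * e'.1 = a)
    (h2 : t * e.2 - u * e'.2 = b) :
    (t = u ∧ a = 0 ∧ b = 0) ∨ (e' = -e ∧ a = e.1 ∧ b = e.2) := by
  simp only [dirs, Finset.mem_insert, Finset.mem_singleton] at he he'
  rcases he with rfl | rfl | rfl | rfl | rfl | rfl <;>
    rcases he' with rfl | rfl | rfl | rfl | rfl | rfl <;>
    simp only [Int.cast_one, Int.cast_neg, Int.cast_zero, mul_one, mul_zero, mul_neg, sub_zero,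
      zero_sub, neg_zero, sub_neg_eq_add, add_zero, zero_add] at h1 h2 <;>
    · have ha1 : (-2 : ℝ) < a := by linarith
      have ha2 : (a : ℝ) < 2 := by linarith
      have hb1 : (-2 : ℝ) < b := by linarith
      have hb2 : (b : ℝ) < 2 := by linarith
      have ha1' : -2 < a := by exact_mod_cast ha1
      have ha2' : a < 2 := by exact_mod_cast ha2
      have hb1' : -2 < b := by exact_mod_cast hb1
      have hb2' : b < 2 := by exact_mod_cast hb2
      interval_cases a <;> interval_cases b <;>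
        simp only [Int.cast_one, Int.cast_neg, Int.cast_zero, Int.reduceNeg] at h1 h2 <;>
        first
        | (exfalso; linarith)
        | (left; refine ⟨by linarith, rfl, rfl⟩)
        | (right; decide)

variable {n : ℕ} {p : ZMod n → ℤ × ℤ} {δ : ℝ}

/-- The vertices of the polygon, indexed by the integers. -/
noncomputable def PV (p : ZMod n → ℤ × ℤ) (δ : ℝ) (i : ℤ) : ℂ := toC (δ • pt (p i))

/-- The closed curve of the polygon. -/
noncomputable def PF (p : ZMod n → ℤ × ℤ) (δ : ℝ) : ℝ → ℂ := pl (PV p δ)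

theorem PV_per (i : ℤ) : PV p δ (i + n) = PV p δ i := by
  simp [PV]

theorem PF_per (x : ℝ) : PF p δ (x + n) = PF p δ x := by
  have := pl_add (PV p δ) (PV p δ) n 0 (fun i => by rw [PV_per, add_zero]) x
  rw [add_zero] at this
  exact_mod_cast this

theorem continuous_PF : Continuous (PF p δ) := continuous_pl _

/-- First lattice coordinate of a point. -/
noncomputable def cx (δ : ℝ) (z : ℂ) : ℝ := z.re / δ - z.im / (√3 * δ)

/-- Second lattice coordinate of a point. -/
noncomputable def cy (δ : ℝ) (z : ℂ) : ℝ := 2 * z.im / (√3 * δ)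

theorem cx_toC (hδ : 0 < δ) (v : ℤ × ℤ) : cx δ (toC (δ • pt v)) = v.1 := by
  have h3 : (0 : ℝ) < √3 := by positivity
  simp only [cx, toC, pt, Prod.smul_mk, smul_eq_mul]
  field_simp
  ring

theorem cy_toC (hδ : 0 < δ) (v : ℤ × ℤ) : cy δ (toC (δ • pt v)) = v.2 := by
  have h3 : (0 : ℝ) < √3 := by positivity
  simp only [cy, toC, pt, Prod.smul_mk, smul_eq_mul]
  field_simp

theorem cx_comb (a b : ℝ) (z w : ℂ) : cx δ (a • z + b • w) = a * cx δ z + b * cx δ w := by
  simp only [cx, Complex.add_re, Complex.add_im, Complex.real_smul, Complex.re_ofReal_mul,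
    Complex.im_ofReal_mul]
  ring

theorem cy_comb (a b : ℝ) (z w : ℂ) : cy δ (a • z + b • w) = a * cy δ z + b * cy δ w := by
  simp only [cy, Complex.add_im, Complex.real_smul, Complex.im_ofReal_mul]
  ring

/-- The curve of a polygon has no double points. -/
theorem jcurve_PF (hδ : 0 < δ) (hp : IsPolygon p) : JCurve (PF p δ) n where
  pos := by
    have : 0 < n := by have := hp.1; omega
    exact_mod_cast this
  cont := continuous_PF
  per := PF_per
  inj x y h := by
    have hn := hp.1
    set i := ⌊x⌋ with hi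
    set j := ⌊y⌋ with hj
    have hx : x = i + Int.fract x := (Int.floor_add_fract x).symm
    have hy : y = j + Int.fract y := (Int.floor_add_fract y).symm
    have e1 := congrArg (cx δ) h
    have e2 := congrArg (cy δ) h
    simp only [PF, pl, ← hi, ← hj, cx_comb, cy_comb, PV, cx_toC hδ, cy_toC hδ] at e1 e2
    have hd1 : p ((i : ZMod n) + 1) - p i ∈ dirs := adj_dirs (hp.2.2 i)
    have hd2 : p ((j : ZMod n) + 1) - p j ∈ dirs := adj_dirs (hp.2.2 j)
    push_cast at e1 e2
    have hm := edge_meet hd1 hd2 (t := Int.fract x) (u := Int.fract y)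
      (a := (p j).1 - (p i).1) (b := (p j).2 - (p i).2) (Int.fract_nonneg x) (Int.fract_lt_one x)
      (Int.fract_nonneg y) (Int.fract_lt_one y)
      (by simp only [Prod.fst_sub]; push_cast; linarith)
      (by simp only [Prod.snd_sub]; push_cast; linarith)
    rcases hm with ⟨h1, h2, h3⟩ | ⟨h1, h2, h3⟩
    · have hpe : p i = p j := Prod.ext (by omega) (by omega)
      have hij : (i : ZMod n) = j := hp.2.1 hpe
      rw [ZMod.intCast_eq_intCast_iff_dvd_sub] at hij
      obtain ⟨k, hk⟩ := hij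
      refine ⟨-k, ?_⟩
      have hk' : (j : ℝ) - i = n * k := by exact_mod_cast hk
      rw [hx, hy, h1]
      push_cast
      linarith
    · exfalso
      have hpe : p j = p ((i : ZMod n) + 1) := by
        apply Prod.ext
        · simp only [Prod.fst_sub] at h2; omega
        · simp only [Prod.snd_sub] at h3; omega
      have hij := hp.2.1 hpe
      have hpe2 : p ((j : ZMod n) + 1) = p i := by
        have e3 := congrArg Prod.fst h1
        have e4 := congrArg Prod.snd h1
        simp only [Prod.fst_neg, Prod.snd_neg, Prod.fst_sub, Prod.snd_sub] at e3 e4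
        have e5 := congrArg Prod.fst hpe
        have e6 := congrArg Prod.snd hpe
        exact Prod.ext (by omega) (by omega)
      have hij2 := hp.2.1 hpe2
      rw [hij] at hij2
      have h4 : ((2 : ℕ) : ZMod n) = 0 := by
        have : (i : ZMod n) + 1 + 1 - i = 0 := by rw [hij2]; ring
        push_cast
        linear_combination this
      rw [ZMod.natCast_eq_zero_iff] at h4
      have := Nat.le_of_dvd (by norm_num) h4
      omega

theorem range_PF (hn : n ≠ 0) :
    range (PF p δ) = ⋃ i : ZMod n, segment ℝ (toC (δ • pt (p i))) (toC (δ • pt (p (i + 1)))) := by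
  have : NeZero n := ⟨hn⟩
  apply Subset.antisymm
  · rintro _ ⟨x, rfl⟩
    refine mem_iUnion.2 ⟨(⌊x⌋ : ZMod n), ?_⟩
    have := pl_mem_segment (PV p δ) x
    simp only [PV] at this
    push_cast at this
    exact this
  · intro z hz
    obtain ⟨i, hi⟩ := mem_iUnion.1 hz
    obtain ⟨x, -, hx⟩ := exists_pl_of_segment (PV p δ) (i.val : ℤ) (z := z) (by
      simp only [PV]
      push_cast
      rw [ZMod.natCast_zmod_val]
      exact hi)
    exact ⟨x, hx⟩

theorem norm_toC_le (z : ℝ × ℝ) : ‖toC z‖ ≤ 2 * ‖z‖ := by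
  have h := Complex.norm_le_abs_re_add_abs_im (toC z)
  have h1 : |(toC z).re| ≤ ‖z‖ := norm_fst_le z
  have h2 : |(toC z).im| ≤ ‖z‖ := norm_snd_le z
  linarith

theorem toC_sub (z w : ℝ × ℝ) : toC z - toC w = toC (z - w) := rfl

theorem dist_toC_le (z w : ℝ × ℝ) : dist (toC z) (toC w) ≤ 2 * dist z w := by
  rw [dist_eq_norm, dist_eq_norm, toC_sub]
  exact norm_toC_le _

theorem norm_toC_pt (v : ℤ × ℤ) : ‖toC (pt v)‖ = Final.len v := by
  have h3 : √3 ^ 2 = (3 : ℝ) := Real.sq_sqrt (by norm_num)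
  rw [Final.len, ← Real.sqrt_sq (norm_nonneg _), Complex.sq_norm, Complex.normSq_apply]
  congr 1
  simp only [toC, pt]
  nlinarith

theorem dist_PV (hδ : 0 < δ) (hp : IsPolygon p) (i : ℤ) :
    dist (PV p δ i) (PV p δ (i + 1)) = δ := by
  have h := hp.2.2 (i : ZMod n)
  have e : PV p δ (i + 1) - PV p δ i = (δ : ℂ) * toC (pt (p ((i : ZMod n) + 1) - p i)) := by
    simp only [PV]
    push_cast
    apply Complex.ext
    · simp only [toC, pt, Complex.sub_re, Complex.re_ofReal_mul, Prod.smul_mk, smul_eq_mul,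
        Prod.fst_sub, Prod.snd_sub]
      push_cast
      ring
    · simp only [toC, pt, Complex.sub_im, Complex.im_ofReal_mul, Prod.smul_mk, smul_eq_mul,
        Prod.snd_sub]
      push_cast
      ring
  rw [dist_comm, dist_eq_norm, e, norm_mul, norm_toC_pt, Complex.norm_real,
    Real.norm_of_nonneg hδ.le]
  have : Final.len (p ((i : ZMod n) + 1) - p i) = 1 := h
  rw [this, mul_one]

theorem dist_PF (hδ : 0 < δ) (hp : IsPolygon p) (x : ℝ) :
    dist (PF p δ x) (PV p δ ⌊x⌋) ≤ δ := by
  rw [PF, pl, dist_eq_norm]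
  have e : (1 - Int.fract x) • PV p δ ⌊x⌋ + Int.fract x • PV p δ (⌊x⌋ + 1) - PV p δ ⌊x⌋ =
      Int.fract x • (PV p δ (⌊x⌋ + 1) - PV p δ ⌊x⌋) := by module
  rw [e, norm_smul, ← dist_eq_norm, dist_comm, dist_PV hδ hp, Real.norm_of_nonneg
    (Int.fract_nonneg x)]
  nlinarith [Int.fract_lt_one x, Int.fract_nonneg x]

end Vale.Agent.P153.R2.R1
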