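import Mathlib.Analysis.SpecialFunctions.PolarCoord
import Mathlib.Analysis.Complex.CauchyIntegral
import Mathlib.MeasureTheory.Function.Jacobian
import Mathlib.Analysis.Calculus.FDeriv.Measurable
import Mathlib.MeasureTheory.Integral.MeanInequalities
import Mathlib.RingTheory.Complex
import Mathlib.RingTheory.Norm.Transitivity
import Mathlib.Analysis.SpecialFunctions.Integrals.Basic

/-!
# The length-area lemma (Wolff)

For an injective holomorphic `ψ` on an open set `U` and `0 < a < b`, some circle of radius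
`ρ ∈ (a, b)` around a given point meets `U` in a set whose image has total length at most
`√(2π · area (ψ '' U) / log (b / a))`.
-/

open Set Topology Metric MeasureTheory Filter
open scoped ENNReal Real

namespace Vale.Agent.P153.R2.R1

theorem abs_det_holo (a : ℂ) :
    |((ContinuousLinearMap.toSpanSingleton ℂ a).restrictScalars ℝ : ℂ →L[ℝ] ℂ).det| =
      ‖a‖ ^ 2 := by
  simp [ContinuousLinearMap.det, LinearMap.det_restrictScalars,
      Algebra.norm_complex_eq, Complex.normSq_eq_norm_sq]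

/-- The area of the image. -/
theorem area_image {U : Set ℂ} (hU : IsOpen U) {ψ : ℂ → ℂ} (hψ : DifferentiableOn ℂ ψ U)
    (hi : InjOn ψ U) : ∫⁻ z in U, ‖deriv ψ z‖ₑ ^ 2 = volume (ψ '' U) := by
  rw [← lintegral_abs_det_fderiv_eq_addHaar_image volume hU.measurableSet (f' := fun z =>
    ((ContinuousLinearMap.toSpanSingleton ℂ (deriv ψ z)).restrictScalars ℝ : ℂ →L[ℝ] ℂ))
    (fun z hz => (((hψ.differentiableAt
      (hU.mem_nhds hz)).hasDerivAt.hasFDerivAt).restrictScalars ℝ).hasFDerivWithinAt) hi]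
  congr 1
  ext z
  rw [abs_det_holo, ← ofReal_norm, ENNReal.ofReal_pow (norm_nonneg _)]

/-- The density `|ψ'|` on `U`. -/
noncomputable def dens (U : Set ℂ) (ψ : ℂ → ℂ) (z : ℂ) : ℝ≥0∞ :=
  U.indicator (fun z => ‖deriv ψ z‖ₑ) z

theorem measurable_dens {U : Set ℂ} (hU : IsOpen U) (ψ : ℂ → ℂ) : Measurable (dens U ψ) :=
  (measurable_deriv ψ).enorm.indicator hU.measurableSet

theorem lintegral_dens_sq {U : Set ℂ} (hU : IsOpen U) {ψ : ℂ → ℂ} (hψ : DifferentiableOn ℂ ψ U)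
    (hi : InjOn ψ U) : ∫⁻ z, dens U ψ z ^ 2 = volume (ψ '' U) := by
  rw [← area_image hU hψ hi, ← lintegral_indicator hU.measurableSet]
  congr 1
  ext z
  unfold dens
  by_cases hz : z ∈ U
  · simp [hz]
  · simp [hz]

/-- The length of the image of `U ∩ circle c ρ`. -/
noncomputable def len (U : Set ℂ) (ψ : ℂ → ℂ) (c : ℂ) (ρ : ℝ) : ℝ≥0∞ :=
  ∫⁻ θ in Ioo (-π) π, ENNReal.ofReal ρ * dens U ψ (c + ρ * Complex.exp (θ * Complex.I))

theorem polar_lintegral (c : ℂ) {g : ℂ → ℝ≥0∞} (hg : Measurable g) :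
    ∫⁻ z, g z = ∫⁻ r in Ioi (0 : ℝ), ∫⁻ θ in Ioo (-π) π,
      ENNReal.ofReal r * g (c + r * Complex.exp (θ * Complex.I)) := by
  have h1 : ∫⁻ z, g z = ∫⁻ z, g (c + z) := (lintegral_add_left_eq_self g c).symm
  rw [h1, ← Complex.lintegral_comp_polarCoord_symm, polarCoord_target]
  have hm : Measurable fun p : ℝ × ℝ =>
      ENNReal.ofReal p.1 * g (c + p.1 * Complex.exp (p.2 * Complex.I)) := by
    fun_prop
  have h2 : ∀ p : ℝ × ℝ, ENNReal.ofReal p.1 • g (c + Complex.polarCoord.symm p) =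
      ENNReal.ofReal p.1 * g (c + p.1 * Complex.exp (p.2 * Complex.I)) := by
    intro p
    rw [smul_eq_mul, Complex.polarCoord_symm_apply, Complex.exp_mul_I]
    norm_cast
  simp only [h2]
  rw [Measure.volume_eq_prod, ← Measure.prod_restrict, lintegral_prod _ hm.aemeasurable]

theorem len_sq_le {U : Set ℂ} (hU : IsOpen U) (ψ : ℂ → ℂ) (c : ℂ) {ρ : ℝ} (hρ : 0 < ρ) :
    len U ψ c ρ ^ 2 * ENNReal.ofReal (1 / ρ) ≤ ENNReal.ofReal (2 * π) *
      ∫⁻ θ in Ioo (-π) π, ENNReal.ofReal ρ * dens U ψ (c + ρ * Complex.exp (θ * Complex.I)) ^ 2 := by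
  set f : ℝ → ℝ≥0∞ := fun θ => dens U ψ (c + ρ * Complex.exp (θ * Complex.I)) with hf
  have hfm : Measurable f := (measurable_dens hU ψ).comp (by fun_prop)
  have e1 : len U ψ c ρ = ENNReal.ofReal ρ * ∫⁻ θ in Ioo (-π) π, f θ := by
    rw [len, lintegral_const_mul _ hfm]
  have e2 : ∫⁻ θ in Ioo (-π) π, ENNReal.ofReal ρ * f θ ^ 2 =
      ENNReal.ofReal ρ * ∫⁻ θ in Ioo (-π) π, f θ ^ 2 := by
    rw [lintegral_const_mul _ (hfm.pow_const 2)]
  have hCS : (∫⁻ θ in Ioo (-π) π, f θ) ^ 2 ≤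
      ENNReal.ofReal (2 * π) * ∫⁻ θ in Ioo (-π) π, f θ ^ 2 := by
    have h := ENNReal.lintegral_mul_le_Lp_mul_Lq (volume.restrict (Ioo (-π) π))
      Real.HolderConjugate.two_two hfm.aemeasurable
      (aemeasurable_const (b := (1 : ℝ≥0∞)))
    simp only [Pi.mul_apply, mul_one, ENNReal.one_rpow, lintegral_const, one_mul,
      Measure.restrict_apply MeasurableSet.univ, univ_inter, Real.volume_Ioo] at h
    have h' := pow_le_pow_left₀ bot_le h 2
    rw [mul_pow, ← ENNReal.rpow_natCast, ← ENNReal.rpow_natCast _ 2, ← ENNReal.rpow_natCast _ 2,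
      ← ENNReal.rpow_mul, ← ENNReal.rpow_mul] at h'
    norm_num at h'
    rw [mul_comm]
    have e3 : π + π = 2 * π := by ring
    rw [e3] at h'
    convert h' using 1
  rw [e1, e2, mul_pow]
  have e4 : ENNReal.ofReal ρ ^ 2 * ENNReal.ofReal (1 / ρ) = ENNReal.ofReal ρ := by
    rw [← ENNReal.ofReal_pow hρ.le, ← ENNReal.ofReal_mul (by positivity)]
    congr 1
    field_simp
  calc ENNReal.ofReal ρ ^ 2 * (∫⁻ θ in Ioo (-π) π, f θ) ^ 2 * ENNReal.ofReal (1 / ρ)
      = (ENNReal.ofReal ρ ^ 2 * ENNReal.ofReal (1 / ρ)) * (∫⁻ θ in Ioo (-π) π, f θ) ^ 2 := by ring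
    _ ≤ ENNReal.ofReal ρ * (ENNReal.ofReal (2 * π) * ∫⁻ θ in Ioo (-π) π, f θ ^ 2) := by
        rw [e4]; gcongr
    _ = _ := by ring

/-- **Length-area**: a circle with a short image. -/
theorem exists_short {U : Set ℂ} (hU : IsOpen U) {ψ : ℂ → ℂ} (hψ : DifferentiableOn ℂ ψ U)
    (hi : InjOn ψ U) {A : ℝ} (hA : 0 ≤ A) (hvol : volume (ψ '' U) ≤ ENNReal.ofReal A) (c : ℂ)
    {a b K : ℝ} (ha : 0 < a) (hab : a < b) (hK : 2 * π * A < K * Real.log (b / a)) :
    ∃ ρ ∈ Ioo a b, len U ψ c ρ ^ 2 < ENNReal.ofReal K := by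
  by_contra hcon
  push Not at hcon
  have hlog : 0 < Real.log (b / a) := Real.log_pos (by rwa [lt_div_iff₀ ha, one_mul])
  have hK0 : 0 < K := by
    by_contra h
    have : K * Real.log (b / a) ≤ 0 := mul_nonpos_of_nonpos_of_nonneg (not_lt.1 h) hlog.le
    have : 0 ≤ 2 * π * A := by positivity
    linarith
  have h1 : ∀ ρ ∈ Ioo a b, ENNReal.ofReal (K * (1 / ρ)) ≤ ENNReal.ofReal (2 * π) *
      ∫⁻ θ in Ioo (-π) π, ENNReal.ofReal ρ *
        dens U ψ (c + ρ * Complex.exp (θ * Complex.I)) ^ 2 := by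
    intro ρ hρ
    have hρ0 : 0 < ρ := ha.trans hρ.1
    refine le_trans ?_ (len_sq_le hU ψ c hρ0)
    rw [ENNReal.ofReal_mul hK0.le]
    gcongr
    exact hcon ρ hρ
  have h2 : ∫⁻ ρ in Ioo a b, ENNReal.ofReal (K * (1 / ρ)) = ENNReal.ofReal (K * Real.log (b / a)) := by
    have hint : IntegrableOn (fun ρ : ℝ => K * (1 / ρ)) (Ioo a b) := by
      have : IntervalIntegrable (fun ρ : ℝ => K * (1 / ρ)) volume a b := by
        apply ContinuousOn.intervalIntegrable
        apply ContinuousOn.mul continuousOn_const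
        apply ContinuousOn.div continuousOn_const continuousOn_id
        intro x hx
        rw [uIcc_of_le hab.le] at hx
        exact (ha.trans_le hx.1).ne'
      rw [intervalIntegrable_iff_integrableOn_Ioo_of_le hab.le] at this
      exact this
    rw [← ofReal_integral_eq_lintegral_ofReal hint]
    · congr 1
      rw [← integral_Ioc_eq_integral_Ioo, ← intervalIntegral.integral_of_le hab.le,
        intervalIntegral.integral_const_mul, integral_one_div_of_pos ha (ha.trans hab)]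
    · rw [EventuallyLE, ae_restrict_iff' measurableSet_Ioo]
      refine Eventually.of_forall fun ρ hρ => ?_
      have : 0 < ρ := ha.trans hρ.1
      simp only [Pi.zero_apply]
      positivity
  have h3 : ∫⁻ ρ in Ioo a b, ENNReal.ofReal (K * (1 / ρ)) ≤
      ENNReal.ofReal (2 * π) * volume (ψ '' U) := by
    rw [← lintegral_dens_sq hU hψ hi, polar_lintegral c ((measurable_dens hU ψ).pow_const 2)]
    rw [← lintegral_const_mul']
    · calc ∫⁻ ρ in Ioo a b, ENNReal.ofReal (K * (1 / ρ))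
          ≤ ∫⁻ ρ in Ioo a b, ENNReal.ofReal (2 * π) * ∫⁻ θ in Ioo (-π) π, ENNReal.ofReal ρ *
            dens U ψ (c + ρ * Complex.exp (θ * Complex.I)) ^ 2 := by
            apply setLIntegral_mono' measurableSet_Ioo
            exact h1
        _ ≤ _ := by
            apply lintegral_mono_set
            intro ρ hρ
            exact ha.trans hρ.1
    · exact ENNReal.ofReal_ne_top
  rw [h2] at h3
  have h4 : ENNReal.ofReal (K * Real.log (b / a)) ≤ ENNReal.ofReal (2 * π * A) := by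
    calc ENNReal.ofReal (K * Real.log (b / a)) ≤ ENNReal.ofReal (2 * π) * volume (ψ '' U) := h3
      _ ≤ ENNReal.ofReal (2 * π) * ENNReal.ofReal A := by gcongr
      _ = ENNReal.ofReal (2 * π * A) := (ENNReal.ofReal_mul (by positivity)).symm
  rw [ENNReal.ofReal_le_ofReal_iff (by positivity)] at h4
  linarith

/-- The length bounds the distances along an arc. -/
theorem dist_le_len {U : Set ℂ} (hU : IsOpen U) {ψ : ℂ → ℂ} (hψ : DifferentiableOn ℂ ψ U)
    (c : ℂ) {ρ : ℝ} (hρ : 0 < ρ) {θ₁ θ₂ : ℝ} (h12 : θ₁ ≤ θ₂) (h1 : -π < θ₁) (h2 : θ₂ < π)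
    (harc : ∀ θ ∈ Icc θ₁ θ₂, c + ρ * Complex.exp (θ * Complex.I) ∈ U) :
    ‖ψ (c + ρ * Complex.exp (θ₂ * Complex.I)) - ψ (c + ρ * Complex.exp (θ₁ * Complex.I))‖ₑ ≤
      len U ψ c ρ := by
  set γ : ℝ → ℂ := fun θ => c + ρ * Complex.exp (θ * Complex.I) with hγ
  have hγd : ∀ θ : ℝ, HasDerivAt γ (ρ * (Complex.exp (θ * Complex.I) * Complex.I)) θ := by
    intro θ
    have h1 : HasDerivAt (fun θ : ℝ => (θ : ℂ) * Complex.I) Complex.I θ := by
      simpa using (Complex.ofRealCLM.hasDerivAt (x := θ)).mul_const Complex.I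
    have h2 := (h1.cexp.const_mul (ρ : ℂ)).const_add c
    exact h2
  have hd : ∀ θ ∈ uIcc θ₁ θ₂, HasDerivAt (fun θ => ψ (γ θ))
      (deriv ψ (γ θ) * (ρ * (Complex.exp (θ * Complex.I) * Complex.I))) θ := by
    intro θ hθ
    rw [uIcc_of_le h12] at hθ
    have := (hψ.differentiableAt (hU.mem_nhds (harc θ hθ))).hasDerivAt
    exact this.comp_of_eq θ (hγd θ) rfl
  have hγc : Continuous γ := by rw [hγ]; fun_prop
  have hc : ContinuousOn (fun θ : ℝ => deriv ψ (γ θ) *
      (ρ * (Complex.exp (θ * Complex.I) * Complex.I))) (uIcc θ₁ θ₂) := by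
    apply ContinuousOn.mul
    · refine ((hψ.deriv hU).continuousOn).comp hγc.continuousOn ?_
      intro θ hθ
      rw [uIcc_of_le h12] at hθ
      exact harc θ hθ
    · fun_prop
  have hFTC := intervalIntegral.integral_eq_sub_of_hasDerivAt hd hc.intervalIntegrable
  rw [← hFTC, intervalIntegral.integral_of_le h12]
  refine (enorm_integral_le_lintegral_enorm _).trans ?_
  rw [len]
  have hsub : Ioc θ₁ θ₂ ⊆ Ioo (-π) π := fun θ hθ => ⟨h1.trans hθ.1, hθ.2.trans_lt h2⟩
  refine le_trans ?_ (lintegral_mono_set hsub)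
  refine setLIntegral_mono' measurableSet_Ioc ?_
  intro θ hθ
  have hθU : γ θ ∈ U := harc θ ⟨hθ.1.le, hθ.2⟩
  have e : dens U ψ (γ θ) = ‖deriv ψ (γ θ)‖ₑ := by simp [dens, hθU]
  rw [e, enorm_mul, enorm_mul, enorm_mul, mul_comm]
  have e2 : ‖(ρ : ℂ)‖ₑ = ENNReal.ofReal ρ := by
    rw [← ofReal_norm, Complex.norm_real, Real.norm_of_nonneg hρ.le]
  have e3 : ‖Complex.exp (θ * Complex.I)‖ₑ = 1 := by
    rw [← ofReal_norm, Complex.norm_exp_ofReal_mul_I, ENNReal.ofReal_one]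
  have e4 : ‖Complex.I‖ₑ = 1 := by
    rw [← ofReal_norm, Complex.norm_I, ENNReal.ofReal_one]
  rw [e2, e3, e4, mul_one, mul_one]

end Vale.Agent.P153.R2.R1
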