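import Vale.Agent.P153.R2.R1.Jan
import Vale.Agent.P153.R2.R1.Wolff
import Mathlib.Analysis.Complex.OpenMapping

/-!
# Short crosscuts cut off small pieces

`Conf φ D`: `φ` maps the unit disc conformally onto `D`. For a crosscut `E` of the disc (an arc of
a circle around a boundary point) with a small image, the piece cut off by `E` has a small image.
-/

open Set Topology Metric MeasureTheory Filter
open scoped ENNReal Real

namespace Vale.Agent.P153.R2.R1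

/-- `φ` maps the open unit disc conformally onto `D`. -/
structure Conf (φ : ℂ → ℂ) (D : Set ℂ) : Prop where
  diff : DifferentiableOn ℂ φ (ball 0 1)
  inj : InjOn φ (ball 0 1)
  img : φ '' ball 0 1 = D

variable {φ : ℂ → ℂ} {D : Set ℂ}

theorem Conf.isOpen_image (h : Conf φ D) {V : Set ℂ} (hV : V ⊆ ball 0 1) (hVo : IsOpen V) :
    IsOpen (φ '' V) := by
  have ha : AnalyticOnNhd ℂ φ (ball 0 1) := h.diff.analyticOnNhd isOpen_ball
  rcases ha.is_constant_or_isOpen (convex_ball 0 1).isPreconnected with ⟨w, hw⟩ | h'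
  · exfalso
    have h0 : (0 : ℂ) ∈ ball (0 : ℂ) 1 := mem_ball_self one_pos
    have h1 : (1 / 2 : ℂ) ∈ ball (0 : ℂ) 1 := by
      rw [mem_ball_zero_iff]; norm_num
    have := h.inj h0 h1 (by rw [hw _ h0, hw _ h1])
    norm_num at this
  · exact h' V hV hVo

theorem Conf.isOpen (h : Conf φ D) : IsOpen D := by
  rw [← h.img]; exact h.isOpen_image Subset.rfl isOpen_ball

theorem Conf.mem (h : Conf φ D) {z : ℂ} (hz : z ∈ ball (0 : ℂ) 1) : φ z ∈ D := by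
  rw [← h.img]; exact mem_image_of_mem _ hz

theorem Conf.zero_mem (h : Conf φ D) : φ 0 ∈ D := h.mem (mem_ball_self one_pos)

theorem Conf.isPreconnected (h : Conf φ D) : IsPreconnected D := by
  rw [← h.img]
  exact (convex_ball 0 1).isPreconnected.image _ h.diff.continuousOn

theorem Conf.nonempty (h : Conf φ D) : D.Nonempty := ⟨_, h.zero_mem⟩

/-- Images of points tending to the circle accumulate only at the frontier. -/
theorem Conf.mem_frontier (h : Conf φ D) {ι : Type*} {l : Filter ι} [l.NeBot] {u : ι → ℂ}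
    (hu : ∀ᶠ i in l, u i ∈ ball (0 : ℂ) 1) (hu1 : Tendsto (fun i => ‖u i‖) l (𝓝 1)) {y : ℂ}
    (hy : Tendsto (fun i => φ (u i)) l (𝓝 y)) : y ∈ frontier D := by
  rw [h.isOpen.frontier_eq]
  refine ⟨mem_closure_of_tendsto hy (hu.mono fun i hi => h.mem hi), fun hyD => ?_⟩
  rw [← h.img] at hyD
  obtain ⟨z, hz, rfl⟩ := hyD
  rw [mem_ball_zero_iff] at hz
  obtain ⟨s, hs1, hs2⟩ := exists_between hz
  have hsub : ball (0 : ℂ) s ⊆ ball 0 1 := ball_subset_ball hs2.le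
  have hnb : φ '' ball (0 : ℂ) s ∈ 𝓝 (φ z) :=
    (h.isOpen_image hsub isOpen_ball).mem_nhds ⟨z, by rwa [mem_ball_zero_iff], rfl⟩
  have h1 : ∀ᶠ i in l, φ (u i) ∈ φ '' ball (0 : ℂ) s := hy hnb
  have h2 : ∀ᶠ i in l, s < ‖u i‖ := hu1.eventually (lt_mem_nhds hs2)
  obtain ⟨i, hi, hi1, hi2⟩ := (hu.and (h1.and h2)).exists
  obtain ⟨z', hz', he⟩ := hi1
  have := h.inj (hsub hz') hi he
  rw [this, mem_ball_zero_iff] at hz'
  linarith

/-- A preconnected set which meets an open set `D` but not its frontier lies in `D`. -/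
theorem subset_of_frontier {W : Set ℂ} (hD : IsOpen D) (hW : IsPreconnected W)
    (hWD : (W ∩ D).Nonempty) (hWf : Disjoint W (frontier D)) : W ⊆ D := by
  intro x hx
  by_contra hxD
  have hxc : x ∉ closure D := fun hc => hWf.le_bot ⟨hx, by rw [hD.frontier_eq]; exact ⟨hc, hxD⟩⟩
  have hsub : W ⊆ D ∪ (closure D)ᶜ := by
    intro y hy
    by_cases hyD : y ∈ D
    · exact Or.inl hyD
    · exact Or.inr fun hc => hWf.le_bot ⟨hy, by rw [hD.frontier_eq]; exact ⟨hc, hyD⟩⟩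
  obtain ⟨y, hy⟩ := hWD
  obtain ⟨z, hz, hz1, hz2⟩ := hW D (closure D)ᶜ hD isClosed_closure.isOpen_compl hsub ⟨y, hy⟩
    ⟨x, hx, hxc⟩
  exact hz2 (subset_closure hz1)

/-! ### Arcs of circles in the disc -/

/-- The crosscut. -/
def cc (ζ : ℂ) (ρ : ℝ) : Set ℂ := ball 0 1 ∩ sphere ζ ρ

/-- The angles of the crosscut. -/
def Th (ρ : ℝ) : Set ℝ := {θ | θ ∈ Ioo (-(π / 2)) (π / 2) ∧ ρ / 2 < Real.cos θ}

theorem ordConnected_Th (ρ : ℝ) : (Th ρ).OrdConnected := by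
  refine ⟨fun x hx y hy z hz => ?_⟩
  have hz1 : z ∈ Ioo (-(π / 2)) (π / 2) :=
    ⟨lt_of_lt_of_le hx.1.1 hz.1, lt_of_le_of_lt hz.2 hy.1.2⟩
  refine ⟨hz1, ?_⟩
  rcases le_total 0 z with h0 | h0
  · refine lt_of_lt_of_le hy.2 ?_
    exact Real.cos_le_cos_of_nonneg_of_le_pi h0 (by linarith [hy.1.2, Real.pi_pos]) hz.2
  · refine lt_of_lt_of_le hx.2 ?_
    rw [← Real.cos_neg x, ← Real.cos_neg z]
    exact Real.cos_le_cos_of_nonneg_of_le_pi (by linarith) (by linarith [hx.1.1, Real.pi_pos])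
      (by linarith [hz.1])

theorem norm_sub_one_sq (ρ θ : ℝ) :
    ‖(ρ : ℂ) * Complex.exp (θ * Complex.I) - 1‖ ^ 2 = ρ ^ 2 - 2 * ρ * Real.cos θ + 1 := by
  rw [← Complex.normSq_eq_norm_sq, Complex.normSq_apply]
  have h1 : ((ρ : ℂ) * Complex.exp (θ * Complex.I)).re = ρ * Real.cos θ := by
    rw [Complex.re_ofReal_mul, Complex.exp_ofReal_mul_I_re]
  have h2 : ((ρ : ℂ) * Complex.exp (θ * Complex.I)).im = ρ * Real.sin θ := by
    rw [Complex.im_ofReal_mul, Complex.exp_ofReal_mul_I_im]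
  rw [Complex.sub_re, Complex.sub_im, h1, h2, Complex.one_re, Complex.one_im]
  nlinarith [Real.sin_sq_add_cos_sq θ]

/-- The arc in polar coordinates. -/
noncomputable def arc (ζ : ℂ) (ρ θ : ℝ) : ℂ := ζ * (1 - (ρ * Complex.exp (θ * Complex.I)))

theorem arc_mem {ζ : ℂ} (hζ : ‖ζ‖ = 1) {ρ θ : ℝ} (hρ : 0 < ρ) (hθ : θ ∈ Th ρ) :
    arc ζ ρ θ ∈ ball (0 : ℂ) 1 := by
  rw [mem_ball_zero_iff, arc, norm_mul, hζ, one_mul, ← norm_neg, neg_sub]
  have h := norm_sub_one_sq ρ θ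
  have h2 := hθ.2
  have : ρ ^ 2 - 2 * ρ * Real.cos θ + 1 < 1 := by nlinarith
  rw [← h] at this
  nlinarith [norm_nonneg ((ρ : ℂ) * Complex.exp (θ * Complex.I) - 1)]

theorem arc_dist {ζ : ℂ} (hζ : ‖ζ‖ = 1) {ρ θ : ℝ} (hρ : 0 < ρ) : dist (arc ζ ρ θ) ζ = ρ := by
  rw [dist_eq_norm, arc]
  have : ζ * (1 - (ρ * Complex.exp (θ * Complex.I))) - ζ =
      - (ζ * (ρ * Complex.exp (θ * Complex.I))) := by ring
  rw [this, norm_neg, norm_mul, hζ, norm_mul, Complex.norm_exp_ofReal_mul_I, Complex.norm_real,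
    Real.norm_of_nonneg hρ.le]
  ring

theorem exists_arc {ζ : ℂ} (hζ : ‖ζ‖ = 1) {ρ : ℝ} (hρ : 0 < ρ) {z : ℂ} (hz : z ∈ cc ζ ρ) :
    ∃ θ ∈ Th ρ, arc ζ ρ θ = z := by
  have hζ0 : ζ ≠ 0 := by rintro rfl; simp at hζ
  obtain ⟨hz1, hz2⟩ := hz
  rw [mem_ball_zero_iff] at hz1
  rw [mem_sphere, dist_eq_norm] at hz2
  set w : ℂ := 1 - z / ζ with hw
  have hzw : ζ * (1 - w) = z := by rw [hw]; field_simp; ring
  have hwn : ‖w‖ = ρ := by
    have : z - ζ = -(ζ * w) := by rw [← hzw]; ring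
    rw [this, norm_neg, norm_mul, hζ, one_mul] at hz2
    exact hz2
  have hwe : (ρ : ℂ) * Complex.exp (w.arg * Complex.I) = w := by
    rw [← hwn]; exact Complex.norm_mul_exp_arg_mul_I w
  have hlt : ‖(ρ : ℂ) * Complex.exp (w.arg * Complex.I) - 1‖ < 1 := by
    rw [hwe]
    rw [← hzw, norm_mul, hζ, one_mul, ← norm_neg, neg_sub] at hz1
    exact hz1
  have hcos : ρ / 2 < Real.cos w.arg := by
    have h := norm_sub_one_sq ρ w.arg
    have h3 : ‖(ρ : ℂ) * Complex.exp (w.arg * Complex.I) - 1‖ ^ 2 < 1 := by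
      nlinarith [norm_nonneg ((ρ : ℂ) * Complex.exp (w.arg * Complex.I) - 1)]
    rw [h] at h3
    nlinarith
  have habs : |w.arg| < π / 2 := by
    rw [Complex.abs_arg_lt_pi_div_two_iff]
    left
    have : w.re = ρ * Real.cos w.arg := by
      conv_lhs => rw [← hwe]
      rw [Complex.re_ofReal_mul, Complex.exp_ofReal_mul_I_re]
    rw [this]
    have : 0 < Real.cos w.arg := by linarith
    positivity
  refine ⟨w.arg, ⟨abs_lt.1 habs, hcos⟩, ?_⟩
  rw [arc, hwe, hzw]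

theorem cc_eq_image {ζ : ℂ} (hζ : ‖ζ‖ = 1) {ρ : ℝ} (hρ : 0 < ρ) :
    cc ζ ρ = arc ζ ρ '' Th ρ := by
  apply Subset.antisymm
  · intro z hz
    obtain ⟨θ, hθ, rfl⟩ := exists_arc hζ hρ hz
    exact ⟨θ, hθ, rfl⟩
  · rintro _ ⟨θ, hθ, rfl⟩
    exact ⟨arc_mem hζ hρ hθ, arc_dist hζ hρ⟩

theorem continuous_arc (ζ : ℂ) (ρ : ℝ) : Continuous (arc ζ ρ) := by
  unfold arc; fun_prop

theorem cc_isPreconnected {ζ : ℂ} (hζ : ‖ζ‖ = 1) {ρ : ℝ} (hρ : 0 < ρ) :
    IsPreconnected (cc ζ ρ) := by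
  rw [cc_eq_image hζ hρ]
  exact (ordConnected_Th ρ).isPreconnected.image _ (continuous_arc ζ ρ).continuousOn

/-- A short crosscut image. -/
theorem Conf.exists_crosscut (h : Conf φ D) {A : ℝ} (hA : 0 ≤ A)
    (hvol : volume D ≤ ENNReal.ofReal A) {ζ : ℂ} (hζ : ‖ζ‖ = 1) {a b K : ℝ} (ha : 0 < a)
    (hab : a < b) (hK : 2 * π * A < K * Real.log (b / a)) :
    ∃ ρ ∈ Ioo a b, ∀ z ∈ cc ζ ρ, ∀ z' ∈ cc ζ ρ, ‖φ z - φ z'‖ ^ 2 ≤ K := by
  have hζ0 : ζ ≠ 0 := by rintro rfl; simp at hζ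
  set ψ : ℂ → ℂ := fun w => φ (ζ * (1 - w)) with hψ
  set U : Set ℂ := {w | ζ * (1 - w) ∈ ball (0 : ℂ) 1} with hU
  have hUo : IsOpen U := isOpen_ball.preimage (by fun_prop)
  have hd : DifferentiableOn ℂ ψ U := by
    refine h.diff.comp (by fun_prop) (fun w hw => hw)
  have hi : InjOn ψ U := by
    intro w hw w' hw' e
    have := h.inj hw hw' e
    have := mul_left_cancel₀ hζ0 this
    linear_combination -this
  have him : ψ '' U = D := by
    rw [← h.img]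
    apply Subset.antisymm
    · rintro _ ⟨w, hw, rfl⟩
      exact ⟨_, hw, rfl⟩
    · rintro _ ⟨z, hz, rfl⟩
      have e : ζ * (1 - (1 - z / ζ)) = z := by field_simp; ring
      refine ⟨1 - z / ζ, ?_, ?_⟩
      · rw [hU, mem_ofPred_eq, e]; exact hz
      · rw [hψ]; simp only [e]
  obtain ⟨ρ, hρ, hlen⟩ := exists_short hUo hd hi hA (by rwa [him]) 0 ha hab hK
  have hρ0 : 0 < ρ := ha.trans hρ.1
  have hlog : 0 < Real.log (b / a) := Real.log_pos (by rwa [lt_div_iff₀ ha, one_mul])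
  have hK0 : 0 ≤ K := by
    by_contra hneg
    have : K * Real.log (b / a) ≤ 0 := mul_nonpos_of_nonpos_of_nonneg (not_le.1 hneg).le hlog.le
    have : 0 ≤ 2 * π * A := by positivity
    linarith
  have key : ∀ θ₁ ∈ Th ρ, ∀ θ₂ ∈ Th ρ, θ₁ ≤ θ₂ →
      ‖φ (arc ζ ρ θ₁) - φ (arc ζ ρ θ₂)‖ ^ 2 ≤ K := by
    intro θ₁ h1 θ₂ h2 h12
    have hmem : ∀ θ ∈ Icc θ₁ θ₂, (0 : ℂ) + ρ * Complex.exp (θ * Complex.I) ∈ U := by
      intro θ hθ
      have := (ordConnected_Th ρ).out h1 h2 hθ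
      have h3 := arc_mem hζ hρ0 this
      rw [hU, mem_ofPred_eq, zero_add]
      exact h3
    have h4 := dist_le_len hUo hd 0 hρ0 h12 (by linarith [h1.1.1, Real.pi_pos])
      (by linarith [h2.1.2, Real.pi_pos]) hmem
    simp only [zero_add] at h4
    have h5 : ‖ψ (ρ * Complex.exp (θ₂ * Complex.I)) - ψ (ρ * Complex.exp (θ₁ * Complex.I))‖ₑ ^ 2 ≤
        ENNReal.ofReal K := (pow_le_pow_left₀ bot_le h4 2).trans hlen.le
    rw [← ofReal_norm, ← ENNReal.ofReal_pow (norm_nonneg _), ENNReal.ofReal_le_ofReal_iff hK0] at h5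
    rw [norm_sub_rev]
    exact h5
  refine ⟨ρ, hρ, fun z hz z' hz' => ?_⟩
  obtain ⟨θ₁, h1, rfl⟩ := exists_arc hζ hρ0 hz
  obtain ⟨θ₂, h2, rfl⟩ := exists_arc hζ hρ0 hz'
  rcases le_total θ₁ θ₂ with h12 | h12
  · exact key _ h1 _ h2 h12
  · rw [norm_sub_rev]; exact key _ h2 _ h1 h12

/-- **The cut lemma.** -/
theorem Conf.cut (h : Conf φ D) (hb : Bornology.IsBounded D) {ζ : ℂ} (hζ : ‖ζ‖ = 1) {ρ : ℝ}
    (hρ1 : ρ < 1) {K : Set ℂ} (hK : IsCompact K) {c : ℂ} {r : ℝ}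
    (hKr : K ⊆ closedBall c r) (hcc : φ '' cc ζ ρ ⊆ K) (hKf : IsPreconnected (K ∩ frontier D))
    (h0 : φ 0 ∉ closedBall c r) : φ '' (ball 0 1 ∩ ball ζ ρ) ⊆ closedBall c r := by
  rintro _ ⟨z, ⟨hz1, hz2⟩, rfl⟩
  by_contra hw
  have hfc : IsCompact (frontier D) := by
    refine isCompact_of_isClosed_isBounded isClosed_frontier ?_
    exact hb.closure.subset frontier_subset_closure
  have hDf : Disjoint D (frontier D) := by
    rw [Set.disjoint_left]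
    intro x hx hx'
    rw [h.isOpen.frontier_eq] at hx'
    exact hx'.2 hx
  have hcr : Disjoint (closedBall c r)ᶜ K := by
    rw [Set.disjoint_left]
    intro x hx hx'
    exact hx (hKr hx')
  have hj := janiszewski hK hfc hKf (preconnected_compl_closedBall c r) hcr
    (show φ 0 ∈ (closedBall c r)ᶜ from h0) (show φ z ∈ (closedBall c r)ᶜ from hw)
    h.isPreconnected hDf h.zero_mem (h.mem hz1)
  set W := connectedComponentIn (K ∪ frontier D)ᶜ (φ 0) with hW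
  have h0W : φ 0 ∈ W := by
    refine mem_connectedComponentIn ?_
    rintro (hx | hx)
    · exact h0 (hKr hx)
    · exact hDf.le_bot ⟨h.zero_mem, hx⟩
  have hWsub : W ⊆ (K ∪ frontier D)ᶜ := connectedComponentIn_subset _ _
  have hWD : W ⊆ D := subset_of_frontier h.isOpen isPreconnected_connectedComponentIn
    ⟨_, h0W, h.zero_mem⟩ (by
      rw [Set.disjoint_left]
      intro x hx hx'
      exact hWsub hx (Or.inr hx'))
  set A : Set ℂ := φ '' (ball 0 1 ∩ ball ζ ρ) with hA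
  set B : Set ℂ := φ '' (ball 0 1 ∩ (closedBall ζ ρ)ᶜ) with hB
  have hAo : IsOpen A := h.isOpen_image inter_subset_left (isOpen_ball.inter isOpen_ball)
  have hBo : IsOpen B := h.isOpen_image inter_subset_left
    (isOpen_ball.inter isClosed_closedBall.isOpen_compl)
  have hsub : W ⊆ A ∪ B := by
    intro y hy
    have hyD := hWD hy
    rw [← h.img] at hyD
    obtain ⟨x, hx, rfl⟩ := hyD
    rcases lt_trichotomy (dist x ζ) ρ with hlt | heq | hgt
    · exact Or.inl ⟨x, ⟨hx, hlt⟩, rfl⟩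
    · exact (hWsub hy (Or.inl (hcc ⟨x, ⟨hx, heq⟩, rfl⟩))).elim
    · exact Or.inr ⟨x, ⟨hx, fun hc => absurd (mem_closedBall.1 hc) (not_le.2 hgt)⟩, rfl⟩
  have h0B : φ 0 ∈ B := by
    refine ⟨0, ⟨mem_ball_self one_pos, fun hc => ?_⟩, rfl⟩
    rw [mem_closedBall, dist_zero_left, hζ] at hc
    linarith
  obtain ⟨y, hy, hyA, hyB⟩ := isPreconnected_connectedComponentIn A B hAo hBo hsub
    ⟨_, hj, ⟨z, ⟨hz1, hz2⟩, rfl⟩⟩ ⟨_, h0W, h0B⟩
  obtain ⟨x, ⟨hx1, hx2⟩, rfl⟩ := hyA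
  obtain ⟨x', ⟨hx1', hx2'⟩, he⟩ := hyB
  have := h.inj hx1' hx1 he
  subst this
  exact hx2' (ball_subset_closedBall hx2)

end Vale.Agent.P153.R2.R1
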