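import Vale.Agent.P153.R2.R1.Cut
import Mathlib.MeasureTheory.Measure.Lebesgue.VolumeOfBalls
import Mathlib.Analysis.Complex.Liouville

/-!
# Uniform modulus of continuity of conformal maps

`Ctrl D η ε`: boundary points of `D` at distance at most `η` lie in a small connected part of the
frontier. Conformal maps of the disc onto domains with the same bounds have a common modulus of
continuity.
-/

open Set Topology Metric MeasureTheory Filter
open scoped ENNReal Real

namespace Vale.Agent.P153.R2.R1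

variable {φ : ℂ → ℂ} {D : Set ℂ}

/-- The points of the frontier of `D` within `η` of the frontier point `p` lie in a connected
compact part of the frontier which is within `ε` of `p`. -/
def Ctrl (D : Set ℂ) (η ε : ℝ) : Prop :=
  ∀ p ∈ frontier D, ∃ J : Set ℂ, IsCompact J ∧ IsPreconnected J ∧ J ⊆ frontier D ∧
    frontier D ∩ closedBall p η ⊆ J ∧ J ⊆ closedBall p ε

theorem Ctrl.mono {η η' ε ε' : ℝ} (h : Ctrl D η ε) (hη : η' ≤ η) (hε : ε ≤ ε') :
    Ctrl D η' ε' := by
  intro p hp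
  obtain ⟨J, h1, h2, h3, h4, h5⟩ := h p hp
  exact ⟨J, h1, h2, h3, (inter_subset_inter_right _ (closedBall_subset_closedBall hη)).trans h4,
    h5.trans (closedBall_subset_closedBall hε)⟩

/-- The closure of the image of a crosscut reaches the frontier. -/
theorem Conf.exists_end (h : Conf φ D) (hb : Bornology.IsBounded D) {ζ : ℂ} (hζ : ‖ζ‖ = 1)
    {ρ : ℝ} (hρ : 0 < ρ) (hρ1 : ρ < 1) : ∃ p ∈ frontier D, p ∈ closure (φ '' cc ζ ρ) := by
  set α : ℝ := Real.arccos (ρ / 2) with hα
  have hα0 : 0 < α := Real.arccos_pos.2 (by linarith)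
  have hα1 : α < π / 2 := Real.arccos_lt_pi_div_two.2 (by linarith)
  have hcosα : Real.cos α = ρ / 2 := Real.cos_arccos (by linarith) (by linarith)
  have hTh : ∀ᶠ θ in 𝓝[<] α, θ ∈ Th ρ := by
    filter_upwards [Ioo_mem_nhdsLT hα0] with θ hθ
    refine ⟨⟨by linarith [hθ.1], by linarith [hθ.2]⟩, ?_⟩
    rw [← hcosα]
    exact Real.cos_lt_cos_of_nonneg_of_le_pi hθ.1.le (by linarith [Real.pi_pos]) hθ.2
  set F : Ultrafilter ℝ := Ultrafilter.of (𝓝[<] α) with hF
  have hFle : (F : Filter ℝ) ≤ 𝓝[<] α := Ultrafilter.of_le _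
  have hFle' : (F : Filter ℝ) ≤ 𝓝 α := hFle.trans nhdsWithin_le_nhds
  have hcomp : IsCompact (closure D) := hb.isCompact_closure
  have hmem : ∀ᶠ θ in (F : Filter ℝ), φ (arc ζ ρ θ) ∈ closure D :=
    hFle (hTh.mono fun θ hθ => subset_closure (h.mem (arc_mem hζ hρ hθ)))
  obtain ⟨p, hp, hlim⟩ := hcomp.ultrafilter_le_nhds (F.map fun θ => φ (arc ζ ρ θ))
    (le_principal_iff.2 hmem)
  have hlim' : Tendsto (fun θ => φ (arc ζ ρ θ)) F (𝓝 p) := hlim
  refine ⟨p, ?_, ?_⟩
  · refine h.mem_frontier (l := (F : Filter ℝ)) (u := arc ζ ρ)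
      (hFle (hTh.mono fun θ hθ => arc_mem hζ hρ hθ)) ?_ hlim'
    have hc : Continuous fun θ => ‖arc ζ ρ θ‖ := (continuous_arc ζ ρ).norm
    have h1 : Tendsto (fun θ => ‖arc ζ ρ θ‖) F (𝓝 ‖arc ζ ρ α‖) := (hc.tendsto α).mono_left hFle'
    have h2 : ‖arc ζ ρ α‖ = 1 := by
      rw [arc, norm_mul, hζ, one_mul, ← norm_neg, neg_sub]
      have h3 := norm_sub_one_sq ρ α
      rw [hcosα] at h3
      have h4 : ‖(ρ : ℂ) * Complex.exp (α * Complex.I) - 1‖ ^ 2 = 1 := by rw [h3]; ring
      nlinarith [norm_nonneg ((ρ : ℂ) * Complex.exp (α * Complex.I) - 1)]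
    rwa [h2] at h1
  · refine mem_closure_of_tendsto hlim' (hFle (hTh.mono fun θ hθ => ?_))
    exact mem_image_of_mem _ ⟨arc_mem hζ hρ hθ, arc_dist hζ hρ⟩

theorem Conf.small (h : Conf φ D) (hb : Bornology.IsBounded D) {η ε : ℝ} (hc : Ctrl D η ε)
    (hηε : η ≤ ε) (hd : ∀ p ∈ frontier D, ε < dist (φ 0) p) {ζ : ℂ} (hζ : ‖ζ‖ = 1) {ρ : ℝ}
    (hρ : 0 < ρ) (hρ1 : ρ < 1) (hs : ∀ z ∈ cc ζ ρ, ∀ z' ∈ cc ζ ρ, dist (φ z) (φ z') ≤ η) :
    ∃ p ∈ frontier D, φ '' (ball 0 1 ∩ ball ζ ρ) ⊆ closedBall p ε := by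
  obtain ⟨p, hp, hpc⟩ := h.exists_end hb hζ hρ hρ1
  obtain ⟨J, hJ1, hJ2, hJ3, hJ4, hJ5⟩ := hc p hp
  have hcl : closure (φ '' cc ζ ρ) ⊆ closedBall p η := by
    refine closure_minimal ?_ isClosed_closedBall
    rintro _ ⟨z, hz, rfl⟩
    have : closure (φ '' cc ζ ρ) ⊆ closedBall (φ z) η := by
      refine closure_minimal ?_ isClosed_closedBall
      rintro _ ⟨z', hz', rfl⟩
      exact hs z' hz' z hz
    rw [mem_closedBall, dist_comm]
    exact this hpc
  have hK : IsCompact (closure (φ '' cc ζ ρ) ∪ J) := by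
    refine IsCompact.union ?_ hJ1
    exact isCompact_of_isClosed_isBounded isClosed_closure (isBounded_closedBall.subset hcl)
  refine ⟨p, hp, h.cut hb hζ hρ1 hK ?_ ?_ ?_ ?_⟩
  · exact union_subset (hcl.trans (closedBall_subset_closedBall hηε)) hJ5
  · exact subset_closure.trans subset_union_left
  · have : (closure (φ '' cc ζ ρ) ∪ J) ∩ frontier D = J := by
      apply Subset.antisymm
      · rintro x ⟨hx | hx, hxf⟩
        · exact hJ4 ⟨hxf, hcl hx⟩
        · exact hx
      · intro x hx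
        exact ⟨Or.inr hx, hJ3 hx⟩
    rw [this]
    exact hJ2
  · rw [mem_closedBall, not_le]
    exact hd p hp

/-- **Equicontinuity.** -/
theorem equi {R d η ε : ℝ} (hR : 0 < R) (hη : 0 < η) (hε : 0 < ε) (hεd : ε < d) :
    ∃ δ > 0, ∀ (φ : ℂ → ℂ) (D : Set ℂ), Conf φ D → D ⊆ closedBall 0 R → Ctrl D η ε →
      (∀ p ∈ frontier D, d ≤ dist (φ 0) p) →
      ∀ z ∈ ball (0 : ℂ) 1, ∀ z' ∈ ball (0 : ℂ) 1, dist z z' < δ → dist (φ z) (φ z') ≤ 2 * ε := by
  set η' : ℝ := min η ε with hη'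
  have hη'0 : 0 < η' := lt_min hη hε
  set A : ℝ := R ^ 2 * π with hA
  have hA0 : 0 ≤ A := by positivity
  set L : ℝ := 2 * π * A / η' ^ 2 + 1 with hL
  have hL0 : 0 < L := by positivity
  set a : ℝ := 1 / 2 * Real.exp (-L) with ha
  have ha0 : 0 < a := by positivity
  have ha2 : a < 1 / 2 := by
    rw [ha]
    have : Real.exp (-L) < 1 := by rw [← Real.exp_zero]; exact Real.exp_lt_exp.2 (by linarith)
    linarith
  have hlog : Real.log (1 / 2 / a) = L := by
    rw [ha, div_mul_eq_div_div, div_self (by norm_num), one_div, Real.exp_neg, inv_inv,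
      Real.log_exp]
  have hkey : 2 * π * A < η' ^ 2 * Real.log (1 / 2 / a) := by
    rw [hlog, hL, mul_add, mul_div_cancel₀ _ (by positivity)]
    have : 0 < η' ^ 2 := by positivity
    linarith
  set δ : ℝ := min (a / 4) (ε * a / (4 * R)) with hδ
  have hδ0 : 0 < δ := lt_min (by positivity) (by positivity)
  refine ⟨δ, hδ0, ?_⟩
  intro φ D h hDR hc hd z hz z' hz' hzz
  have hb : Bornology.IsBounded D := isBounded_closedBall.subset hDR
  have hvol : volume D ≤ ENNReal.ofReal A := by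
    refine (measure_mono hDR).trans ?_
    rw [Complex.volume_closedBall, hA, ENNReal.ofReal_mul (by positivity), ENNReal.ofReal_pow hR.le]
    gcongr
    rw [← NNReal.coe_real_pi, ENNReal.ofReal_coe_nnreal]
  rw [mem_ball_zero_iff] at hz
  have hδ1 : δ ≤ a / 4 := min_le_left _ _
  by_cases hcase : 1 - a / 2 < ‖z‖
  · have hz0 : 0 < ‖z‖ := by linarith
    set ζ : ℂ := z / ‖z‖ with hζd
    have hζ : ‖ζ‖ = 1 := by
      rw [hζd, norm_div, Complex.norm_real, norm_norm, div_self hz0.ne']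
    have hzζ : dist z ζ < a / 2 := by
      have e : z - ζ = ζ * ((‖z‖ - 1 : ℝ) : ℂ) := by
        have : (‖z‖ : ℂ) ≠ 0 := by exact_mod_cast hz0.ne'
        rw [hζd]
        push_cast
        field_simp
      rw [dist_eq_norm, e, norm_mul, hζ, one_mul, Complex.norm_real, Real.norm_eq_abs, abs_sub_comm,
        abs_of_pos (by linarith)]
      linarith
    obtain ⟨ρ, hρ, hs⟩ := h.exists_crosscut hA0 hvol hζ ha0 ha2 hkey
    have hρ0 : 0 < ρ := ha0.trans hρ.1
    obtain ⟨p, hp, hsub⟩ := h.small hb (hc.mono (min_le_left η ε) le_rfl) (min_le_right η ε)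
      (fun p hp => hεd.trans_le (hd p hp)) hζ hρ0 (by linarith [hρ.2]) (by
        intro w hw w' hw'
        rw [dist_eq_norm]
        exact abs_le_of_sq_le_sq' (hs w hw w' hw') hη'0.le |>.2)
    have h1 : φ z ∈ closedBall p ε := hsub ⟨z, ⟨by rwa [mem_ball_zero_iff], by
      rw [mem_ball]; linarith [hρ.1]⟩, rfl⟩
    have h2 : φ z' ∈ closedBall p ε := hsub ⟨z', ⟨hz', by
      rw [mem_ball]
      have := dist_triangle z' z ζ
      rw [dist_comm z' z] at this
      linarith [hρ.1]⟩, rfl⟩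
    rw [mem_closedBall] at h1 h2
    have := dist_triangle_right (φ z) (φ z') p
    linarith
  · rw [not_lt] at hcase
    have hsub : ∀ w ∈ ball z (a / 4), closedBall w (a / 8) ⊆ ball (0 : ℂ) 1 := by
      intro w hw x hx
      rw [mem_ball] at hw
      rw [mem_closedBall] at hx
      rw [mem_ball_zero_iff, ← dist_zero_right]
      have h1 := dist_triangle x w 0
      have h2 := dist_triangle w z 0
      rw [dist_zero_right z] at h2
      linarith
    have hder : ∀ w ∈ ball z (a / 4), ‖deriv φ w‖ ≤ R / (a / 8) := by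
      intro w hw
      apply Complex.norm_deriv_le_of_forall_mem_sphere_norm_le (by positivity)
      · exact (h.diff.mono (hsub w hw)).diffContOnCl_ball Subset.rfl
      · intro x hx
        have := hDR (h.mem (hsub w hw (sphere_subset_closedBall hx)))
        rwa [mem_closedBall_zero_iff] at this
    have hz'2 : z' ∈ ball z (a / 4) := by
      rw [mem_ball, dist_comm]; exact hzz.trans_le hδ1
    have hle := (convex_ball z (a / 4)).norm_image_sub_le_of_norm_deriv_le
      (f := φ) (C := R / (a / 8)) (fun w hw => h.diff.differentiableAt (isOpen_ball.mem_nhds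
        (hsub w hw (mem_closedBall_self (by positivity))))) hder
      hz'2 (mem_ball_self (by positivity))
    rw [← dist_eq_norm, ← dist_eq_norm] at hle
    refine hle.trans ?_
    have h3 : dist z z' ≤ ε * a / (4 * R) := (hzz.trans_le (min_le_right _ _)).le
    calc R / (a / 8) * dist z z' ≤ R / (a / 8) * (ε * a / (4 * R)) := by gcongr
      _ = 2 * ε := by field_simp; ring

end Vale.Agent.P153.R2.R1
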