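import Vale.Agent.P153.R2.R1.Equi
import Mathlib.Topology.ExtendFrom
import Mathlib.Analysis.Complex.AbsMax

/-!
# Carathéodory's theorem

The conformal maps of the disc onto a bounded domain with a locally connected frontier extend
continuously to the closed disc; if no point of the frontier cuts it, the extension is injective.
-/

open Set Topology Metric MeasureTheory Filter
open scoped ENNReal Real

namespace Vale.Agent.P153.R2.R1

variable {φ Φ : ℂ → ℂ} {D : Set ℂ}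

/-- Local connectivity of the frontier. -/
def LC (D : Set ℂ) : Prop := ∀ ε > 0, ∃ η > 0, Ctrl D η ε

/-- `φ` has the modulus `δ` for `ε` in the disc. -/
def Mod (φ : ℂ → ℂ) (δ ε : ℝ) : Prop :=
  ∀ z ∈ ball (0 : ℂ) 1, ∀ z' ∈ ball (0 : ℂ) 1, dist z z' < δ → dist (φ z) (φ z') ≤ ε

/-- The continuous extension to the closed disc. -/
noncomputable def cext (φ : ℂ → ℂ) : ℂ → ℂ := extendFrom (ball 0 1) φ

theorem neBot_ball {x : ℂ} (hx : x ∈ closedBall (0 : ℂ) 1) : (𝓝[ball (0 : ℂ) 1] x).NeBot := by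
  rw [← mem_closure_iff_nhdsWithin_neBot, closure_ball 0 one_ne_zero]
  exact hx

theorem exists_limit (h : ∀ ε > 0, ∃ δ > 0, Mod φ δ ε) {x : ℂ} (hx : x ∈ closedBall (0 : ℂ) 1) :
    ∃ y, Tendsto φ (𝓝[ball 0 1] x) (𝓝 y) := by
  have hne := neBot_ball hx
  have hC : Cauchy (map φ (𝓝[ball 0 1] x)) := by
    rw [Metric.cauchy_iff]
    refine ⟨hne.map _, fun ε hε => ?_⟩
    obtain ⟨δ, hδ, hm⟩ := h (ε / 2) (half_pos hε)
    refine ⟨φ '' (ball 0 1 ∩ ball x (δ / 2)), image_mem_map (inter_mem self_mem_nhdsWithin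
      (nhdsWithin_le_nhds (ball_mem_nhds x (half_pos hδ)))), ?_⟩
    rintro _ ⟨z, ⟨hz, hzx⟩, rfl⟩ _ ⟨z', ⟨hz', hzx'⟩, rfl⟩
    refine (hm z hz z' hz' ?_).trans_lt (half_lt_self hε)
    rw [mem_ball] at hzx hzx'
    have := dist_triangle_right z z' x
    linarith
  exact cauchy_iff_exists_le_nhds.1 hC

theorem cext_continuousOn (h : ∀ ε > 0, ∃ δ > 0, Mod φ δ ε) :
    ContinuousOn (cext φ) (closedBall 0 1) :=
  continuousOn_extendFrom (by rw [closure_ball 0 one_ne_zero]) fun _ hx => exists_limit h hx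

theorem cext_eq (hφ : ContinuousOn φ (ball 0 1)) : EqOn (cext φ) φ (ball 0 1) :=
  fun x hx => extendFrom_extends hφ x hx

theorem cext_dist (h : ∀ ε > 0, ∃ δ > 0, Mod φ δ ε) {δ ε : ℝ} (hm : Mod φ δ ε) {z z' : ℂ}
    (hz : z ∈ closedBall (0 : ℂ) 1) (hz' : z' ∈ closedBall (0 : ℂ) 1) (hd : dist z z' < δ) :
    dist (cext φ z) (cext φ z') ≤ ε := by
  have hn := neBot_ball hz
  have hn' := neBot_ball hz'
  have h1 : Tendsto φ (𝓝[ball 0 1] z) (𝓝 (cext φ z)) := tendsto_extendFrom (exists_limit h hz)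
  have h2 : Tendsto φ (𝓝[ball 0 1] z') (𝓝 (cext φ z')) := tendsto_extendFrom (exists_limit h hz')
  have h3 : Tendsto (fun w : ℂ × ℂ => dist (φ w.1) (φ w.2))
      (𝓝[ball 0 1] z ×ˢ 𝓝[ball 0 1] z') (𝓝 (dist (cext φ z) (cext φ z'))) :=
    (h1.comp tendsto_fst).dist (h2.comp tendsto_snd)
  refine le_of_tendsto h3 ?_
  have h4 : ∀ᶠ w : ℂ × ℂ in 𝓝[ball 0 1] z ×ˢ 𝓝[ball 0 1] z', w.1 ∈ ball (0 : ℂ) 1 ∧
      w.2 ∈ ball (0 : ℂ) 1 := by
    refine Eventually.prod_mk ?_ ?_ <;> exact self_mem_nhdsWithin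
  have h5 : ∀ᶠ w : ℂ × ℂ in 𝓝[ball 0 1] z ×ˢ 𝓝[ball 0 1] z', dist w.1 w.2 < δ := by
    have h6 : Tendsto (fun w : ℂ × ℂ => dist w.1 w.2) (𝓝[ball 0 1] z ×ˢ 𝓝[ball 0 1] z')
        (𝓝 (dist z z')) := by
      refine Tendsto.dist ?_ ?_
      · exact tendsto_fst.mono_right nhdsWithin_le_nhds
      · exact tendsto_snd.mono_right nhdsWithin_le_nhds
    exact h6.eventually (gt_mem_nhds hd)
  filter_upwards [h4, h5] with w hw hw'
  exact hm _ hw.1 _ hw.2 hw'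

theorem Conf.congr {ψ : ℂ → ℂ} (h : Conf φ D) (he : EqOn ψ φ (ball 0 1)) : Conf ψ D where
  diff := h.diff.congr he
  inj := h.inj.congr he.symm
  img := by rw [he.image_eq, h.img]

/-- A conformal map of the disc onto `D`, extended continuously to the closed disc. -/
structure CConf (Φ : ℂ → ℂ) (D : Set ℂ) : Prop extends Conf Φ D where
  cont : ContinuousOn Φ (closedBall 0 1)

theorem CConf.sphere_mem (h : CConf Φ D) {z : ℂ} (hz : z ∈ sphere (0 : ℂ) 1) :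
    Φ z ∈ frontier D := by
  have hz' := sphere_subset_closedBall hz
  have hn := neBot_ball hz'
  refine h.mem_frontier (l := 𝓝[ball (0 : ℂ) 1] z) (u := id) self_mem_nhdsWithin ?_ ?_
  · have : Tendsto (fun i : ℂ => ‖i‖) (𝓝[ball (0 : ℂ) 1] z) (𝓝 ‖z‖) :=
      (continuous_norm.tendsto z).mono_left nhdsWithin_le_nhds
    rwa [mem_sphere_zero_iff_norm.1 hz] at this
  · exact (h.cont z hz').mono_left (nhdsWithin_mono _ ball_subset_closedBall)

theorem CConf.closure_eq (h : CConf Φ D) : Φ '' closedBall 0 1 = closure D := by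
  apply Subset.antisymm
  · rintro _ ⟨z, hz, rfl⟩
    rcases (mem_closedBall.1 hz).lt_or_eq with hlt | heq
    · exact subset_closure (h.mem hlt)
    · exact frontier_subset_closure (h.sphere_mem heq)
  · refine closure_minimal ?_ ?_
    · rw [← h.img]
      exact image_mono ball_subset_closedBall
    · exact ((isCompact_closedBall 0 1).image_of_continuousOn h.cont).isClosed

theorem CConf.frontier_eq (h : CConf Φ D) : Φ '' sphere 0 1 = frontier D := by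
  apply Subset.antisymm
  · rintro _ ⟨z, hz, rfl⟩
    exact h.sphere_mem hz
  · intro p hp
    have hp' : p ∈ Φ '' closedBall 0 1 := by
      rw [h.closure_eq]; exact frontier_subset_closure hp
    obtain ⟨z, hz, rfl⟩ := hp'
    rcases (mem_closedBall.1 hz).lt_or_eq with hlt | heq
    · rw [h.isOpen.frontier_eq] at hp
      exact (hp.2 (h.mem hlt)).elim
    · exact ⟨z, heq, rfl⟩

theorem CConf.isBounded (h : CConf Φ D) : Bornology.IsBounded D := by
  have := ((isCompact_closedBall (0 : ℂ) 1).image_of_continuousOn h.cont).isBounded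
  rw [h.closure_eq] at this
  exact this.subset subset_closure

/-- A boundary value which is taken on a nonempty relatively open part of the circle is impossible
for a conformal map. -/
theorem CConf.not_const (h : CConf Φ D) {η : ℂ} (hη : η ∉ D) {O : Set ℂ} (hO : IsOpen O)
    {a : ℂ} (ha : a ∈ sphere (0 : ℂ) 1) (haO : a ∈ O)
    (hc : ∀ z ∈ sphere (0 : ℂ) 1, z ∈ O → Φ z = η) : False := by
  have ha1 : ‖a‖ = 1 := mem_sphere_zero_iff_norm.1 ha
  have ha0 : a ≠ 0 := by rintro rfl; simp at ha1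
  -- finitely many rotations cover the circle
  obtain ⟨t, ht, hcov⟩ := (isCompact_sphere (0 : ℂ) 1).elim_nhds_subcover
    (fun ζ => {z : ℂ | a / ζ * z ∈ O}) (by
      intro ζ hζ
      have hζ1 : ‖ζ‖ = 1 := mem_sphere_zero_iff_norm.1 hζ
      have hζ0 : ζ ≠ 0 := by rintro rfl; simp at hζ1
      have hop : IsOpen {z : ℂ | a / ζ * z ∈ O} := hO.preimage (by fun_prop)
      refine hop.mem_nhds ?_
      rw [mem_ofPred_eq, div_mul_cancel₀ a hζ0]
      exact haO)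
  have hrot : ∀ ζ ∈ t, ‖a / ζ‖ = 1 := by
    intro ζ hζ
    rw [norm_div, ha1, mem_sphere_zero_iff_norm.1 (ht ζ hζ), div_one]
  set G : ℂ → ℂ := fun z => ∏ ζ ∈ t, (Φ (a / ζ * z) - η) with hG
  have hmaps : ∀ ζ ∈ t, MapsTo (fun z : ℂ => a / ζ * z) (closedBall 0 1) (closedBall 0 1) := by
    intro ζ hζ z hz
    rw [mem_closedBall_zero_iff] at hz ⊢
    rw [norm_mul, hrot ζ hζ, one_mul]
    exact hz
  have hmapb : ∀ ζ ∈ t, MapsTo (fun z : ℂ => a / ζ * z) (ball 0 1) (ball 0 1) := by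
    intro ζ hζ z hz
    rw [mem_ball_zero_iff] at hz ⊢
    rw [norm_mul, hrot ζ hζ, one_mul]
    exact hz
  have hd : DiffContOnCl ℂ G (ball 0 1) := by
    refine ⟨?_, ?_⟩
    · refine DifferentiableOn.fun_finsetProd fun ζ hζ => ?_
      exact (h.diff.comp (by fun_prop) (hmapb ζ hζ)).sub_const η
    · rw [closure_ball 0 one_ne_zero]
      refine continuousOn_finsetProd t fun ζ hζ => ?_
      exact (h.cont.comp (by fun_prop) (hmaps ζ hζ)).sub continuousOn_const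
  have hbd : ∀ z ∈ frontier (ball (0 : ℂ) 1), ‖G z‖ ≤ 0 := by
    intro z hz
    rw [frontier_ball 0 one_ne_zero] at hz
    obtain ⟨ζ, hζ, hzO⟩ := mem_iUnion₂.1 (hcov hz)
    have : G z = 0 := by
      refine Finset.prod_eq_zero hζ ?_
      rw [sub_eq_zero]
      refine hc _ ?_ hzO
      rw [mem_sphere_zero_iff_norm, norm_mul, hrot ζ hζ, one_mul]
      exact mem_sphere_zero_iff_norm.1 hz
    rw [this, norm_zero]
  have h0 := Complex.norm_le_of_forall_mem_frontier_norm_le isBounded_ball hd hbd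
    (subset_closure (mem_ball_self one_pos : (0 : ℂ) ∈ ball (0 : ℂ) 1))
  have h1 : G 0 = 0 := norm_le_zero_iff.1 h0
  rw [hG] at h1
  simp only [mul_zero] at h1
  obtain ⟨ζ, -, h2⟩ := Finset.prod_eq_zero_iff.1 h1
  rw [sub_eq_zero] at h2
  exact hη (h2 ▸ h.zero_mem)

/-- No point cuts the frontier. -/
def NoCut (D : Set ℂ) : Prop := ∀ p ∈ frontier D, IsPreconnected (frontier D \ {p})

/-- The linear function which vanishes on the line through two points. -/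
def lin (ζ₁ ζ₂ z : ℂ) : ℝ :=
  (z.im - ζ₁.im) * (ζ₂.re - ζ₁.re) - (z.re - ζ₁.re) * (ζ₂.im - ζ₁.im)

theorem continuous_lin (ζ₁ ζ₂ : ℂ) : Continuous (lin ζ₁ ζ₂) := by
  unfold lin; fun_prop

theorem lin_left (ζ₁ ζ₂ : ℂ) : lin ζ₁ ζ₂ ζ₁ = 0 := by simp [lin]

theorem lin_right (ζ₁ ζ₂ : ℂ) : lin ζ₁ ζ₂ ζ₂ = 0 := by simp [lin]; ring

theorem sq_of_sphere {z : ℂ} (hz : z ∈ sphere (0 : ℂ) 1) : z.re ^ 2 + z.im ^ 2 = 1 := by
  have := Complex.sq_norm z
  rw [mem_sphere_zero_iff_norm.1 hz, Complex.normSq_apply] at this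
  nlinarith

theorem sq_pos_of_ne {ζ₁ ζ₂ : ℂ} (hne : ζ₁ ≠ ζ₂) :
    0 < (ζ₂.re - ζ₁.re) ^ 2 + (ζ₂.im - ζ₁.im) ^ 2 := by
  by_contra h
  have h1 : ζ₂.re - ζ₁.re = 0 := by nlinarith [sq_nonneg (ζ₂.re - ζ₁.re), sq_nonneg (ζ₂.im - ζ₁.im)]
  have h2 : ζ₂.im - ζ₁.im = 0 := by nlinarith [sq_nonneg (ζ₂.re - ζ₁.re), sq_nonneg (ζ₂.im - ζ₁.im)]
  exact hne (Complex.ext (by linarith) (by linarith))

theorem eq_or_of_lin {ζ₁ ζ₂ z : ℂ} (h1 : ζ₁ ∈ sphere (0 : ℂ) 1) (h2 : ζ₂ ∈ sphere (0 : ℂ) 1)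
    (hne : ζ₁ ≠ ζ₂) (hz : z ∈ sphere (0 : ℂ) 1) (hl : lin ζ₁ ζ₂ z = 0) : z = ζ₁ ∨ z = ζ₂ := by
  have e1 := sq_of_sphere h1
  have e2 := sq_of_sphere h2
  have e3 := sq_of_sphere hz
  have hN := sq_pos_of_ne hne
  unfold lin at hl
  set u := ζ₂.re - ζ₁.re with hu
  set v := ζ₂.im - ζ₁.im with hv
  set x := z.re - ζ₁.re with hx
  set y := z.im - ζ₁.im with hy
  have f2 : 2 * (ζ₁.re * u + ζ₁.im * v) + (u ^ 2 + v ^ 2) = 0 := by
    rw [hu, hv]; nlinarith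
  have f3 : 2 * (ζ₁.re * x + ζ₁.im * y) + (x ^ 2 + y ^ 2) = 0 := by
    rw [hx, hy]; nlinarith
  have g1 : x * (u ^ 2 + v ^ 2) = u * (x * u + y * v) := by linear_combination (-v) * hl
  have g2 : y * (u ^ 2 + v ^ 2) = v * (x * u + y * v) := by linear_combination u * hl
  have g3 : (x ^ 2 + y ^ 2) * (u ^ 2 + v ^ 2) = (x * u + y * v) ^ 2 := by
    linear_combination (y * u - x * v) * hl
  have g4 : (x * u + y * v) * ((x * u + y * v) - (u ^ 2 + v ^ 2)) = 0 := by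
    linear_combination (u ^ 2 + v ^ 2) * f3 - g3 - 2 * ζ₁.re * g1 - 2 * ζ₁.im * g2 -
      (x * u + y * v) * f2
  rcases mul_eq_zero.1 g4 with h | h
  · left
    rw [h, mul_zero] at g1 g2
    have hx0 : x = 0 := by
      rcases mul_eq_zero.1 g1 with h' | h'
      · exact h'
      · exact absurd h' hN.ne'
    have hy0 : y = 0 := by
      rcases mul_eq_zero.1 g2 with h' | h'
      · exact h'
      · exact absurd h' hN.ne'
    exact Complex.ext (by linarith) (by linarith)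
  · right
    have h' : x * u + y * v = u ^ 2 + v ^ 2 := by linarith
    rw [h'] at g1 g2
    have hx0 : x = u := mul_right_cancel₀ hN.ne' g1
    have hy0 : y = v := mul_right_cancel₀ hN.ne' g2
    exact Complex.ext (by linarith) (by linarith)

/-- The open half planes of the chord meet the circle. -/
theorem exists_lin_pos {ζ₁ ζ₂ : ℂ} (h1 : ζ₁ ∈ sphere (0 : ℂ) 1) (h2 : ζ₂ ∈ sphere (0 : ℂ) 1)
    (hne : ζ₁ ≠ ζ₂) : ∃ a ∈ sphere (0 : ℂ) 1, 0 < lin ζ₁ ζ₂ a := by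
  have e1 := sq_of_sphere h1
  have e2 := sq_of_sphere h2
  have hN := sq_pos_of_ne hne
  set u := ζ₂.re - ζ₁.re with hu
  set v := ζ₂.im - ζ₁.im with hv
  set s := √(u ^ 2 + v ^ 2) with hs
  have hs0 : 0 < s := Real.sqrt_pos.2 hN
  have hss : s ^ 2 = u ^ 2 + v ^ 2 := Real.sq_sqrt hN.le
  refine ⟨⟨-v / s, u / s⟩, ?_, ?_⟩
  · rw [mem_sphere_zero_iff_norm]
    have : ‖(⟨-v / s, u / s⟩ : ℂ)‖ ^ 2 = 1 := by
      rw [Complex.sq_norm, Complex.normSq_apply]
      field_simp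
      linarith
    nlinarith [norm_nonneg (⟨-v / s, u / s⟩ : ℂ)]
  · have f2 : 2 * (ζ₁.re * u + ζ₁.im * v) + (u ^ 2 + v ^ 2) = 0 := by
      rw [hu, hv]; nlinarith
    have e : lin ζ₁ ζ₂ ⟨-v / s, u / s⟩ = s - (ζ₁.im * u - ζ₁.re * v) := by
      unfold lin
      simp only
      rw [← hu, ← hv]
      have : (u / s - ζ₁.im) * u - (-v / s - ζ₁.re) * v =
          (u ^ 2 + v ^ 2) / s - (ζ₁.im * u - ζ₁.re * v) := by ring
      rw [this, ← hss]
      field_simp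
    rw [e]
    have g : (ζ₁.im * u - ζ₁.re * v) ^ 2 + (ζ₁.re * u + ζ₁.im * v) ^ 2 = s ^ 2 := by
      rw [hss]
      linear_combination (u ^ 2 + v ^ 2) * e1
    have g2 : 0 < (ζ₁.re * u + ζ₁.im * v) ^ 2 := by
      have : ζ₁.re * u + ζ₁.im * v = -(u ^ 2 + v ^ 2) / 2 := by linarith
      rw [this]
      have : 0 < (u ^ 2 + v ^ 2) / 2 := by linarith
      nlinarith
    have g3 : (ζ₁.im * u - ζ₁.re * v) ^ 2 < s ^ 2 := by linarith
    have := abs_lt_of_sq_lt_sq g3 hs0.le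
    linarith [le_abs_self (ζ₁.im * u - ζ₁.re * v)]

theorem lin_swap (ζ₁ ζ₂ z : ℂ) : lin ζ₂ ζ₁ z = -lin ζ₁ ζ₂ z := by unfold lin; ring

/-- The image of the chord separates the images of the two halves of the disc if its ends have the
same image. -/
theorem CConf.sep (h : CConf Φ D) {ζ₁ ζ₂ : ℂ} (h1 : ζ₁ ∈ sphere (0 : ℂ) 1)
    (h2 : ζ₂ ∈ sphere (0 : ℂ) 1) (hne : ζ₁ ≠ ζ₂) (he : Φ ζ₁ = Φ ζ₂) {z z' : ℂ}
    (hz : z ∈ ball (0 : ℂ) 1) (hz' : z' ∈ ball (0 : ℂ) 1) (hl : 0 < lin ζ₁ ζ₂ z)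
    (hl' : lin ζ₁ ζ₂ z' < 0) :
    Φ z' ∉ connectedComponentIn (Φ '' (closedBall 0 1 ∩ {x | lin ζ₁ ζ₂ x = 0}))ᶜ (Φ z) := by
  intro hmem
  have hcl := continuous_lin ζ₁ ζ₂
  set I : Set ℂ := closedBall 0 1 ∩ {x | lin ζ₁ ζ₂ x = 0} with hI
  have hIc : IsCompact I :=
    (isCompact_closedBall 0 1).inter_right (isClosed_eq hcl continuous_const)
  have hK : IsCompact (Φ '' I) := hIc.image_of_continuousOn (h.cont.mono inter_subset_left)
  have hKf : Φ '' I ∩ frontier D ⊆ {Φ ζ₁} := by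
    rintro _ ⟨⟨x, hx, rfl⟩, hxf⟩
    rcases (mem_closedBall.1 hx.1).lt_or_eq with hlt | heq
    · rw [h.isOpen.frontier_eq] at hxf
      exact (hxf.2 (h.mem hlt)).elim
    · rcases eq_or_of_lin h1 h2 hne heq hx.2 with rfl | rfl
      · rfl
      · exact he.symm
  have hfc : IsCompact (frontier D) :=
    isCompact_of_isClosed_isBounded isClosed_frontier
      (h.isBounded.closure.subset frontier_subset_closure)
  have hDf : Disjoint D (frontier D) := by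
    rw [Set.disjoint_left]
    intro x hx hx'
    rw [h.isOpen.frontier_eq] at hx'
    exact hx'.2 hx
  have hnot : ∀ x ∈ ball (0 : ℂ) 1, lin ζ₁ ζ₂ x ≠ 0 → Φ x ∉ Φ '' I := by
    rintro x hx hlx ⟨y, hy, hyx⟩
    rcases (mem_closedBall.1 hy.1).lt_or_eq with hlt | heq
    · have := h.inj hlt hx hyx
      subst this
      exact hlx hy.2
    · have h3 := h.sphere_mem heq
      rw [hyx] at h3
      exact hDf.le_bot ⟨h.mem hx, h3⟩
  have hzK := hnot z hz hl.ne'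
  have hj := janiszewski hK hfc (Set.subsingleton_singleton.anti hKf).isPreconnected
    isPreconnected_connectedComponentIn
    (show Disjoint (connectedComponentIn (Φ '' I)ᶜ (Φ z)) (Φ '' I) by
      rw [Set.disjoint_left]
      intro x hx
      exact connectedComponentIn_subset _ _ hx)
    (mem_connectedComponentIn hzK) hmem h.isPreconnected hDf (h.mem hz) (h.mem hz')
  set W := connectedComponentIn (Φ '' I ∪ frontier D)ᶜ (Φ z) with hW
  have hzW : Φ z ∈ W := by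
    refine mem_connectedComponentIn ?_
    rintro (hx | hx)
    · exact hzK hx
    · exact hDf.le_bot ⟨h.mem hz, hx⟩
  have hWsub : W ⊆ (Φ '' I ∪ frontier D)ᶜ := connectedComponentIn_subset _ _
  have hWD : W ⊆ D := subset_of_frontier h.isOpen isPreconnected_connectedComponentIn
    ⟨_, hzW, h.mem hz⟩ (by
      rw [Set.disjoint_left]
      intro x hx hx'
      exact hWsub hx (Or.inr hx'))
  have hAo : IsOpen (Φ '' (ball 0 1 ∩ {x | 0 < lin ζ₁ ζ₂ x})) :=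
    h.isOpen_image inter_subset_left (isOpen_ball.inter (isOpen_lt continuous_const hcl))
  have hBo : IsOpen (Φ '' (ball 0 1 ∩ {x | lin ζ₁ ζ₂ x < 0})) :=
    h.isOpen_image inter_subset_left (isOpen_ball.inter (isOpen_lt hcl continuous_const))
  have hsub : W ⊆ Φ '' (ball 0 1 ∩ {x | 0 < lin ζ₁ ζ₂ x}) ∪
      Φ '' (ball 0 1 ∩ {x | lin ζ₁ ζ₂ x < 0}) := by
    intro y hy
    have hyD := hWD hy
    rw [← h.img] at hyD
    obtain ⟨x, hx, rfl⟩ := hyD
    rcases lt_trichotomy (lin ζ₁ ζ₂ x) 0 with hlt | heq | hgt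
    · exact Or.inr ⟨x, ⟨hx, hlt⟩, rfl⟩
    · exact (hWsub hy (Or.inl ⟨x, ⟨ball_subset_closedBall hx, heq⟩, rfl⟩)).elim
    · exact Or.inl ⟨x, ⟨hx, hgt⟩, rfl⟩
  obtain ⟨y, hy, hyA, hyB⟩ := isPreconnected_connectedComponentIn _ _ hAo hBo hsub
    ⟨_, hzW, ⟨z, ⟨hz, hl⟩, rfl⟩⟩ ⟨_, hj, ⟨z', ⟨hz', hl'⟩, rfl⟩⟩
  obtain ⟨x, ⟨hx1, hx2⟩, rfl⟩ := hyA
  obtain ⟨x', ⟨hx1', hx2'⟩, he'⟩ := hyB
  have := h.inj hx1' hx1 he'
  subst this
  rw [mem_ofPred_eq] at hx2 hx2'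
  exact lt_asymm hx2 hx2'

theorem CConf.injOn_sphere (h : CConf Φ D) (hn : NoCut D) : InjOn Φ (sphere 0 1) := by
  intro ζ₁ h1 ζ₂ h2 he
  by_contra hne
  have hcl := continuous_lin ζ₁ ζ₂
  set I : Set ℂ := closedBall 0 1 ∩ {x | lin ζ₁ ζ₂ x = 0} with hI
  have hIc : IsCompact I :=
    (isCompact_closedBall 0 1).inter_right (isClosed_eq hcl continuous_const)
  have hK : IsCompact (Φ '' I) := hIc.image_of_continuousOn (h.cont.mono inter_subset_left)
  have hηD : Φ ζ₁ ∉ D := by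
    have := h.sphere_mem h1
    rw [h.isOpen.frontier_eq] at this
    exact this.2
  have hdisj : Disjoint (frontier D \ {Φ ζ₁}) (Φ '' I) := by
    rw [Set.disjoint_left]
    rintro _ ⟨hxf, hx1⟩ ⟨x, hx, rfl⟩
    rcases (mem_closedBall.1 hx.1).lt_or_eq with hlt | heq
    · rw [h.isOpen.frontier_eq] at hxf
      exact hxf.2 (h.mem hlt)
    · rcases eq_or_of_lin h1 h2 hne heq hx.2 with rfl | rfl
      · exact hx1 rfl
      · exact hx1 he.symm
  -- one of the two arcs is mapped to the point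
  have key : (∀ a ∈ sphere (0 : ℂ) 1, a ∈ {x | 0 < lin ζ₁ ζ₂ x} → Φ a = Φ ζ₁) ∨
      ∀ b ∈ sphere (0 : ℂ) 1, b ∈ {x | lin ζ₁ ζ₂ x < 0} → Φ b = Φ ζ₁ := by
    by_contra hcon
    rw [not_or] at hcon
    push Not at hcon
    obtain ⟨⟨a, ha, hla, hva⟩, b, hb, hlb, hvb⟩ := hcon
    rw [mem_ofPred_eq] at hla hlb
    have hsub := (hn _ (h.sphere_mem h1)).subset_connectedComponentIn
      (show Φ a ∈ frontier D \ {Φ ζ₁} from ⟨h.sphere_mem ha, hva⟩)
      (subset_compl_iff_disjoint_right.2 hdisj)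
    have hbC := hsub (show Φ b ∈ frontier D \ {Φ ζ₁} from ⟨h.sphere_mem hb, hvb⟩)
    set C := connectedComponentIn (Φ '' I)ᶜ (Φ a) with hC
    have hCo : IsOpen C := hK.isClosed.isOpen_compl.connectedComponentIn
    have haC : Φ a ∈ C := hsub (show Φ a ∈ frontier D \ {Φ ζ₁} from ⟨h.sphere_mem ha, hva⟩)
    have hA : ∃ z ∈ ball (0 : ℂ) 1, Φ z ∈ C ∧ 0 < lin ζ₁ ζ₂ z := by
      have hn := neBot_ball (sphere_subset_closedBall ha)
      have e1 : ∀ᶠ z in 𝓝[ball (0 : ℂ) 1] a, Φ z ∈ C :=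
        ((h.cont a (sphere_subset_closedBall ha)).mono_left
          (nhdsWithin_mono _ ball_subset_closedBall)).eventually (hCo.mem_nhds haC)
      have e2 : ∀ᶠ z in 𝓝[ball (0 : ℂ) 1] a, 0 < lin ζ₁ ζ₂ z :=
        nhdsWithin_le_nhds ((isOpen_lt continuous_const hcl).mem_nhds hla)
      have e3 : ∀ᶠ z in 𝓝[ball (0 : ℂ) 1] a, z ∈ ball (0 : ℂ) 1 := self_mem_nhdsWithin
      obtain ⟨z, hz⟩ := (e3.and (e1.and e2)).exists
      exact ⟨z, hz.1, hz.2.1, hz.2.2⟩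
    have hB : ∃ z ∈ ball (0 : ℂ) 1, Φ z ∈ C ∧ lin ζ₁ ζ₂ z < 0 := by
      have hn := neBot_ball (sphere_subset_closedBall hb)
      have e1 : ∀ᶠ z in 𝓝[ball (0 : ℂ) 1] b, Φ z ∈ C :=
        ((h.cont b (sphere_subset_closedBall hb)).mono_left
          (nhdsWithin_mono _ ball_subset_closedBall)).eventually (hCo.mem_nhds hbC)
      have e2 : ∀ᶠ z in 𝓝[ball (0 : ℂ) 1] b, lin ζ₁ ζ₂ z < 0 :=
        nhdsWithin_le_nhds ((isOpen_lt hcl continuous_const).mem_nhds hlb)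
      have e3 : ∀ᶠ z in 𝓝[ball (0 : ℂ) 1] b, z ∈ ball (0 : ℂ) 1 := self_mem_nhdsWithin
      obtain ⟨z, hz⟩ := (e3.and (e1.and e2)).exists
      exact ⟨z, hz.1, hz.2.1, hz.2.2⟩
    obtain ⟨z, hz, hzC, hlz⟩ := hA
    obtain ⟨z', hz', hzC', hlz'⟩ := hB
    refine h.sep h1 h2 hne he hz hz' hlz hlz' ?_
    rw [← hI, ← connectedComponentIn_eq hzC]
    exact hzC'
  rcases key with hk | hk
  · obtain ⟨a, ha, hla⟩ := exists_lin_pos h1 h2 hne
    exact h.not_const hηD (isOpen_lt continuous_const hcl) ha hla hk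
  · obtain ⟨a, ha, hla⟩ := exists_lin_pos h2 h1 (Ne.symm hne)
    rw [lin_swap] at hla
    exact h.not_const hηD (isOpen_lt hcl continuous_const) ha
      (show lin ζ₁ ζ₂ a < 0 by linarith) hk

/-- **Carathéodory**: the extension is injective. -/
theorem CConf.injOn (h : CConf Φ D) (hn : NoCut D) : InjOn Φ (closedBall 0 1) := by
  intro z hz z' hz' he
  rcases (mem_closedBall.1 hz).lt_or_eq with h1 | h1 <;>
    rcases (mem_closedBall.1 hz').lt_or_eq with h2 | h2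
  · exact h.inj h1 h2 he
  · exfalso
    have h3 := h.sphere_mem h2
    rw [← he, h.isOpen.frontier_eq] at h3
    exact h3.2 (h.mem h1)
  · exfalso
    have h3 := h.sphere_mem h1
    rw [he, h.isOpen.frontier_eq] at h3
    exact h3.2 (h.mem h2)
  · exact h.injOn_sphere hn h1 h2 he

/-- Boundary points converge if their images converge. -/
theorem CConf.tendsto_inv (h : CConf Φ D) (hn : NoCut D) {ι : Type*} {l : Filter ι} {u : ι → ℂ}
    (hu : ∀ᶠ i in l, u i ∈ closedBall (0 : ℂ) 1) {z : ℂ} (hz : z ∈ closedBall (0 : ℂ) 1)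
    (hlim : Tendsto (fun i => Φ (u i)) l (𝓝 (Φ z))) : Tendsto u l (𝓝 z) := by
  rw [tendsto_iff_ultrafilter]
  intro F hF
  have hu' : ∀ᶠ i in (F : Filter ι), u i ∈ closedBall (0 : ℂ) 1 := hF hu
  obtain ⟨x, hx, hlx⟩ := (isCompact_closedBall (0 : ℂ) 1).ultrafilter_le_nhds (F.map u)
    (le_principal_iff.2 hu')
  have hlx' : Tendsto u F (𝓝 x) := hlx
  have h1 : Tendsto (fun i => Φ (u i)) F (𝓝 (Φ x)) := by
    refine (h.cont x hx).tendsto.comp ?_
    exact tendsto_nhdsWithin_iff.2 ⟨hlx', hu'⟩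
  have h2 := tendsto_nhds_unique h1 (hlim.mono_left hF)
  rw [← h.injOn hn hx hz h2]
  exact hlx'

end Vale.Agent.P153.R2.R1
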