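import Mathlib

/-!
# Möbius maps from the upper half-plane to the disc
-/

open Set Topology Metric Filter Bornology
open scoped ComplexConjugate

namespace Vale.Agent.P153.R2.R1

/-- The Möbius map of the half-plane onto the disc with `c ↦ 0`, `∞ ↦ β`. -/
noncomputable def mb (β c z : ℂ) : ℂ := β * ((z - c) / (z - conj c))

/-- The inverse map. -/
noncomputable def imb (β c w : ℂ) : ℂ := (β * c - conj c * w) / (β - w)

variable {β c z w : ℂ}

theorem mb_den (hc : 0 < c.im) (hz : 0 ≤ z.im) : z - conj c ≠ 0 := by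
  intro h
  have := congrArg Complex.im h
  rw [Complex.sub_im, Complex.conj_im, Complex.zero_im] at this
  linarith

theorem normSq_diff (c z : ℂ) : ‖z - conj c‖ ^ 2 - ‖z - c‖ ^ 2 = 4 * z.im * c.im := by
  rw [Complex.sq_norm, Complex.sq_norm, Complex.normSq_apply, Complex.normSq_apply]
  simp only [Complex.sub_re, Complex.sub_im, Complex.conj_re, Complex.conj_im]
  ring

theorem norm_mb (hβ : ‖β‖ = 1) : ‖mb β c z‖ = ‖z - c‖ / ‖z - conj c‖ := by
  rw [mb, norm_mul, hβ, one_mul, norm_div]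

theorem norm_mb_lt (hβ : ‖β‖ = 1) (hc : 0 < c.im) (hz : 0 < z.im) : ‖mb β c z‖ < 1 := by
  rw [norm_mb hβ, div_lt_one (norm_pos_iff.2 (mb_den hc hz.le))]
  have h := normSq_diff c z
  have : 0 < 4 * z.im * c.im := by positivity
  exact lt_of_pow_lt_pow_left₀ 2 (norm_nonneg _) (by linarith)

theorem norm_mb_eq (hβ : ‖β‖ = 1) (hc : 0 < c.im) (hz : z.im = 0) : ‖mb β c z‖ = 1 := by
  rw [norm_mb hβ, div_eq_one_iff_eq (norm_ne_zero_iff.2 (mb_den hc hz.ge))]
  have h := normSq_diff c z
  rw [hz, mul_zero, zero_mul] at h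
  exact (pow_left_inj₀ (norm_nonneg _) (norm_nonneg _) two_ne_zero).1 (by linarith)

theorem mb_mem_closedBall (hβ : ‖β‖ = 1) (hc : 0 < c.im) (hz : 0 ≤ z.im) :
    mb β c z ∈ closedBall (0 : ℂ) 1 := by
  rw [mem_closedBall_zero_iff]
  rcases hz.lt_or_eq with h | h
  · exact (norm_mb_lt hβ hc h).le
  · exact (norm_mb_eq hβ hc h.symm).le

theorem mb_imb (hβ : ‖β‖ = 1) (hc : 0 < c.im) (hw : w ≠ β) :
    imb β c w - conj c ≠ 0 ∧ mb β c (imb β c w) = w := by
  have hβ0 : β ≠ 0 := by rintro rfl; simp at hβ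
  have hd : β - w ≠ 0 := sub_ne_zero.2 hw.symm
  have hcc : c - conj c ≠ 0 := by
    intro h
    have := congrArg Complex.im h
    rw [Complex.sub_im, Complex.conj_im, Complex.zero_im] at this
    linarith
  have e1 : imb β c w - c = w * (c - conj c) / (β - w) := by
    rw [imb]; field_simp; ring
  have e2 : imb β c w - conj c = β * (c - conj c) / (β - w) := by
    rw [imb]; field_simp; ring
  have e3 : imb β c w - conj c ≠ 0 := by
    rw [e2]
    exact div_ne_zero (mul_ne_zero hβ0 hcc) hd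
  refine ⟨e3, ?_⟩
  rw [mb, e1, e2]
  field_simp

theorem imb_im_pos (hβ : ‖β‖ = 1) (hc : 0 < c.im) (hw : ‖w‖ < 1) : 0 < (imb β c w).im := by
  have hne : w ≠ β := by rintro rfl; rw [hβ] at hw; exact lt_irrefl _ hw
  obtain ⟨h1, h2⟩ := mb_imb hβ hc hne
  have h3 : ‖mb β c (imb β c w)‖ < 1 := by rw [h2]; exact hw
  rw [norm_mb hβ, div_lt_one (norm_pos_iff.2 h1)] at h3
  have h := normSq_diff c (imb β c w)
  have h4 : ‖imb β c w - c‖ ^ 2 < ‖imb β c w - conj c‖ ^ 2 :=
    pow_lt_pow_left₀ h3 (norm_nonneg _) two_ne_zero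
  have h5 : 0 < (imb β c w).im * c.im := by linarith
  exact pos_of_mul_pos_left h5 hc.le

theorem imb_im_eq (hβ : ‖β‖ = 1) (hc : 0 < c.im) (hw : ‖w‖ = 1) (hne : w ≠ β) :
    (imb β c w).im = 0 := by
  obtain ⟨h1, h2⟩ := mb_imb hβ hc hne
  have h3 : ‖mb β c (imb β c w)‖ = 1 := by rw [h2]; exact hw
  rw [norm_mb hβ, div_eq_one_iff_eq (norm_ne_zero_iff.2 h1)] at h3
  have h := normSq_diff c (imb β c w)
  rw [h3, sub_self] at h
  have : (imb β c w).im * c.im = 0 := by linarith
  exact (mul_eq_zero.1 this).resolve_right hc.ne'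

theorem imb_im_nonneg (hβ : ‖β‖ = 1) (hc : 0 < c.im) (hw : ‖w‖ ≤ 1) (hne : w ≠ β) :
    0 ≤ (imb β c w).im := by
  rcases hw.lt_or_eq with h | h
  · exact (imb_im_pos hβ hc h).le
  · exact (imb_im_eq hβ hc h hne).ge

theorem mb_injOn (hβ : ‖β‖ = 1) (hc : 0 < c.im) : InjOn (mb β c) {z | 0 ≤ z.im} := by
  intro z hz z' hz' h
  have hβ0 : β ≠ 0 := by rintro rfl; simp at hβ
  have h1 := mb_den hc hz
  have h2 := mb_den hc hz'
  have hcc : c - conj c ≠ 0 := by
    intro h
    have := congrArg Complex.im h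
    rw [Complex.sub_im, Complex.conj_im, Complex.zero_im] at this
    linarith
  simp only [mb] at h
  have h3 := mul_left_cancel₀ hβ0 h
  rw [div_eq_div_iff h1 h2] at h3
  have h4 : (z - z') * (c - conj c) = 0 := by linear_combination h3
  exact sub_eq_zero.1 ((mul_eq_zero.1 h4).resolve_right hcc)

theorem imb_mb (hβ : ‖β‖ = 1) (hc : 0 < c.im) (hz : 0 ≤ z.im) : imb β c (mb β c z) = z := by
  have hβ0 : β ≠ 0 := by rintro rfl; simp at hβ
  have h1 := mb_den hc hz
  have hcc : c - conj c ≠ 0 := by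
    intro h
    have := congrArg Complex.im h
    rw [Complex.sub_im, Complex.conj_im, Complex.zero_im] at this
    linarith
  have e : β - mb β c z = β * (c - conj c) / (z - conj c) := by
    rw [mb]; field_simp; ring
  rw [imb, e, mb]
  field_simp
  ring

theorem mb_ne (hβ : ‖β‖ = 1) (hc : 0 < c.im) (hz : 0 ≤ z.im) : mb β c z ≠ β := by
  have hβ0 : β ≠ 0 := by rintro rfl; simp at hβ
  have h1 := mb_den hc hz
  have hcc : c - conj c ≠ 0 := by
    intro h
    have := congrArg Complex.im h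
    rw [Complex.sub_im, Complex.conj_im, Complex.zero_im] at this
    linarith
  intro h
  have e : β - mb β c z = β * (c - conj c) / (z - conj c) := by
    rw [mb]; field_simp; ring
  rw [h, sub_self] at e
  exact div_ne_zero (mul_ne_zero hβ0 hcc) h1 e.symm

theorem mb_image_open (hβ : ‖β‖ = 1) (hc : 0 < c.im) :
    mb β c '' {z | 0 < z.im} = ball 0 1 := by
  apply Subset.antisymm
  · rintro _ ⟨z, hz, rfl⟩
    rw [mem_ball_zero_iff]
    exact norm_mb_lt hβ hc hz
  · intro w hw
    rw [mem_ball_zero_iff] at hw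
    have hne : w ≠ β := by rintro rfl; rw [hβ] at hw; exact lt_irrefl _ hw
    exact ⟨imb β c w, imb_im_pos hβ hc hw, (mb_imb hβ hc hne).2⟩

theorem mb_differentiableAt (hc : 0 < c.im) (hz : 0 ≤ z.im) : DifferentiableAt ℂ (mb β c) z := by
  unfold mb
  exact ((differentiableAt_id.sub_const c).div (differentiableAt_id.sub_const _)
    (mb_den hc hz)).const_mul β

theorem mb_continuousOn (hc : 0 < c.im) : ContinuousOn (mb β c) {z | 0 ≤ z.im} :=
  fun _ hz => (mb_differentiableAt hc hz).continuousAt.continuousWithinAt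

theorem imb_differentiableAt (hw : w ≠ β) : DifferentiableAt ℂ (imb β c) w := by
  unfold imb
  exact ((differentiableAt_const _).sub (differentiableAt_id.const_mul _)).div
    ((differentiableAt_const _).sub differentiableAt_id) (sub_ne_zero.2 hw.symm)

theorem mb_zero (hc : ‖c‖ = 1) : mb β c 0 = β * c ^ 2 := by
  have h : c * conj c = 1 := by
    rw [Complex.mul_conj, Complex.normSq_eq_norm_sq, hc]; norm_num
  have hc0 : conj c ≠ 0 := by
    intro h0; rw [h0, mul_zero] at h; exact zero_ne_one h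
  rw [mb, zero_sub, zero_sub, neg_div_neg_eq]
  congr 1
  field_simp
  linear_combination (-c) * h

theorem tendsto_mb (β c : ℂ) : Tendsto (mb β c) (cobounded ℂ) (𝓝 β) := by
  have h1 : Tendsto (fun z : ℂ => z - conj c) (cobounded ℂ) (cobounded ℂ) := by
    rw [← tendsto_norm_atTop_iff_cobounded]
    refine tendsto_atTop_mono (f := fun z : ℂ => ‖z‖ - ‖c‖) (fun z => ?_) ?_
    · have := norm_sub_norm_le z (conj c)
      rwa [RCLike.norm_conj] at this
    · exact tendsto_atTop_add_const_right _ _ tendsto_norm_cobounded_atTop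
  have h2 : Tendsto (fun z : ℂ => (z - conj c)⁻¹) (cobounded ℂ) (𝓝 0) :=
    tendsto_inv₀_cobounded.comp h1
  have h3 : Tendsto (fun z : ℂ => β * (1 + (conj c - c) * (z - conj c)⁻¹)) (cobounded ℂ)
      (𝓝 (β * (1 + (conj c - c) * 0))) :=
    (tendsto_const_nhds.add (h2.const_mul _)).const_mul β
  rw [mul_zero, add_zero, mul_one] at h3
  refine h3.congr' ?_
  have h4 : ∀ᶠ z : ℂ in cobounded ℂ, z ≠ conj c := eventually_ne_cobounded _
  filter_upwards [h4] with z hz
  have : z - conj c ≠ 0 := sub_ne_zero.2 hz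
  rw [mb]
  field_simp
  ring

/-- The square root with positive imaginary part of a number of modulus one. -/
noncomputable def csq (u : ℂ) : ℂ := Complex.I * Complex.exp (Complex.log (-u) / 2)

theorem csq_sq {u : ℂ} (hu : u ≠ 0) : csq u ^ 2 = u := by
  rw [csq, mul_pow, ← Complex.exp_nat_mul, Complex.I_sq]
  push_cast
  rw [mul_div_cancel₀ _ (two_ne_zero), Complex.exp_log (neg_ne_zero.2 hu)]
  ring

theorem norm_csq {u : ℂ} (hu : ‖u‖ = 1) : ‖csq u‖ = 1 := by
  have hu0 : u ≠ 0 := by rintro rfl; simp at hu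
  have h := congrArg norm (csq_sq hu0)
  rw [norm_pow, hu] at h
  exact (pow_eq_one_iff_of_nonneg (norm_nonneg _) two_ne_zero).1 h

theorem csq_im_pos {u : ℂ} (hu : ‖u‖ = 1) (hne : u ≠ 1) : 0 < (csq u).im := by
  have hlog : Complex.log (-u) / 2 = ((-u).arg / 2 : ℝ) * Complex.I := by
    rw [Complex.log, norm_neg, hu, Real.log_one]
    push_cast
    ring
  have e : (csq u).im = Real.cos ((-u).arg / 2) := by
    rw [csq, hlog, Complex.I_mul_im, Complex.exp_ofReal_mul_I_re]
  rw [e]
  apply Real.cos_pos_of_mem_Ioo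
  have h1 := Complex.neg_pi_lt_arg (-u)
  have h2 : (-u).arg < Real.pi := by
    refine lt_of_le_of_ne (Complex.arg_le_pi _) ?_
    intro h
    rw [Complex.arg_eq_pi_iff] at h
    apply hne
    have h3 : ‖u‖ ^ 2 = 1 := by rw [hu]; norm_num
    rw [Complex.sq_norm, Complex.normSq_apply] at h3
    rw [Complex.neg_re, Complex.neg_im] at h
    have h4 : u.im = 0 := by linarith [h.2]
    rw [h4] at h3
    have h5 : u.re = 1 := by nlinarith [h.1]
    exact Complex.ext (by simpa using h5) (by simpa using h4)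
  constructor <;> linarith

theorem csq_continuousAt {u : ℂ} (hu : ‖u‖ = 1) (hne : u ≠ 1) : ContinuousAt csq u := by
  have hs : -u ∈ Complex.slitPlane := by
    rw [Complex.mem_slitPlane_iff_arg]
    refine ⟨?_, ?_⟩
    · intro h
      rw [Complex.arg_eq_pi_iff] at h
      apply hne
      have h3 : ‖u‖ ^ 2 = 1 := by rw [hu]; norm_num
      rw [Complex.sq_norm, Complex.normSq_apply] at h3
      rw [Complex.neg_re, Complex.neg_im] at h
      have h4 : u.im = 0 := by linarith [h.2]
      rw [h4] at h3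
      have h5 : u.re = 1 := by nlinarith [h.1]
      exact Complex.ext (by simpa using h5) (by simpa using h4)
    · rw [neg_ne_zero]
      rintro rfl
      simp at hu
  unfold csq
  have h1 : ContinuousAt (fun u : ℂ => Complex.log (-u)) u := continuousAt_neg.clog hs
  exact continuousAt_const.mul (Complex.continuous_exp.continuousAt.comp (h1.div_const 2))

theorem csq_neg_one : csq (-1) = Complex.I := by
  rw [csq, neg_neg, Complex.log_one, zero_div, Complex.exp_zero, mul_one]

theorem mb_dist_le {β' c' : ℂ} (hβ' : ‖β'‖ = 1) (hc : 0 < c.im) (hc' : 0 < c'.im)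
    (hz : 0 ≤ z.im) : dist (mb β c z) (mb β' c' z) ≤ ‖β' - β‖ + 2 * ‖c' - c‖ / c'.im := by
  have h1 := mb_den hc hz
  have h2 := mb_den hc' hz
  have hp1 : 0 < ‖z - conj c‖ := norm_pos_iff.2 h1
  have hp2 : 0 < ‖z - conj c'‖ := norm_pos_iff.2 h2
  have hle : ‖z - c‖ ≤ ‖z - conj c‖ := by
    have h := normSq_diff c z
    have : 0 ≤ 4 * z.im * c.im := by positivity
    exact le_of_sq_le_sq (by linarith) hp1.le
  have him : c'.im ≤ ‖z - conj c'‖ := by
    have := Complex.abs_im_le_norm (z - conj c')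
    rw [Complex.sub_im, Complex.conj_im, sub_neg_eq_add, abs_of_pos (by linarith)] at this
    linarith
  have e1 : mb β' c' z - mb β c z = (β' - β) * ((z - c) / (z - conj c)) +
      β' * ((conj (c' - c) * (z - c) - (c' - c) * (z - conj c)) /
        ((z - conj c') * (z - conj c))) := by
    rw [mb, mb, map_sub]
    field_simp
    ring
  have e2 : ‖(z - c) / (z - conj c)‖ ≤ 1 := by
    rw [norm_div, div_le_one hp1]; exact hle
  have e3 : ‖(conj (c' - c) * (z - c) - (c' - c) * (z - conj c)) /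
        ((z - conj c') * (z - conj c))‖ ≤ 2 * ‖c' - c‖ / c'.im := by
    rw [norm_div, norm_mul, div_le_div_iff₀ (mul_pos hp2 hp1) hc']
    have e4 : ‖conj (c' - c) * (z - c) - (c' - c) * (z - conj c)‖ ≤
        2 * ‖c' - c‖ * ‖z - conj c‖ := by
      refine (norm_sub_le _ _).trans ?_
      rw [norm_mul, norm_mul, RCLike.norm_conj]
      have := mul_le_mul_of_nonneg_left hle (norm_nonneg (c' - c))
      linarith
    calc ‖conj (c' - c) * (z - c) - (c' - c) * (z - conj c)‖ * c'.im
        ≤ 2 * ‖c' - c‖ * ‖z - conj c‖ * ‖z - conj c'‖ := by gcongr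
      _ = 2 * ‖c' - c‖ * (‖z - conj c'‖ * ‖z - conj c‖) := by ring
  rw [dist_comm, dist_eq_norm, e1]
  refine (norm_add_le _ _).trans ?_
  rw [norm_mul, norm_mul, hβ', one_mul]
  refine add_le_add ?_ e3
  calc ‖β' - β‖ * ‖(z - c) / (z - conj c)‖ ≤ ‖β' - β‖ * 1 := by gcongr
    _ = ‖β' - β‖ := mul_one _

/-- Uniform convergence of the Möbius maps on the closed half-plane. -/
theorem mb_uniform {ι : Type*} {l : Filter ι} {βn cn : ι → ℂ} (hβn : ∀ i, ‖βn i‖ = 1)
    (hβ : Tendsto βn l (𝓝 β)) (hc : 0 < c.im) (hcn : Tendsto cn l (𝓝 c)) :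
    TendstoUniformlyOn (fun i => mb (βn i) (cn i)) (mb β c) l {z | 0 ≤ z.im} := by
  rw [Metric.tendstoUniformlyOn_iff]
  intro ε hε
  have h1 : ∀ᶠ i in l, ‖βn i - β‖ < ε / 2 := by
    filter_upwards [hβ (ball_mem_nhds β (half_pos hε))] with i hi
    rw [← dist_eq_norm]; exact hi
  have h2 : ∀ᶠ i in l, ‖cn i - c‖ < min (c.im / 2) (ε * c.im / 8) := by
    filter_upwards [hcn (ball_mem_nhds c (show 0 < min (c.im / 2) (ε * c.im / 8) by positivity))]
      with i hi
    rw [← dist_eq_norm]; exact hi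
  filter_upwards [h1, h2] with i a1 a2 z hz
  have a3 : ‖cn i - c‖ < c.im / 2 := a2.trans_le (min_le_left _ _)
  have a4 : ‖cn i - c‖ < ε * c.im / 8 := a2.trans_le (min_le_right _ _)
  have a5 : c.im / 2 < (cn i).im := by
    have := (Complex.abs_im_le_norm (cn i - c)).trans_lt a3
    rw [Complex.sub_im, abs_lt] at this
    linarith [this.1]
  have a6 : 0 < (cn i).im := by linarith
  refine (mb_dist_le (hβn i) hc a6 hz).trans_lt ?_
  have a7 : 2 * ‖cn i - c‖ / (cn i).im ≤ ε / 2 := by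
    rw [div_le_iff₀ a6]
    nlinarith
  linarith

end Vale.Agent.P153.R2.R1
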