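import Vale.Agent.P153.R2.R1.Rado
import Vale.Agent.P153.R2.R1.Curve
import Vale.Agent.P153.R2.R1.Mob
import Vale.Agent.P153.R2.L1.Rmt

/-!
# Conformal maps of the half-plane onto Jordan domains with two marked points

`IsU ψ D a b` : `ψ` maps the upper half-plane conformally onto `D`, continuously up to the
boundary, `0 ↦ a`, `∞ ↦ b`. `half_rado` : convergence under convergence of the marked domains.
-/

open Set Topology Metric Filter Bornology
open scoped ComplexConjugate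

namespace Vale.Agent.P153.R2.R1

variable {D : Set ℂ} {a b : ℂ}

/-- `ψ` is conformal from the upper half-plane onto `D`, continuous on the closed half-plane, with
`ψ 0 = a` and the limit `b` at infinity. -/
structure IsU (ψ : ℂ → ℂ) (D : Set ℂ) (a b : ℂ) : Prop where
  diff : DifferentiableOn ℂ ψ {z | 0 < z.im}
  inj : InjOn ψ {z | 0 < z.im}
  img : ψ '' {z | 0 < z.im} = D
  cont : ContinuousOn ψ {z | 0 ≤ z.im}
  zero : ψ 0 = a
  infty : Tendsto ψ (cobounded ℂ ⊓ 𝓟 {z | 0 ≤ z.im}) (𝓝 b)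

/-! ### The modulus of continuity for one domain -/

theorem exists_dist {D : Set ℂ} (hD : IsOpen D) {w : ℂ} (hw : w ∈ D) :
    ∃ d > 0, ∀ p ∈ frontier D, d ≤ dist w p := by
  obtain ⟨r, hr, h⟩ := Metric.isOpen_iff.1 hD w hw
  refine ⟨r, hr, fun p hp => ?_⟩
  by_contra hlt
  rw [not_le] at hlt
  exact notMem_of_frontier hD hp (h (by rw [mem_ball, dist_comm]; exact hlt))

theorem Conf.exists_mod {φ : ℂ → ℂ} (h : Conf φ D) (hb : IsBounded D) (hlc : LC D) :
    ∀ ε > 0, ∃ δ > 0, Mod φ δ ε := by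
  intro ε hε
  obtain ⟨d, hd, hdf⟩ := exists_dist h.isOpen h.zero_mem
  obtain ⟨R, hR⟩ := hb.subset_closedBall 0
  have hR' : D ⊆ closedBall 0 (max R 1) := hR.trans (closedBall_subset_closedBall (le_max_left _ _))
  set ε' : ℝ := min (ε / 2) (d / 2) with hε'
  have hε'0 : 0 < ε' := lt_min (by positivity) (by positivity)
  have hε'd : ε' < d := (min_le_right _ _).trans_lt (by linarith)
  obtain ⟨η, hη, hctrl⟩ := hlc ε' hε'0
  obtain ⟨δ, hδ, hequi⟩ := equi (R := max R 1) (d := d) (by positivity) hη hε'0 hε'd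
  refine ⟨δ, hδ, fun z hz z' hz' hzz => ?_⟩
  have h1 := hequi φ D h hR' hctrl hdf z hz z' hz' hzz
  have h2 : ε' ≤ ε / 2 := min_le_left _ _
  linarith

theorem Conf.cconf {φ : ℂ → ℂ} (h : Conf φ D) (hb : IsBounded D) (hlc : LC D) :
    CConf (cext φ) D where
  toConf := h.congr (cext_eq h.diff.continuousOn)
  cont := cext_continuousOn (h.exists_mod hb hlc)

/-! ### Existence -/

/-- Bounded Jordan domains, in the form used here. -/
structure Good (D : Set ℂ) : Prop where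
  isOpen : IsOpen D
  rdom : P153.TOP.RMT.RDom D
  bdd : IsBounded D
  lc : LC D
  nocut : NoCut D

/-- The Riemann map with `0 ↦ z₀`. -/
theorem exists_conf (hU : IsOpen D) (hUc : P153.TOP.RMT.RDom D) (hne : D ≠ univ) {z₀ : ℂ}
    (hz₀ : z₀ ∈ D) : ∃ φ, Conf φ D ∧ φ 0 = z₀ := by
  obtain ⟨g, h1, h2, h3, h4, h5⟩ := P153.TOP.RMT.exists_onto_disc hU hUc hne hz₀
  have hsd : ∀ z ∈ D, HasStrictDerivAt g (deriv g z) z := fun z hz =>
    (h1.analyticOnNhd hU z hz).hasStrictDerivAt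
  set f : ℂ → ℂ := Function.invFunOn g D with hf
  have hfU : ∀ w ∈ ball (0 : ℂ) 1, f w ∈ D ∧ g (f w) = w := by
    intro w hw
    rw [← h3] at hw
    exact ⟨Function.invFunOn_mem hw, Function.invFunOn_eq hw⟩
  have hcont : ∀ w ∈ ball (0 : ℂ) 1, ContinuousAt f w := by
    intro w hw
    obtain ⟨hz, hgz⟩ := hfU w hw
    rw [ContinuousAt, Filter.tendsto_def]
    intro s hs
    have h6 : g '' (s ∩ D) ∈ 𝓝 (g (f w)) := by
      rw [← (hsd _ hz).map_nhds_eq (h4 _ hz)]
      exact image_mem_map (inter_mem hs (hU.mem_nhds hz))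
    rw [hgz] at h6
    filter_upwards [h6] with y hy
    obtain ⟨x, ⟨hxs, hxU⟩, rfl⟩ := hy
    have hy' : g x ∈ ball (0 : ℂ) 1 := by rw [← h3]; exact mem_image_of_mem _ hxU
    have := h2 (hfU _ hy').1 hxU (hfU _ hy').2
    show f (g x) ∈ s
    rw [this]; exact hxs
  have hder : ∀ w ∈ ball (0 : ℂ) 1, HasStrictDerivAt f (deriv g (f w))⁻¹ w := by
    intro w hw
    obtain ⟨hz, hgz⟩ := hfU w hw
    refine HasStrictDerivAt.of_local_left_inverse (hcont w hw) (hsd _ hz) (h4 _ hz) ?_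
    filter_upwards [isOpen_ball.mem_nhds hw] with y hy
    exact (hfU y hy).2
  refine ⟨f, ⟨fun w hw => (hder w hw).hasDerivAt.differentiableAt.differentiableWithinAt,
    ?_, ?_⟩, ?_⟩
  · intro w hw w' hw' h
    rw [← (hfU w hw).2, ← (hfU w' hw').2, h]
  · apply Subset.antisymm
    · rintro _ ⟨w, hw, rfl⟩
      exact (hfU w hw).1
    · intro z hz
      have hy' : g z ∈ ball (0 : ℂ) 1 := by rw [← h3]; exact mem_image_of_mem _ hz
      exact ⟨g z, hy', h2 (hfU _ hy').1 hz (hfU _ hy').2⟩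
  · have z0 : (0 : ℂ) ∈ ball (0 : ℂ) 1 := mem_ball_self one_pos
    exact h2 (hfU 0 z0).1 hz₀ (by rw [(hfU 0 z0).2, h5])

theorem Conf.rot {φ : ℂ → ℂ} (h : Conf φ D) {u : ℂ} (hu : ‖u‖ = 1) :
    Conf (fun z => φ (u * z)) D ∧ deriv (fun z => φ (u * z)) 0 = deriv φ 0 * u := by
  have hu0 : u ≠ 0 := by rintro rfl; simp at hu
  have hmap : ∀ z : ℂ, z ∈ ball (0 : ℂ) 1 ↔ u * z ∈ ball (0 : ℂ) 1 := by
    intro z
    rw [mem_ball_zero_iff, mem_ball_zero_iff, norm_mul, hu, one_mul]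
  have z0 : (0 : ℂ) ∈ ball (0 : ℂ) 1 := mem_ball_self one_pos
  refine ⟨⟨?_, ?_, ?_⟩, ?_⟩
  · exact h.diff.comp (by fun_prop) (fun z hz => (hmap z).1 hz)
  · intro z hz z' hz' he
    exact mul_left_cancel₀ hu0 (h.inj ((hmap z).1 hz) ((hmap z').1 hz') he)
  · rw [← h.img]
    apply Subset.antisymm
    · rintro _ ⟨z, hz, rfl⟩
      exact ⟨_, (hmap z).1 hz, rfl⟩
    · rintro _ ⟨z, hz, rfl⟩
      have e : u * (z / u) = z := mul_div_cancel₀ z hu0
      refine ⟨z / u, ?_, ?_⟩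
      · rw [hmap, e]; exact hz
      · simp only [e]
  · have h1 : HasDerivAt φ (deriv φ 0) (u * 0) := by
      rw [mul_zero]
      exact (h.diff.differentiableAt (isOpen_ball.mem_nhds z0)).hasDerivAt
    have h2 : HasDerivAt (fun z : ℂ => u * z) u 0 := by
      simpa using (hasDerivAt_id (0 : ℂ)).const_mul u
    exact (h1.comp 0 h2).deriv

/-- The rotation which makes a derivative positive. -/
theorem exists_rot {κ : ℂ} (hκ : κ ≠ 0) : ∃ u : ℂ, ‖u‖ = 1 ∧ κ * u = (‖κ‖ : ℂ) := by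
  have h0 : (‖κ‖ : ℂ) ≠ 0 := by exact_mod_cast (norm_ne_zero_iff.2 hκ)
  refine ⟨conj κ / ‖κ‖, ?_, ?_⟩
  · rw [norm_div, RCLike.norm_conj, Complex.norm_real, norm_norm,
      div_self (norm_ne_zero_iff.2 hκ)]
  · rw [mul_div_assoc', Complex.mul_conj, Complex.normSq_eq_norm_sq]
    field_simp
    push_cast
    ring

theorem Good.exists_cconf (h : Good D) {z₀ : ℂ} (hz₀ : z₀ ∈ D) :
    ∃ Φ, CConf Φ D ∧ Φ 0 = z₀ ∧ ∃ a : ℝ, 0 ≤ a ∧ deriv Φ 0 = a := by
  have hne : D ≠ univ := by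
    rintro rfl
    exact NormedSpace.unbounded_univ ℂ ℂ h.bdd
  obtain ⟨φ, hφ, hφ0⟩ := exists_conf h.isOpen h.rdom hne hz₀
  have z0 : (0 : ℂ) ∈ ball (0 : ℂ) 1 := mem_ball_self one_pos
  obtain ⟨u, hu, hue⟩ := exists_rot (hφ.deriv_ne z0)
  obtain ⟨h1, h2⟩ := hφ.rot hu
  have heq := cext_eq h1.diff.continuousOn
  refine ⟨_, h1.cconf h.bdd h.lc, ?_, ‖deriv φ 0‖, norm_nonneg _, ?_⟩
  · rw [heq z0]; simp only [mul_zero]; exact hφ0
  · have h3 : cext (fun z => φ (u * z)) =ᶠ[𝓝 0] fun z => φ (u * z) := by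
      filter_upwards [isOpen_ball.mem_nhds z0] with z hz
      exact heq hz
    rw [h3.deriv_eq, h2, hue]

/-! ### From the disc to the half-plane and back -/

theorem CConf.isU {Φ : ℂ → ℂ} (h : CConf Φ D) {β c : ℂ} (hβ : ‖β‖ = 1) (hc : 0 < c.im) :
    IsU (fun z => Φ (mb β c z)) D (Φ (mb β c 0)) (Φ β) where
  diff := by
    refine h.diff.comp ?_ ?_
    · intro z hz
      exact (mb_differentiableAt hc (le_of_lt hz)).differentiableWithinAt
    · intro z hz
      rw [mem_ball_zero_iff]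
      exact norm_mb_lt hβ hc hz
  inj := by
    intro z hz z' hz' he
    have e1 : 0 < z.im := hz
    have e2 : 0 < z'.im := hz'
    refine mb_injOn hβ hc e1.le e2.le (h.inj ?_ ?_ he)
    · rw [mem_ball_zero_iff]; exact norm_mb_lt hβ hc hz
    · rw [mem_ball_zero_iff]; exact norm_mb_lt hβ hc hz'
  img := by
    rw [← h.img, ← mb_image_open hβ hc, image_image]
  cont := h.cont.comp (mb_continuousOn hc) fun z hz => mb_mem_closedBall hβ hc hz
  zero := rfl
  infty := by
    have hβm : β ∈ closedBall (0 : ℂ) 1 := by rw [mem_closedBall_zero_iff]; exact hβ.le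
    refine (h.cont β hβm).tendsto.comp (tendsto_nhdsWithin_iff.2 ⟨?_, ?_⟩)
    · exact (tendsto_mb β c).mono_left inf_le_left
    · have : ∀ᶠ z : ℂ in cobounded ℂ ⊓ 𝓟 {z | 0 ≤ z.im}, z ∈ {z : ℂ | 0 ≤ z.im} :=
        mem_inf_of_right (mem_principal_self _)
      filter_upwards [this] with z hz
      exact mb_mem_closedBall hβ hc hz

theorem tendsto_imb {β c : ℂ} (hβ : ‖β‖ = 1) (hc : 0 < c.im) :
    Tendsto (imb β c) (𝓝[closedBall 0 1 \ {β}] β) (cobounded ℂ ⊓ 𝓟 {z | 0 ≤ z.im}) := by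
  rw [tendsto_inf, tendsto_principal]
  constructor
  · rw [← tendsto_norm_atTop_iff_cobounded]
    have hβ0 : β ≠ 0 := by rintro rfl; simp at hβ
    have hcc : c - conj c ≠ 0 := by
      intro h
      have := congrArg Complex.im h
      rw [Complex.sub_im, Complex.conj_im, Complex.zero_im] at this
      linarith
    have hnum : Tendsto (fun w : ℂ => ‖β * c - conj c * w‖) (𝓝[closedBall 0 1 \ {β}] β)
        (𝓝 ‖β * c - conj c * β‖) := by
      have : Continuous fun w : ℂ => ‖β * c - conj c * w‖ := by fun_prop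
      exact (this.tendsto β).mono_left nhdsWithin_le_nhds
    have hpos : 0 < ‖β * c - conj c * β‖ := by
      rw [norm_pos_iff]
      have : β * c - conj c * β = β * (c - conj c) := by ring
      rw [this]
      exact mul_ne_zero hβ0 hcc
    have hden : Tendsto (fun w : ℂ => ‖β - w‖) (𝓝[closedBall 0 1 \ {β}] β) (𝓝[>] 0) := by
      refine tendsto_nhdsWithin_iff.2 ⟨?_, ?_⟩
      · have h1 : Continuous fun w : ℂ => ‖β - w‖ := by fun_prop
        have h2 := (h1.tendsto β).mono_left (nhdsWithin_le_nhds (s := closedBall 0 1 \ {β}))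
        simpa using h2
      · filter_upwards [self_mem_nhdsWithin] with w hw
        rw [mem_Ioi, norm_pos_iff, sub_ne_zero]
        exact fun e => hw.2 e.symm
    have h3 := hnum.pos_mul_atTop hpos (tendsto_inv_nhdsGT_zero.comp hden)
    refine h3.congr fun w => ?_
    rw [imb, norm_div, div_eq_mul_inv]
    rfl
  · filter_upwards [self_mem_nhdsWithin] with w hw
    exact imb_im_nonneg hβ hc (mem_closedBall_zero_iff.1 hw.1) hw.2

open Classical in
/-- The disc version of a half-plane map. -/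
noncomputable def toDisc (ψ : ℂ → ℂ) (b : ℂ) (w : ℂ) : ℂ :=
  if w = 1 then b else ψ (imb 1 Complex.I w)

theorem IsU.toDisc {ψ : ℂ → ℂ} (h : IsU ψ D a b) : CConf (toDisc ψ b) D := by
  have hI : 0 < Complex.I.im := by simp
  have h1 : ‖(1 : ℂ)‖ = 1 := norm_one
  have hne : ∀ w ∈ ball (0 : ℂ) 1, w ≠ 1 := by
    rintro w hw rfl
    rw [mem_ball_zero_iff, norm_one] at hw
    exact lt_irrefl _ hw
  have heq : ∀ w : ℂ, w ≠ 1 → R1.toDisc ψ b w = ψ (imb 1 Complex.I w) := fun w hw => by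
    simp [R1.toDisc, hw]
  have hd : DifferentiableOn ℂ (fun w => ψ (imb 1 Complex.I w)) (ball 0 1) := by
    refine h.diff.comp ?_ ?_
    · intro w hw
      exact (imb_differentiableAt (hne w hw)).differentiableWithinAt
    · intro w hw
      exact imb_im_pos h1 hI (mem_ball_zero_iff.1 hw)
  refine ⟨⟨?_, ?_, ?_⟩, ?_⟩
  · exact hd.congr fun w hw => heq w (hne w hw)
  · intro w hw w' hw' he
    rw [heq w (hne w hw), heq w' (hne w' hw')] at he
    have h2 := h.inj (imb_im_pos h1 hI (mem_ball_zero_iff.1 hw))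
      (imb_im_pos h1 hI (mem_ball_zero_iff.1 hw')) he
    rw [← (mb_imb h1 hI (hne w hw)).2, h2, (mb_imb h1 hI (hne w' hw')).2]
  · rw [← h.img]
    apply Subset.antisymm
    · rintro _ ⟨w, hw, rfl⟩
      rw [heq w (hne w hw)]
      exact ⟨_, imb_im_pos h1 hI (mem_ball_zero_iff.1 hw), rfl⟩
    · rintro _ ⟨z, hz, rfl⟩
      have hm : mb 1 Complex.I z ∈ ball (0 : ℂ) 1 := by
        rw [mem_ball_zero_iff]; exact norm_mb_lt h1 hI hz
      refine ⟨_, hm, ?_⟩
      rw [heq _ (hne _ hm), imb_mb h1 hI (le_of_lt hz)]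
  · intro w hw
    by_cases hw1 : w = 1
    · subst hw1
      have h2 : Tendsto (fun w => ψ (imb 1 Complex.I w)) (𝓝[closedBall 0 1 \ {1}] 1) (𝓝 b) :=
        h.infty.comp (tendsto_imb h1 hI)
      have h3 : ContinuousWithinAt (R1.toDisc ψ b) (closedBall 0 1 \ {1}) 1 := by
        rw [ContinuousWithinAt]
        have e : R1.toDisc ψ b 1 = b := by simp [R1.toDisc]
        rw [e]
        refine h2.congr' ?_
        filter_upwards [self_mem_nhdsWithin] with w hw
        exact (heq w hw.2).symm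
      exact continuousWithinAt_sdiff_self.1 h3
    · have h2 : ContinuousWithinAt (fun w => ψ (imb 1 Complex.I w)) (closedBall 0 1 \ {1}) w := by
        have h4 : ContinuousWithinAt ψ {z | 0 ≤ z.im} (imb 1 Complex.I w) :=
          h.cont _ (imb_im_nonneg h1 hI (mem_closedBall_zero_iff.1 hw) hw1)
        exact h4.comp (imb_differentiableAt hw1).continuousAt.continuousWithinAt
          fun x hx => imb_im_nonneg h1 hI (mem_closedBall_zero_iff.1 hx.1) hx.2
      have h3 : ContinuousWithinAt (R1.toDisc ψ b) (closedBall 0 1 \ {1}) w :=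
        h2.congr (fun x hx => heq x hx.2) (heq w hw1)
      refine h3.mono_of_mem_nhdsWithin ?_
      filter_upwards [self_mem_nhdsWithin, nhdsWithin_le_nhds (isOpen_ne.mem_nhds hw1)] with x hx
        hx' using ⟨hx, hx'⟩

theorem toDisc_neg_one {ψ : ℂ → ℂ} (h : IsU ψ D a b) : toDisc ψ b (-1) = a := by
  have h1 : (-1 : ℂ) ≠ 1 := by norm_num
  have h2 : imb 1 Complex.I (-1) = 0 := by
    rw [imb, Complex.conj_I]; simp
  simp only [toDisc, h1, if_false, h2, h.zero]

theorem toDisc_one {ψ : ℂ → ℂ} : toDisc ψ b 1 = b := by simp [toDisc]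

theorem toDisc_mb {ψ : ℂ → ℂ} {z : ℂ} (hz : 0 ≤ z.im) :
    toDisc ψ b (mb 1 Complex.I z) = ψ z := by
  have hI : 0 < Complex.I.im := by simp
  simp only [toDisc, mb_ne norm_one hI hz, if_false, imb_mb norm_one hI hz]

theorem CConf.comp_rot {Φ : ℂ → ℂ} (h : CConf Φ D) {u : ℂ} (hu : ‖u‖ = 1) :
    CConf (fun z => Φ (u * z)) D where
  toConf := (h.toConf.rot hu).1
  cont := h.cont.comp (by fun_prop) fun z hz => by
    rw [mem_closedBall_zero_iff] at hz ⊢
    rw [norm_mul, hu, one_mul]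
    exact hz

/-- **Convergence of the half-plane maps** under convergence of the marked domains. -/
theorem half_rado {ι : Type*} {l : Filter ι} {Dn : ι → Set ℂ} {E : Set ℂ} (hK : KConv l Dn E)
    (hD : ∀ i, Good (Dn i)) (hne : ∀ i, (Dn i).Nonempty) (hE : NoCut E) {ψ : ℂ → ℂ} {a b : ℂ}
    (hψ : IsU ψ E a b) {an bn : ι → ℂ} (han : ∀ i, an i ∈ frontier (Dn i))
    (hbn : ∀ i, bn i ∈ frontier (Dn i)) (hab : ∀ i, an i ≠ bn i) (ha : Tendsto an l (𝓝 a))
    (hb : Tendsto bn l (𝓝 b)) :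
    ∃ ψn : ι → ℂ → ℂ, (∀ i, IsU (ψn i) (Dn i) (an i) (bn i) ∧
      InjOn (ψn i) {z | 0 ≤ z.im}) ∧
      TendstoUniformlyOn ψn ψ l {z | 0 ≤ z.im} := by
  classical
  have z0 : (0 : ℂ) ∈ ball (0 : ℂ) 1 := mem_ball_self one_pos
  have hI : 0 < Complex.I.im := by simp
  -- the limit map on the disc, rotated
  obtain ⟨u, hu, hue⟩ := exists_rot (hψ.toDisc.deriv_ne z0)
  have hu0 : u ≠ 0 := by rintro rfl; simp at hu
  set Φ : ℂ → ℂ := fun z => toDisc ψ b (u * z) with hΦd
  have hΦ : CConf Φ E := hψ.toDisc.comp_rot hu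
  have hΦder : deriv Φ 0 = (‖deriv (toDisc ψ b) 0‖ : ℂ) := by
    rw [hΦd, (hψ.toDisc.toConf.rot hu).2, hue]
  set w₀ : ℂ := Φ 0 with hw₀
  -- the maps on the discs
  have hex : ∀ i, ∃ Φi, CConf Φi (Dn i) ∧ (w₀ ∈ Dn i → Φi 0 = w₀) ∧
      ∃ a : ℝ, 0 ≤ a ∧ deriv Φi 0 = a := by
    intro i
    by_cases hw : w₀ ∈ Dn i
    · obtain ⟨Φi, h1, h2, h3⟩ := (hD i).exists_cconf hw
      exact ⟨Φi, h1, fun _ => h2, h3⟩
    · obtain ⟨x, hx⟩ := hne i
      obtain ⟨Φi, h1, h2, h3⟩ := (hD i).exists_cconf hx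
      exact ⟨Φi, h1, fun h => (hw h).elim, h3⟩
  choose Φn hΦn hΦn0 hΦnd using hex
  have hw₀E : w₀ ∈ E := hΦ.zero_mem
  have hev : ∀ᶠ i in l, w₀ ∈ Dn i := by
    filter_upwards [hK.inner {w₀} (singleton_subset_iff.2 hw₀E) isCompact_singleton] with i hi
    exact hi rfl
  have h0 : Tendsto (fun i => Φn i 0) l (𝓝 (Φ 0)) := by
    refine tendsto_const_nhds.congr' ?_
    filter_upwards [hev] with i hi
    exact (hΦn0 i hi).symm
  have hR := rado hK hΦn hΦ h0 hΦnd ⟨_, norm_nonneg _, hΦder⟩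
  -- the marked points
  have hα : ∀ i, ∃ α ∈ sphere (0 : ℂ) 1, Φn i α = an i := by
    intro i
    have := han i
    rw [← (hΦn i).frontier_eq] at this
    exact this
  have hβ : ∀ i, ∃ β ∈ sphere (0 : ℂ) 1, Φn i β = bn i := by
    intro i
    have := hbn i
    rw [← (hΦn i).frontier_eq] at this
    exact this
  choose αn hαn hαe using hα
  choose βn hβn hβe using hβ
  have hconv : ∀ (vn : ι → ℂ) (v : ℂ), (∀ i, vn i ∈ sphere (0 : ℂ) 1) →
      v ∈ sphere (0 : ℂ) 1 → Tendsto (fun i => Φn i (vn i)) l (𝓝 (Φ v)) → Tendsto vn l (𝓝 v) := by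
    intro vn v hvn hv hlim
    refine hΦ.tendsto_inv hE (Eventually.of_forall fun i => sphere_subset_closedBall (hvn i))
      (sphere_subset_closedBall hv) ?_
    rw [Metric.tendsto_nhds] at hlim ⊢
    intro ε hε
    filter_upwards [hlim (ε / 2) (half_pos hε), Metric.tendstoUniformlyOn_iff.1 hR (ε / 2)
      (half_pos hε)] with i h1 h2
    have h3 := h2 (vn i) (sphere_subset_closedBall (hvn i))
    have h4 := dist_triangle (Φ (vn i)) (Φn i (vn i)) (Φ v)
    linarith
  -- the limits of the marked points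
  have hα' : Tendsto αn l (𝓝 (-u⁻¹)) := by
    refine hconv αn _ hαn ?_ ?_
    · rw [mem_sphere_zero_iff_norm, norm_neg, norm_inv, hu, inv_one]
    · have e : Φ (-u⁻¹) = a := by
        have : u * -u⁻¹ = -1 := by rw [mul_neg, mul_inv_cancel₀ hu0]
        rw [hΦd]
        simp only [this]
        exact toDisc_neg_one hψ
      rw [e]
      exact ha.congr fun i => (hαe i).symm
  have hβ' : Tendsto βn l (𝓝 u⁻¹) := by
    refine hconv βn _ hβn ?_ ?_
    · rw [mem_sphere_zero_iff_norm, norm_inv, hu, inv_one]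
    · have e : Φ (u⁻¹) = b := by
        have : u * u⁻¹ = 1 := mul_inv_cancel₀ hu0
        rw [hΦd]
        simp only [this]
        exact toDisc_one
      rw [e]
      exact hb.congr fun i => (hβe i).symm
  have hαn1 : ∀ i, ‖αn i‖ = 1 := fun i => mem_sphere_zero_iff_norm.1 (hαn i)
  have hβn1 : ∀ i, ‖βn i‖ = 1 := fun i => mem_sphere_zero_iff_norm.1 (hβn i)
  have hβn0 : ∀ i, βn i ≠ 0 := fun i h => by
    have := hβn1 i
    rw [h, norm_zero] at this
    exact zero_ne_one this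
  have hquo : ∀ i, ‖αn i / βn i‖ = 1 := fun i => by rw [norm_div, hαn1, hβn1, div_one]
  have hquo1 : ∀ i, αn i / βn i ≠ 1 := by
    intro i h
    rw [div_eq_one_iff_eq (hβn0 i)] at h
    apply hab i
    rw [← hαe, ← hβe, h]
  have hquot : Tendsto (fun i => αn i / βn i) l (𝓝 (-1)) := by
    have h1 := hα'.div hβ' (inv_ne_zero hu0)
    have h2 : -u⁻¹ / u⁻¹ = -1 := by
      rw [neg_div, div_self (inv_ne_zero hu0)]
    rwa [h2] at h1
  set cn : ι → ℂ := fun i => csq (αn i / βn i) with hcnd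
  have hcn : Tendsto cn l (𝓝 Complex.I) := by
    have h1 : ContinuousAt csq (-1) := csq_continuousAt (by simp) (by norm_num)
    have h2 := h1.tendsto.comp hquot
    rw [csq_neg_one] at h2
    exact h2
  have hcn1 : ∀ i, 0 < (cn i).im := fun i => csq_im_pos (hquo i) (hquo1 i)
  have hcn2 : ∀ i, mb (βn i) (cn i) 0 = αn i := by
    intro i
    have hne0 : αn i / βn i ≠ 0 := by
      intro h
      have := hquo i
      rw [h, norm_zero] at this
      exact zero_ne_one this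
    rw [mb_zero (norm_csq (hquo i)), csq_sq hne0, mul_div_cancel₀ _ (hβn0 i)]
  refine ⟨fun i z => Φn i (mb (βn i) (cn i) z), fun i => ⟨?_, ?_⟩, ?_⟩
  · have h1 := (hΦn i).isU (hβn1 i) (hcn1 i)
    rw [hcn2 i, hαe i, hβe i] at h1
    exact h1
  · intro z hz z' hz' he
    exact mb_injOn (hβn1 i) (hcn1 i) hz hz' ((hΦn i).injOn (hD i).nocut
      (mb_mem_closedBall (hβn1 i) (hcn1 i) hz) (mb_mem_closedBall (hβn1 i) (hcn1 i) hz') he)
  · -- uniform convergence
    have hmb := mb_uniform (c := Complex.I) hβn1 hβ' hI hcn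
    have hlim : ∀ z : ℂ, 0 ≤ z.im → ψ z = Φ (mb u⁻¹ Complex.I z) := by
      intro z hz
      have : u * mb u⁻¹ Complex.I z = mb 1 Complex.I z := by
        rw [mb, mb, ← mul_assoc, mul_inv_cancel₀ hu0]
      rw [hΦd]
      simp only [this]
      exact (toDisc_mb hz).symm
    have hucont : UniformContinuousOn Φ (closedBall 0 1) :=
      (isCompact_closedBall 0 1).uniformContinuousOn_of_continuous hΦ.cont
    rw [Metric.tendstoUniformlyOn_iff]
    intro ε hε
    obtain ⟨δ, hδ, hδ'⟩ := Metric.uniformContinuousOn_iff.1 hucont (ε / 2) (half_pos hε)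
    filter_upwards [Metric.tendstoUniformlyOn_iff.1 hR (ε / 2) (half_pos hε),
      Metric.tendstoUniformlyOn_iff.1 hmb δ hδ] with i h1 h2 z hz
    have hu' : ‖u⁻¹‖ = 1 := by rw [norm_inv, hu, inv_one]
    have m1 := mb_mem_closedBall (c := Complex.I) hu' hI hz
    have m2 := mb_mem_closedBall (hβn1 i) (hcn1 i) hz
    have h3 := hδ' _ m1 _ m2 (h2 z hz)
    have h4 := h1 _ m2
    rw [hlim z hz]
    have h5 := dist_triangle (Φ (mb u⁻¹ Complex.I z)) (Φ (mb (βn i) (cn i) z))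
      (Φn i (mb (βn i) (cn i) z))
    linarith

end Vale.Agent.P153.R2.R1
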