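import Vale.Agent.P153.R2.R1.Cut
import Mathlib.Analysis.Complex.Schwarz
import Mathlib.Analysis.Complex.RemovableSingularity
import Mathlib.Analysis.Analytic.IsolatedZeros

/-!
# The inverse of a conformal map and its uniqueness
-/

open Set Topology Metric Filter

namespace Vale.Agent.P153.R2.R1

variable {φ ψ : ℂ → ℂ} {D : Set ℂ}

/-- The inverse of a conformal map of the disc. -/
noncomputable def dinv (φ : ℂ → ℂ) : ℂ → ℂ := Function.invFunOn φ (ball 0 1)

theorem Conf.dinv_mem (h : Conf φ D) {w : ℂ} (hw : w ∈ D) : dinv φ w ∈ ball (0 : ℂ) 1 := by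
  rw [← h.img] at hw
  exact Function.invFunOn_mem hw

theorem Conf.apply_dinv (h : Conf φ D) {w : ℂ} (hw : w ∈ D) : φ (dinv φ w) = w := by
  rw [← h.img] at hw
  exact Function.invFunOn_eq hw

theorem Conf.dinv_apply (h : Conf φ D) {z : ℂ} (hz : z ∈ ball (0 : ℂ) 1) : dinv φ (φ z) = z :=
  h.inj (h.dinv_mem (h.mem hz)) hz (h.apply_dinv (h.mem hz))

theorem Conf.dinv_continuousAt (h : Conf φ D) {w : ℂ} (hw : w ∈ D) :
    ContinuousAt (dinv φ) w := by
  intro V hV
  obtain ⟨V', hV', hVo, hmem⟩ := _root_.mem_nhds_iff.1 hV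
  have hopen := h.isOpen_image (V := ball 0 1 ∩ V') inter_subset_left (isOpen_ball.inter hVo)
  have : φ '' (ball 0 1 ∩ V') ∈ 𝓝 w :=
    hopen.mem_nhds ⟨dinv φ w, ⟨h.dinv_mem hw, hmem⟩, h.apply_dinv hw⟩
  refine mem_map.2 (mem_of_superset this ?_)
  rintro _ ⟨z, ⟨hz, hzV⟩, rfl⟩
  rw [mem_preimage, h.dinv_apply hz]
  exact hV' hzV

theorem Conf.dinv_hasDerivAt (h : Conf φ D) {z : ℂ} (hz : z ∈ ball (0 : ℂ) 1)
    (hd : deriv φ z ≠ 0) : HasDerivAt (dinv φ) (deriv φ z)⁻¹ (φ z) := by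
  refine HasDerivAt.of_local_left_inverse (f := φ) (h.dinv_continuousAt (h.mem hz)) ?_ hd ?_
  · rw [h.dinv_apply hz]
    exact (h.diff.differentiableAt (isOpen_ball.mem_nhds hz)).hasDerivAt
  · filter_upwards [h.isOpen.mem_nhds (h.mem hz)] with w hw
    exact h.apply_dinv hw

theorem Conf.dinv_differentiableOn (h : Conf φ D) : DifferentiableOn ℂ (dinv φ) D := by
  intro w hw
  obtain ⟨z, hz, rfl⟩ : w ∈ φ '' ball 0 1 := by rwa [h.img]
  have ha : AnalyticAt ℂ (deriv φ) z := (h.diff.analyticAt (isOpen_ball.mem_nhds hz)).deriv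
  rcases ha.eventually_eq_zero_or_eventually_ne_zero with h0 | h0
  · exfalso
    obtain ⟨s, hs, hsub⟩ := Metric.eventually_nhds_iff_ball.1
      (h0.and (isOpen_ball.mem_nhds hz : ball (0 : ℂ) 1 ∈ 𝓝 z))
    have hx : z + (s / 2 : ℝ) ∈ ball z s := by
      rw [mem_ball, dist_eq_norm, add_sub_cancel_left, Complex.norm_real,
        Real.norm_of_nonneg (by positivity)]
      linarith
    have h1 := (convex_ball z s).norm_image_sub_le_of_norm_deriv_le (f := φ) (C := 0)
      (fun y hy => h.diff.differentiableAt (isOpen_ball.mem_nhds (hsub y hy).2))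
      (fun y hy => by rw [(hsub y hy).1, norm_zero]) (mem_ball_self hs) hx
    rw [zero_mul] at h1
    have h2 := h.inj (hsub _ hx).2 hz (sub_eq_zero.1 (norm_le_zero_iff.1 h1))
    have h3 : ((s / 2 : ℝ) : ℂ) = 0 := by simpa using h2
    have h4 : s / 2 = 0 := by exact_mod_cast h3
    linarith
  · obtain ⟨s, hs, hsub⟩ := Metric.eventually_nhds_iff_ball.1
      ((eventually_nhdsWithin_iff.1 h0).and (isOpen_ball.mem_nhds hz : ball (0 : ℂ) 1 ∈ 𝓝 z))
    have hsub1 : ball z s ⊆ ball 0 1 := fun y hy => (hsub y hy).2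
    have hnb : φ '' ball z s ∈ 𝓝 (φ z) :=
      (h.isOpen_image hsub1 isOpen_ball).mem_nhds ⟨z, mem_ball_self hs, rfl⟩
    have hd : DifferentiableOn ℂ (dinv φ) (φ '' ball z s) := by
      refine (Complex.differentiableOn_compl_singleton_and_continuousAt_iff hnb).1
        ⟨?_, h.dinv_continuousAt (h.mem hz)⟩
      rintro _ ⟨⟨y, hy, rfl⟩, hne⟩
      have hyz : y ≠ z := by rintro rfl; exact hne rfl
      exact (h.dinv_hasDerivAt (hsub1 hy)
        ((hsub y hy).1 hyz)).differentiableAt.differentiableWithinAt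
    exact (hd.differentiableAt hnb).differentiableWithinAt

theorem Conf.deriv_ne (h : Conf φ D) {z : ℂ} (hz : z ∈ ball (0 : ℂ) 1) : deriv φ z ≠ 0 := by
  intro h0
  have h1 : HasDerivAt φ (deriv φ z) z :=
    (h.diff.differentiableAt (isOpen_ball.mem_nhds hz)).hasDerivAt
  have h2 : HasDerivAt (dinv φ) (deriv (dinv φ) (φ z)) (φ z) :=
    (h.dinv_differentiableOn.differentiableAt (h.isOpen.mem_nhds (h.mem hz))).hasDerivAt
  have h3 := h2.comp z h1
  have h4 : HasDerivAt (dinv φ ∘ φ) 1 z := by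
    refine (hasDerivAt_id z).congr_of_eventuallyEq ?_
    filter_upwards [isOpen_ball.mem_nhds hz] with y hy
    exact h.dinv_apply hy
  have h5 := h3.unique h4
  rw [h0, mul_zero] at h5
  exact zero_ne_one h5

/-- Two conformal maps onto the same domain with the same value at `0` differ by a rotation. -/
theorem Conf.rigid (h : Conf φ D) (h' : Conf ψ D) (h0 : φ 0 = ψ 0) :
    ∃ c : ℂ, ‖c‖ = 1 ∧ ∀ z ∈ ball (0 : ℂ) 1, ψ z = φ (c * z) := by
  set F : ℂ → ℂ := fun z => dinv φ (ψ z) with hF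
  set G : ℂ → ℂ := fun z => dinv ψ (φ z) with hG
  have hFd : DifferentiableOn ℂ F (ball 0 1) :=
    h.dinv_differentiableOn.comp h'.diff (fun z hz => h'.mem hz)
  have hGd : DifferentiableOn ℂ G (ball 0 1) :=
    h'.dinv_differentiableOn.comp h.diff (fun z hz => h.mem hz)
  have hFm : MapsTo F (ball 0 1) (ball 0 1) := fun z hz => h.dinv_mem (h'.mem hz)
  have hGm : MapsTo G (ball 0 1) (ball 0 1) := fun z hz => h'.dinv_mem (h.mem hz)
  have z0 : (0 : ℂ) ∈ ball (0 : ℂ) 1 := mem_ball_self one_pos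
  have hF0 : F 0 = 0 := by rw [hF]; simp only; rw [← h0, h.dinv_apply z0]
  have hG0 : G 0 = 0 := by rw [hG]; simp only; rw [h0, h'.dinv_apply z0]
  have hGF : ∀ z ∈ ball (0 : ℂ) 1, G (F z) = z := by
    intro z hz
    rw [hG, hF]
    simp only
    rw [h.apply_dinv (h'.mem hz), h'.dinv_apply hz]
  have hn : ∀ z ∈ ball (0 : ℂ) 1, ‖F z‖ = ‖z‖ := by
    intro z hz
    have hz' := mem_ball_zero_iff.1 hz
    apply le_antisymm
    · exact Complex.norm_le_norm_of_mapsTo_ball hFd (hFm.mono_right ball_subset_closedBall) hF0 hz'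
    · have := Complex.norm_le_norm_of_mapsTo_ball hGd (hGm.mono_right ball_subset_closedBall) hG0
        (mem_ball_zero_iff.1 (hFm hz))
      rwa [hGF z hz] at this
  have hhalf : (1 / 2 : ℂ) ∈ ball (0 : ℂ) 1 := by
    rw [mem_ball_zero_iff]; norm_num
  obtain ⟨c, hc, hcE⟩ := Complex.affine_of_mapsTo_ball_of_exists_norm_dslope_eq_div' (c := 0)
    (R₁ := 1) (R₂ := 1) hFd (by rw [hF0]; exact hFm.mono_right ball_subset_closedBall)
    ⟨1 / 2, hhalf, by
      rw [dslope_of_ne _ (by norm_num), slope_def_module, hF0, sub_zero, sub_zero, norm_smul,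
        hn _ hhalf, norm_inv]
      norm_num⟩
  refine ⟨c, by rw [hc]; norm_num, fun z hz => ?_⟩
  have h1 := hcE hz
  simp only [hF0, zero_add, sub_zero, smul_eq_mul] at h1
  rw [mul_comm, ← h1, hF]
  simp only
  rw [h.apply_dinv (h'.mem hz)]

/-- Uniqueness with a normalised derivative. -/
theorem Conf.eqOn (h : Conf φ D) (h' : Conf ψ D) (h0 : φ 0 = ψ 0) {a b : ℝ} (ha : 0 ≤ a)
    (hb : 0 ≤ b) (hda : deriv φ 0 = a) (hdb : deriv ψ 0 = b) : EqOn φ ψ (ball 0 1) := by
  obtain ⟨c, hc, hcE⟩ := h.rigid h' h0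
  have z0 : (0 : ℂ) ∈ ball (0 : ℂ) 1 := mem_ball_self one_pos
  have e1 : HasDerivAt (fun z => φ (c * z)) (deriv φ 0 * c) 0 := by
    have h1 : HasDerivAt φ (deriv φ 0) (c * 0) := by
      rw [mul_zero]
      exact (h.diff.differentiableAt (isOpen_ball.mem_nhds z0)).hasDerivAt
    have h2 : HasDerivAt (fun z : ℂ => c * z) c 0 := by
      simpa using (hasDerivAt_id (0 : ℂ)).const_mul c
    exact h1.comp 0 h2
  have e2 : HasDerivAt ψ (deriv φ 0 * c) 0 := by
    refine e1.congr_of_eventuallyEq ?_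
    filter_upwards [isOpen_ball.mem_nhds z0] with y hy
    exact hcE y hy
  have e3 : deriv ψ 0 = deriv φ 0 * c := e2.deriv
  have hne := h.deriv_ne z0
  have hne' := h'.deriv_ne z0
  rw [hda] at hne e3
  rw [hdb] at hne' e3
  have ha0 : 0 < a := lt_of_le_of_ne ha (fun e => hne (by rw [← e]; simp))
  have hb0 : 0 < b := lt_of_le_of_ne hb (fun e => hne' (by rw [← e]; simp))
  have hn := congrArg norm e3
  rw [norm_mul, hc, mul_one, Complex.norm_real, Complex.norm_real, Real.norm_of_nonneg hb,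
    Real.norm_of_nonneg ha] at hn
  rw [hn] at e3
  have hc1 : c = 1 := by
    have : (a : ℂ) * (c - 1) = 0 := by linear_combination -e3
    rcases mul_eq_zero.1 this with h4 | h4
    · exact absurd h4 hne
    · exact sub_eq_zero.1 h4
  intro z hz
  rw [hcE z hz, hc1, one_mul]

end Vale.Agent.P153.R2.R1
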