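import Vale.Agent.P153.R2.R1.Ext
import Vale.Agent.P153.R2.R1.Uniq
import Mathlib.Analysis.Complex.LocallyUniformLimit

/-!
# Radó's theorem

Conformal maps of the closed disc onto Jordan domains whose boundary curves converge, normalised at
the centre, converge uniformly on the closed disc.
-/

open Set Topology Metric Filter

namespace Vale.Agent.P153.R2.R1

variable {φ Φ : ℂ → ℂ} {D : Set ℂ}

theorem CConf.dist_le (h : CConf Φ D) {δ ε : ℝ} (hm : Mod Φ δ ε) {z z' : ℂ}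
    (hz : z ∈ closedBall (0 : ℂ) 1) (hz' : z' ∈ closedBall (0 : ℂ) 1) (hd : dist z z' < δ) :
    dist (Φ z) (Φ z') ≤ ε := by
  have hn := neBot_ball hz
  have hn' := neBot_ball hz'
  have h1 : Tendsto Φ (𝓝[ball 0 1] z) (𝓝 (Φ z)) :=
    (h.cont z hz).mono_left (nhdsWithin_mono _ ball_subset_closedBall)
  have h2 : Tendsto Φ (𝓝[ball 0 1] z') (𝓝 (Φ z')) :=
    (h.cont z' hz').mono_left (nhdsWithin_mono _ ball_subset_closedBall)
  have h3 : Tendsto (fun w : ℂ × ℂ => dist (Φ w.1) (Φ w.2))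
      (𝓝[ball 0 1] z ×ˢ 𝓝[ball 0 1] z') (𝓝 (dist (Φ z) (Φ z'))) :=
    (h1.comp tendsto_fst).dist (h2.comp tendsto_snd)
  refine le_of_tendsto h3 ?_
  have h4 : ∀ᶠ w : ℂ × ℂ in 𝓝[ball 0 1] z ×ˢ 𝓝[ball 0 1] z', w.1 ∈ ball (0 : ℂ) 1 ∧
      w.2 ∈ ball (0 : ℂ) 1 := by
    refine Eventually.prod_mk ?_ ?_ <;> exact self_mem_nhdsWithin
  have h5 : ∀ᶠ w : ℂ × ℂ in 𝓝[ball 0 1] z ×ˢ 𝓝[ball 0 1] z', dist w.1 w.2 < δ := by
    have h6 : Tendsto (fun w : ℂ × ℂ => dist w.1 w.2) (𝓝[ball 0 1] z ×ˢ 𝓝[ball 0 1] z')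
        (𝓝 (dist z z')) := by
      refine Tendsto.dist ?_ ?_
      · exact tendsto_fst.mono_right nhdsWithin_le_nhds
      · exact tendsto_snd.mono_right nhdsWithin_le_nhds
    exact h6.eventually (gt_mem_nhds hd)
  filter_upwards [h4, h5] with w hw hw'
  exact hm _ hw.1 _ hw.2 hw'

theorem notMem_of_frontier {U : Set ℂ} (hU : IsOpen U) {p : ℂ} (hp : p ∈ frontier U) : p ∉ U := by
  rw [hU.frontier_eq] at hp
  exact hp.2

/-- Convergence of domains with control of the boundaries. -/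
structure KConv {ι : Type*} (l : Filter ι) (D : ι → Set ℂ) (E : Set ℂ) : Prop where
  bdd : ∃ R : ℝ, 0 < R ∧ ∀ᶠ i in l, D i ⊆ closedBall 0 R
  ctrl : ∀ ε > 0, ∃ η > 0, ∀ᶠ i in l, Ctrl (D i) η ε
  inner : ∀ K ⊆ E, IsCompact K → ∀ᶠ i in l, K ⊆ D i
  outer : ∀ p ∈ frontier E, ∀ r > 0, ∀ᶠ i in l, ¬ ball p r ⊆ D i

theorem KConv.mono {ι : Type*} {l l' : Filter ι} {D : ι → Set ℂ} {E : Set ℂ} (h : KConv l D E)
    (hl : l' ≤ l) : KConv l' D E where
  bdd := h.bdd.imp fun _ hR => ⟨hR.1, hl hR.2⟩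
  ctrl ε hε := (h.ctrl ε hε).imp fun _ hη => ⟨hη.1, hl hη.2⟩
  inner K hK hKc := hl (h.inner K hK hKc)
  outer p hp r hr := hl (h.outer p hp r hr)

variable {ι : Type*} {l : Filter ι} {Dn : ι → Set ℂ} {Φn : ι → ℂ → ℂ} {E : Set ℂ}

/-- The common modulus of continuity. -/
theorem KConv.mod (hK : KConv l Dn E) (hΦ : ∀ i, CConf (Φn i) (Dn i)) (hE : IsOpen E) {w₀ : ℂ}
    (hw₀ : w₀ ∈ E) (h0 : Tendsto (fun i => Φn i 0) l (𝓝 w₀)) {ε : ℝ} (hε : 0 < ε) :
    ∃ δ > 0, ∀ᶠ i in l, ∀ z ∈ closedBall (0 : ℂ) 1, ∀ z' ∈ closedBall (0 : ℂ) 1,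
      dist z z' < δ → dist (Φn i z) (Φn i z') ≤ ε := by
  obtain ⟨r, hr, hrE⟩ := Metric.isOpen_iff.1 hE w₀ hw₀
  obtain ⟨R, hR, hRD⟩ := hK.bdd
  set d : ℝ := r / 4 with hd
  have hd0 : 0 < d := by positivity
  set ε' : ℝ := min (ε / 2) (d / 2) with hε'
  have hε'0 : 0 < ε' := lt_min (by positivity) (by positivity)
  have hε'd : ε' < d := (min_le_right _ _).trans_lt (by linarith)
  obtain ⟨η, hη, hctrl⟩ := hK.ctrl ε' hε'0
  obtain ⟨δ, hδ, hequi⟩ := equi (R := R) (d := d) hR hη hε'0 hε'd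
  have hinner := hK.inner (closedBall w₀ (2 * d))
    ((closedBall_subset_ball (by rw [hd]; linarith)).trans hrE) (isCompact_closedBall _ _)
  have hnear : ∀ᶠ i in l, dist (Φn i 0) w₀ < d := h0 (ball_mem_nhds w₀ hd0)
  refine ⟨δ, hδ, ?_⟩
  filter_upwards [hRD, hctrl, hinner, hnear] with i h1 h2 h3 h4 z hz z' hz' hzz
  have hmod : Mod (Φn i) δ (2 * ε') := by
    refine hequi (Φn i) (Dn i) (hΦ i).toConf h1 h2 ?_
    intro p hp
    have hp1 := notMem_of_frontier (hΦ i).isOpen hp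
    have hp2 : p ∉ closedBall w₀ (2 * d) := fun hc => hp1 (h3 hc)
    rw [mem_closedBall, not_le] at hp2
    have := dist_triangle p (Φn i 0) w₀
    rw [dist_comm p (Φn i 0)] at this
    linarith
  have := (hΦ i).dist_le hmod hz hz' hzz
  have h5 : ε' ≤ ε / 2 := min_le_left _ _
  linarith

/-- Stability of the open mapping theorem. -/
theorem open_stable {F : Filter ι} {g : ℂ → ℂ} (hg : ContinuousOn g (closedBall 0 1))
    (hgd : DifferentiableOn ℂ g (ball 0 1))
    (hΦ : ∀ i, CConf (Φn i) (Dn i)) (hu : TendstoUniformlyOn Φn g F (closedBall 0 1))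
    (hnc : ∃ x ∈ ball (0 : ℂ) 1, g x ≠ g 0) {z : ℂ} {s : ℝ} (hs : 0 < s)
    (hsub : closedBall z s ⊆ ball 0 1) :
    ∃ ρ > 0, ∀ᶠ i in F, ball (g z) ρ ⊆ Φn i '' closedBall z s := by
  have hz : z ∈ ball (0 : ℂ) 1 := hsub (mem_closedBall_self hs.le)
  have ha : AnalyticOnNhd ℂ g (ball 0 1) := hgd.analyticOnNhd isOpen_ball
  have hiso : ∀ᶠ x in 𝓝[≠] z, g x ≠ g z := by
    rcases ((ha z hz).sub analyticAt_const (g := fun _ => g z)).eventually_eq_zero_or_eventually_ne_zero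
      with h0 | h0
    · exfalso
      have h1 : ∀ᶠ x in 𝓝 z, g x = (fun _ => g z) x := by
        filter_upwards [h0] with x hx
        exact sub_eq_zero.1 hx
      have h2 := ha.eqOn_of_preconnected_of_eventuallyEq analyticOnNhd_const
        (convex_ball 0 1).isPreconnected hz h1
      obtain ⟨x, hx, hxne⟩ := hnc
      exact hxne ((h2 hx).trans (h2 (mem_ball_self one_pos)).symm)
    · filter_upwards [h0] with x hx
      exact fun e => hx (sub_eq_zero.2 e)
  obtain ⟨s₁, hs₁, hs₁'⟩ := Metric.eventually_nhds_iff_ball.1 (eventually_nhdsWithin_iff.1 hiso)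
  set s' : ℝ := min s (s₁ / 2) with hs'
  have hs'0 : 0 < s' := lt_min hs (by positivity)
  have hs's : s' ≤ s := min_le_left _ _
  have hs's₁ : s' < s₁ := (min_le_right _ _).trans_lt (by linarith)
  have hsphere : sphere z s' ⊆ ball 0 1 :=
    (sphere_subset_closedBall.trans (closedBall_subset_closedBall hs's)).trans hsub
  have hcomp : IsCompact (sphere z s') := isCompact_sphere z s'
  have hne : (sphere z s').Nonempty := by
    refine ⟨z + (s' : ℝ), ?_⟩
    rw [mem_sphere, dist_eq_norm, add_sub_cancel_left, Complex.norm_real,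
      Real.norm_of_nonneg hs'0.le]
  obtain ⟨x₀, hx₀, hmin⟩ := hcomp.exists_isMinOn hne (f := fun x => ‖g x - g z‖)
    (((hg.mono (hsphere.trans ball_subset_closedBall)).sub continuousOn_const).norm)
  set m : ℝ := ‖g x₀ - g z‖ with hm
  have hm0 : 0 < m := by
    rw [hm, norm_pos_iff, sub_ne_zero]
    refine hs₁' x₀ ?_ ?_
    · rw [mem_ball, mem_sphere.1 hx₀]; exact hs's₁
    · intro e
      rw [mem_singleton_iff] at e
      rw [mem_sphere, e, dist_self] at hx₀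
      exact hs'0.ne hx₀
  have hm8 : 0 < m / 8 := by positivity
  refine ⟨m / 8, hm8, ?_⟩
  filter_upwards [Metric.tendstoUniformlyOn_iff.1 hu (m / 8) hm8] with i hi
  have hzi : dist (g z) (Φn i z) < m / 8 := hi z (ball_subset_closedBall hz)
  have hsub' : closedBall z s' ⊆ ball 0 1 := (closedBall_subset_closedBall hs's).trans hsub
  have hlow : ∀ x ∈ sphere z s', m / 2 ≤ ‖Φn i x - Φn i z‖ := by
    intro x hx
    have h1 : dist (g x) (Φn i x) < m / 8 := hi x (ball_subset_closedBall (hsphere hx))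
    have h2 : m ≤ ‖g x - g z‖ := hmin hx
    rw [← dist_eq_norm] at h2 ⊢
    have h3 := dist_triangle4 (g x) (Φn i x) (Φn i z) (g z)
    rw [dist_comm (Φn i z) (g z)] at h3
    linarith
  have hfreq : ∃ᶠ x in 𝓝 z, Φn i x ≠ Φn i z := by
    have h1 : ∀ᶠ x in 𝓝[≠] z, Φn i x ≠ Φn i z := by
      filter_upwards [self_mem_nhdsWithin, nhdsWithin_le_nhds (isOpen_ball.mem_nhds hz)] with x
        hx hx' he
      exact hx ((hΦ i).inj hx' hz he)
    exact h1.frequently.filter_mono nhdsWithin_le_nhds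
  have himg := ((hΦ i).diff.mono hsub').diffContOnCl_ball Subset.rfl
    |>.ball_subset_image_closedBall hs'0 hlow hfreq
  refine Subset.trans ?_ (himg.trans (image_mono (closedBall_subset_closedBall hs's)))
  intro y hy
  rw [mem_ball] at hy ⊢
  have := dist_triangle y (g z) (Φn i z)
  linarith

/-- Points of the disc as parameters of the limit: the key statement along an ultrafilter. -/
theorem rado_ultra {F : Ultrafilter ι} (hK : KConv (F : Filter ι) Dn E)
    (hΦn : ∀ i, CConf (Φn i) (Dn i)) (hΦ : CConf Φ E)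
    (h0 : Tendsto (fun i => Φn i 0) F (𝓝 (Φ 0)))
    (hd : ∀ i, ∃ a : ℝ, 0 ≤ a ∧ deriv (Φn i) 0 = a) (hd' : ∃ b : ℝ, 0 ≤ b ∧ deriv Φ 0 = b) :
    TendstoUniformlyOn Φn Φ (F : Filter ι) (closedBall 0 1) := by
  have z0 : (0 : ℂ) ∈ ball (0 : ℂ) 1 := mem_ball_self one_pos
  have z0' : (0 : ℂ) ∈ closedBall (0 : ℂ) 1 := ball_subset_closedBall z0
  have hmod := fun ε (hε : 0 < ε) => hK.mod hΦn hΦ.isOpen hΦ.zero_mem h0 hε
  obtain ⟨R, hR, hRD⟩ := hK.bdd
  -- the pointwise limit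
  have hlim : ∀ x : ℂ, ∃ y : ℂ, x ∈ closedBall (0 : ℂ) 1 →
      Tendsto (fun i => Φn i x) F (𝓝 y) := by
    intro x
    by_cases hx : x ∈ closedBall (0 : ℂ) 1
    · have hmem : ∀ᶠ i in (F : Filter ι), Φn i x ∈ closedBall (0 : ℂ) R := by
        filter_upwards [hRD] with i hi
        have h1 : Φn i x ∈ closure (Dn i) := by
          rw [← (hΦn i).closure_eq]; exact mem_image_of_mem _ hx
        exact closure_minimal hi isClosed_closedBall h1
      obtain ⟨y, -, hy⟩ := (isCompact_closedBall (0 : ℂ) R).ultrafilter_le_nhds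
        (F.map fun i => Φn i x) (le_principal_iff.2 hmem)
      exact ⟨y, fun _ => hy⟩
    · exact ⟨0, fun h => (hx h).elim⟩
  choose g hg using hlim
  have hgmod : ∀ ε > 0, ∃ δ > 0, ∀ z ∈ closedBall (0 : ℂ) 1, ∀ z' ∈ closedBall (0 : ℂ) 1,
      dist z z' < δ → dist (g z) (g z') ≤ ε := by
    intro ε hε
    obtain ⟨δ, hδ, hev⟩ := hmod ε hε
    refine ⟨δ, hδ, fun z hz z' hz' hzz => ?_⟩
    refine le_of_tendsto ((hg z hz).dist (hg z' hz')) ?_
    filter_upwards [hev] with i hi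
    exact hi z hz z' hz' hzz
  have hgc : ContinuousOn g (closedBall 0 1) := by
    rw [Metric.continuousOn_iff]
    intro b hb ε hε
    obtain ⟨δ, hδ, hm⟩ := hgmod (ε / 2) (half_pos hε)
    exact ⟨δ, hδ, fun a ha hab => (hm a ha b hb hab).trans_lt (half_lt_self hε)⟩
  -- uniform convergence
  have hu : TendstoUniformlyOn Φn g F (closedBall 0 1) := by
    rw [Metric.tendstoUniformlyOn_iff]
    intro ε hε
    obtain ⟨δ₁, hδ₁, hev⟩ := hmod (ε / 4) (by positivity)
    obtain ⟨δ₂, hδ₂, hm⟩ := hgmod (ε / 4) (by positivity)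
    set δ := min δ₁ δ₂ with hδ
    have hδ0 : 0 < δ := lt_min hδ₁ hδ₂
    obtain ⟨t, ht, hcov⟩ := (isCompact_closedBall (0 : ℂ) 1).elim_nhds_subcover
      (fun x => ball x δ) (fun x _ => ball_mem_nhds x hδ0)
    have hfin : ∀ᶠ i in (F : Filter ι), ∀ c ∈ t, dist (Φn i c) (g c) < ε / 4 := by
      rw [Filter.eventually_all_finset]
      intro c hc
      exact hg c (ht c hc) (ball_mem_nhds _ (by positivity))
    filter_upwards [hev, hfin] with i h1 h2 x hx
    obtain ⟨c, hc, hxc⟩ := mem_iUnion₂.1 (hcov hx)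
    rw [mem_ball] at hxc
    have e1 := h1 x hx c (ht c hc) (hxc.trans_le (min_le_left _ _))
    have e2 := hm x hx c (ht c hc) (hxc.trans_le (min_le_right _ _))
    have e3 := h2 c hc
    have e4 := dist_triangle4 (g x) (g c) (Φn i c) (Φn i x)
    rw [dist_comm (g c), dist_comm (Φn i c) (Φn i x)] at e4
    linarith
  have hul : TendstoLocallyUniformlyOn Φn g (F : Filter ι) (ball 0 1) :=
    (hu.mono ball_subset_closedBall).tendstoLocallyUniformlyOn
  have hdn : ∀ᶠ i in (F : Filter ι), DifferentiableOn ℂ (Φn i) (ball 0 1) :=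
    Eventually.of_forall fun i => (hΦn i).diff
  have hgd : DifferentiableOn ℂ g (ball 0 1) := hul.differentiableOn hdn isOpen_ball
  -- surjectivity
  have hsurj : ∀ w ∈ E, ∃ z ∈ ball (0 : ℂ) 1, g z = w := by
    intro w hw
    have h1 : ∀ᶠ i in (F : Filter ι), w ∈ Dn i := by
      filter_upwards [hK.inner {w} (singleton_subset_iff.2 hw) isCompact_singleton] with i hi
      exact hi rfl
    have h2 : ∀ᶠ i in (F : Filter ι), dinv (Φn i) w ∈ closedBall (0 : ℂ) 1 := by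
      filter_upwards [h1] with i hi
      exact ball_subset_closedBall ((hΦn i).dinv_mem hi)
    obtain ⟨z, hz, hlz⟩ := (isCompact_closedBall (0 : ℂ) 1).ultrafilter_le_nhds
      (F.map fun i => dinv (Φn i) w) (le_principal_iff.2 h2)
    have hlz' : Tendsto (fun i => dinv (Φn i) w) F (𝓝 z) := hlz
    have h3 : Tendsto (fun i => Φn i z) F (𝓝 w) := by
      rw [Metric.tendsto_nhds]
      intro ε hε
      obtain ⟨δ, hδ, hev⟩ := hmod (ε / 2) (half_pos hε)
      filter_upwards [h1, h2, hev, hlz' (ball_mem_nhds z hδ)] with i a1 a2 a3 a4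
      have := a3 z hz _ a2 (by rw [dist_comm]; exact a4)
      rw [(hΦn i).apply_dinv a1] at this
      exact this.trans_lt (half_lt_self hε)
    have hgz : g z = w := tendsto_nhds_unique (hg z hz) h3
    refine ⟨z, ?_, hgz⟩
    rcases (mem_closedBall.1 hz).lt_or_eq with hlt | heq
    · exact hlt
    · exfalso
      obtain ⟨r, hr, hrE⟩ := Metric.isOpen_iff.1 hΦ.isOpen w hw
      have h4 := hK.inner (closedBall w (r / 2))
        ((closedBall_subset_ball (by linarith)).trans hrE) (isCompact_closedBall _ _)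
      obtain ⟨i, hi1, hi2⟩ := (h4.and (h3 (closedBall_mem_nhds w (half_pos hr)))).exists
      exact notMem_of_frontier (hΦn i).isOpen ((hΦn i).sphere_mem heq) (hi1 hi2)
  -- the limit is not constant
  have hnc : ∃ x ∈ ball (0 : ℂ) 1, g x ≠ g 0 := by
    by_contra hcon
    push Not at hcon
    have hhalf : (1 / 2 : ℂ) ∈ ball (0 : ℂ) 1 := by
      rw [mem_ball_zero_iff]; norm_num
    obtain ⟨x, hx, hx'⟩ := hsurj _ (hΦ.mem z0)
    obtain ⟨y, hy, hy'⟩ := hsurj _ (hΦ.mem hhalf)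
    have : Φ 0 = Φ (1 / 2) := by rw [← hx', ← hy', hcon x hx, hcon y hy]
    have := hΦ.inj z0 hhalf this
    norm_num at this
  have hopen : ∀ z ∈ ball (0 : ℂ) 1, ∀ s : ℝ, 0 < s → closedBall z s ⊆ ball 0 1 →
      ∃ ρ > 0, ∀ᶠ i in (F : Filter ι), ball (g z) ρ ⊆ Φn i '' closedBall z s :=
    fun z _ s hs hsub => open_stable hgc hgd hΦn hu hnc hs hsub
  have hg0 : g 0 = Φ 0 := tendsto_nhds_unique (hg 0 z0') h0
  -- the image lies in `E`
  have hgE : g '' ball 0 1 ⊆ E := by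
    refine subset_of_frontier hΦ.isOpen
      ((convex_ball 0 1).isPreconnected.image g (hgc.mono ball_subset_closedBall))
      ⟨g 0, mem_image_of_mem _ z0, hg0 ▸ hΦ.zero_mem⟩ ?_
    rw [Set.disjoint_left]
    rintro _ ⟨z, hz, rfl⟩ hzf
    obtain ⟨s, hs, hsub⟩ := Metric.isOpen_iff.1 isOpen_ball z hz
    have hsub' : closedBall z (s / 2) ⊆ ball 0 1 :=
      (closedBall_subset_ball (by linarith)).trans hsub
    obtain ⟨ρ, hρ, hev⟩ := hopen z hz (s / 2) (half_pos hs) hsub'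
    obtain ⟨i, hi1, hi2⟩ := (hev.and (hK.outer _ hzf ρ hρ)).exists
    apply hi2
    refine hi1.trans ?_
    rw [← (hΦn i).img]
    exact image_mono hsub'
  have hinj : InjOn g (ball 0 1) := by
    intro z hz z' hz' he
    by_contra hne
    obtain ⟨s, hs, hsub⟩ := Metric.isOpen_iff.1 isOpen_ball z hz
    obtain ⟨s', hs', hsub'⟩ := Metric.isOpen_iff.1 isOpen_ball z' hz'
    have hdz : 0 < dist z z' := dist_pos.2 hne
    set σ : ℝ := min (min (s / 2) (s' / 2)) (dist z z' / 3) with hσ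
    have hσ0 : 0 < σ := lt_min (lt_min (half_pos hs) (half_pos hs')) (by positivity)
    have hσ1 : σ < s := ((min_le_left _ _).trans (min_le_left _ _)).trans_lt (by linarith)
    have hσ2 : σ < s' := ((min_le_left _ _).trans (min_le_right _ _)).trans_lt (by linarith)
    have hσ3 : σ ≤ dist z z' / 3 := min_le_right _ _
    obtain ⟨ρ, hρ, hev⟩ := hopen z hz σ hσ0 ((closedBall_subset_ball hσ1).trans hsub)
    obtain ⟨ρ', hρ', hev'⟩ := hopen z' hz' σ hσ0 ((closedBall_subset_ball hσ2).trans hsub')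
    obtain ⟨i, hi1, hi2⟩ := (hev.and hev').exists
    obtain ⟨x, hx, hxe⟩ := hi1 (mem_ball_self hρ)
    obtain ⟨x', hx', hxe'⟩ := hi2 (mem_ball_self hρ')
    have h1 : x ∈ ball (0 : ℂ) 1 := hsub (closedBall_subset_ball hσ1 hx)
    have h2 : x' ∈ ball (0 : ℂ) 1 := hsub' (closedBall_subset_ball hσ2 hx')
    have h3 : x = x' := (hΦn i).inj h1 h2 (by rw [hxe, hxe', he])
    rw [mem_closedBall] at hx hx'
    have h4 := dist_triangle_left z z' x
    rw [h3] at hx h4
    linarith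
  have hconf : Conf g E := by
    refine ⟨hgd, hinj, Subset.antisymm hgE ?_⟩
    intro w hw
    obtain ⟨z, hz, hzw⟩ := hsurj w hw
    exact ⟨z, hz, hzw⟩
  -- the derivative at the centre
  have hder : ∃ a : ℝ, 0 ≤ a ∧ deriv g 0 = a := by
    have h1 : TendstoLocallyUniformlyOn (deriv ∘ Φn) (deriv g) (F : Filter ι) (ball 0 1) :=
      hul.deriv hdn isOpen_ball
    have h2 : Tendsto (fun i => deriv (Φn i) 0) F (𝓝 (deriv g 0)) := h1.tendsto_at z0
    have hcl : IsClosed {x : ℂ | 0 ≤ x.re ∧ x.im = 0} :=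
      (isClosed_le continuous_const Complex.continuous_re).inter
        (isClosed_eq Complex.continuous_im continuous_const)
    have h3 := hcl.mem_of_tendsto h2 (Eventually.of_forall fun i => by
      obtain ⟨a, ha, hae⟩ := hd i
      rw [hae]
      exact ⟨by simpa using ha, by simp⟩)
    exact ⟨(deriv g 0).re, h3.1, Complex.ext (by simp) (by simpa using h3.2)⟩
  obtain ⟨a, ha, hae⟩ := hder
  obtain ⟨b, hb, hbe⟩ := hd'
  have heq : EqOn g Φ (ball 0 1) := hconf.eqOn hΦ.toConf hg0 ha hb hae hbe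
  have heq' : EqOn g Φ (closedBall 0 1) :=
    heq.of_subset_closure hgc hΦ.cont ball_subset_closedBall
      (by rw [closure_ball 0 one_ne_zero])
  exact hu.congr_right heq'

/-- **Radó's theorem.** -/
theorem rado (hK : KConv l Dn E) (hΦn : ∀ i, CConf (Φn i) (Dn i)) (hΦ : CConf Φ E)
    (h0 : Tendsto (fun i => Φn i 0) l (𝓝 (Φ 0)))
    (hd : ∀ i, ∃ a : ℝ, 0 ≤ a ∧ deriv (Φn i) 0 = a) (hd' : ∃ b : ℝ, 0 ≤ b ∧ deriv Φ 0 = b) :
    TendstoUniformlyOn Φn Φ l (closedBall 0 1) := by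
  rw [Metric.tendstoUniformlyOn_iff]
  intro ε hε
  by_contra hcon
  rw [not_eventually] at hcon
  set S : Set ι := {i | ¬ ∀ x ∈ closedBall (0 : ℂ) 1, dist (Φ x) (Φn i x) < ε} with hS
  have hne : (l ⊓ 𝓟 S).NeBot := Filter.frequently_iff_neBot.1 hcon
  set F : Ultrafilter ι := Ultrafilter.of (l ⊓ 𝓟 S) with hF
  have hFle : (F : Filter ι) ≤ l ⊓ 𝓟 S := Ultrafilter.of_le _
  have hFl : (F : Filter ι) ≤ l := hFle.trans inf_le_left
  have hFS : S ∈ (F : Filter ι) := le_principal_iff.1 (hFle.trans inf_le_right)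
  have h := Metric.tendstoUniformlyOn_iff.1
    (rado_ultra (hK.mono hFl) hΦn hΦ (h0.mono_left hFl) hd hd') ε hε
  obtain ⟨i, hi1, hi2⟩ := (h.and hFS).exists
  exact hi2 hi1

end Vale.Agent.P153.R2.R1
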